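import Mathlib

/-!
Gaussian tools: polynomially bounded functions, integration by parts, exponential moments.
-/

open MeasureTheory ProbabilityTheory Filter Topology

namespace Vale.Agent.P166

/-- Standard Gaussian vector. -/
noncomputable def gs (n : ℕ) : Measure (Fin n → ℝ) := Measure.pi fun _ => gaussianReal 0 1

instance gs_prob (n : ℕ) : IsProbabilityMeasure (gs n) := by unfold gs; infer_instance

variable {n : ℕ} {T : Set ℝ} {F G : ℝ → (Fin n → ℝ) → ℝ}

/-- Polynomial envelope. -/
noncomputable def env (g : Fin n → ℝ) : ℝ := ∏ i, (1 + g i ^ 2)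

theorem one_le_env (g : Fin n → ℝ) : 1 ≤ env g :=
  Finset.one_le_prod fun i _ => by nlinarith [sq_nonneg (g i)]

theorem abs_coord_le (g : Fin n → ℝ) (i : Fin n) : |g i| ≤ env g := by
  have h : 1 + g i ^ 2 ≤ env g := by
    unfold env
    rw [← Finset.mul_prod_erase Finset.univ _ (Finset.mem_univ i)]
    exact le_mul_of_one_le_right (by positivity)
      (Finset.one_le_prod fun j _ => by nlinarith [sq_nonneg (g j)])
  nlinarith [sq_nonneg (|g i| - 1), sq_abs (g i)]

theorem integrable_sq_add_pow (k : ℕ) :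
    Integrable (fun x : ℝ => (1 + x ^ 2) ^ k) (gaussianReal 0 1) := by
  simp_rw [add_pow, one_pow, one_mul]
  refine integrable_finsetSum _ fun j _ => Integrable.mul_const ?_ _
  simp_rw [← pow_mul]
  exact (memLp_id_gaussianReal ((2 * (k - j) : ℕ) : ENNReal).toNNReal).integrable_norm_pow' |>.congr
    (ae_of_all _ fun x => by simp [pow_mul, sq_abs])

theorem integrable_env_pow (k : ℕ) : Integrable (fun g : Fin n → ℝ => env g ^ k) (gs n) := by
  simp only [env, ← Finset.prod_pow]
  exact Integrable.fintype_prod fun _ => integrable_sq_add_pow k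

/-- Continuous in the space variable with a polynomial bound uniform in the parameter. -/
def Tame (T : Set ℝ) (F : ℝ → (Fin n → ℝ) → ℝ) : Prop :=
  (∀ t ∈ T, Continuous (F t)) ∧ ∃ C k, 0 ≤ C ∧ ∀ t ∈ T, ∀ g, |F t g| ≤ C * env g ^ (k : ℕ)

theorem Tame.mono (h : Tame T F) {T' : Set ℝ} (hT : T' ⊆ T) : Tame T' F :=
  ⟨fun t ht => h.1 t (hT ht), let ⟨C, k, hC, hb⟩ := h.2; ⟨C, k, hC, fun t ht => hb t (hT ht)⟩⟩

theorem tame_bdd (hF : ∀ t ∈ T, Continuous (F t)) {C : ℝ} (hC : 0 ≤ C)
    (hb : ∀ t ∈ T, ∀ g, |F t g| ≤ C) : Tame T F :=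
  ⟨hF, C, 0, hC, fun t ht g => by simpa using hb t ht g⟩

theorem tame_const (c : ℝ) : Tame (n := n) T fun _ _ => c :=
  tame_bdd (fun _ _ => continuous_const) (abs_nonneg c) fun _ _ _ => le_rfl

theorem Tame.add (hF : Tame T F) (hG : Tame T G) : Tame T fun t g => F t g + G t g := by
  obtain ⟨C, k, hC, hb⟩ := hF.2
  obtain ⟨D, l, hD, hb'⟩ := hG.2
  refine ⟨fun t ht => (hF.1 t ht).add (hG.1 t ht), C + D, max k l, add_nonneg hC hD, fun t ht g => ?_⟩
  have h1 := pow_le_pow_right₀ (one_le_env g) (le_max_left k l)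
  have h2 := pow_le_pow_right₀ (one_le_env g) (le_max_right k l)
  rw [add_mul]
  exact (abs_add_le _ _).trans (add_le_add ((hb t ht g).trans (mul_le_mul_of_nonneg_left h1 hC))
    ((hb' t ht g).trans (mul_le_mul_of_nonneg_left h2 hD)))

theorem Tame.mul (hF : Tame T F) (hG : Tame T G) : Tame T fun t g => F t g * G t g := by
  obtain ⟨C, k, hC, hb⟩ := hF.2
  obtain ⟨D, l, hD, hb'⟩ := hG.2
  refine ⟨fun t ht => (hF.1 t ht).mul (hG.1 t ht), C * D, k + l, mul_nonneg hC hD, fun t ht g => ?_⟩
  rw [abs_mul, pow_add, mul_mul_mul_comm]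
  exact mul_le_mul (hb t ht g) (hb' t ht g) (abs_nonneg _)
    (mul_nonneg hC (pow_nonneg (zero_le_one.trans (one_le_env g)) _))

theorem Tame.const_mul (hF : Tame T F) (c : ℝ) : Tame T fun t g => c * F t g :=
  (tame_const c).mul hF

theorem Tame.sub (hF : Tame T F) (hG : Tame T G) : Tame T fun t g => F t g - G t g := by
  have := hF.add (hG.const_mul (-1))
  simpa [sub_eq_add_neg] using this

theorem Tame.sum {ι : Type*} (s : Finset ι) {F : ι → ℝ → (Fin n → ℝ) → ℝ}
    (h : ∀ a ∈ s, Tame T (F a)) : Tame T fun t g => ∑ a ∈ s, F a t g := by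
  classical
  induction s using Finset.induction with
  | empty => simpa using tame_const (T := T) (n := n) 0
  | insert a s ha ih =>
    simp only [Finset.sum_insert ha]
    exact (h a (Finset.mem_insert_self a s)).add (ih fun b hb => h b (Finset.mem_insert_of_mem hb))

theorem tame_lin {v : ℝ → Fin n → ℝ} {C : ℝ} (hC : 0 ≤ C) (hv : ∀ t ∈ T, ∀ i, |v t i| ≤ C) :
    Tame T fun t g => ∑ i, g i * v t i := by
  refine ⟨fun t _ => by fun_prop, C * n, 1, by positivity, fun t ht g => ?_⟩
  refine (Finset.abs_sum_le_sum_abs _ _).trans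
    ((Finset.sum_le_sum (g := fun _ => env g * C) fun i _ => ?_).trans_eq ?_)
  · exact (abs_mul _ _).trans_le (mul_le_mul (abs_coord_le g i) (hv t ht i) (abs_nonneg _)
      (zero_le_one.trans (one_le_env g)))
  · simp only [Finset.sum_const, Finset.card_univ, Fintype.card_fin, nsmul_eq_mul, pow_one]; ring

theorem Tame.integrable (hF : Tame T F) {t : ℝ} (ht : t ∈ T) : Integrable (F t) (gs n) := by
  obtain ⟨C, k, hC, hb⟩ := hF.2
  refine Integrable.mono' ((integrable_env_pow k).const_mul C) (hF.1 t ht).aestronglyMeasurable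
    (ae_of_all _ fun g => ?_)
  simpa [Real.norm_eq_abs] using hb t ht g

/-- Gaussian integration by parts on the line. -/
theorem ibp_real {u u' : ℝ → ℝ} (hu : ∀ x, HasDerivAt u (u' x) x)
    (hi : Integrable u (gaussianReal 0 1)) (hi' : Integrable u' (gaussianReal 0 1))
    (hix : Integrable (fun x => x * u x) (gaussianReal 0 1)) :
    ∫ x, x * u x ∂gaussianReal 0 1 = ∫ x, u' x ∂gaussianReal 0 1 := by
  set p : ℝ → ℝ := gaussianPDFReal 0 1
  have hp : ∀ x, HasDerivAt p (-(x * p x)) x := fun x => by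
    simp only [p, gaussianPDFReal_def, NNReal.coe_one, sub_zero, mul_one]
    have h := ((((hasDerivAt_pow 2 x).neg).div_const 2).exp).const_mul (√(2 * Real.pi))⁻¹
    refine (h.congr_of_eventuallyEq (Eventually.of_forall fun y => ?_)).congr_deriv ?_
    · simp
    · simp; ring
  have hconv : ∀ f : ℝ → ℝ, Integrable f (gaussianReal 0 1) → Integrable (fun x => f x * p x) volume :=
    fun f hf => by
      rw [gaussianReal_of_var_ne_zero 0 one_ne_zero, integrable_withDensity_iff_integrable_smul'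
        (measurable_gaussianPDF 0 1) (ae_of_all _ fun x => gaussianPDF_lt_top)] at hf
      refine hf.congr (ae_of_all _ fun x => ?_)
      simp [p, toReal_gaussianPDF, mul_comm]
  have h1 : Integrable (u * fun x => -(x * p x)) volume :=
    ((hconv _ hix).neg).congr (ae_of_all _ fun x => by simp; ring)
  have h2 : Integrable (u' * p) volume := hconv _ hi'
  have h3 : Integrable (u * p) volume := hconv _ hi
  have := integral_mul_deriv_eq_deriv_mul_of_integrable (fun x _ => hu x) (fun x _ => hp x) h1 h2 h3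
  rw [integral_gaussianReal_eq_integral_smul one_ne_zero,
    integral_gaussianReal_eq_integral_smul one_ne_zero]
  simp only [smul_eq_mul]
  have e1 : ∫ x, u x * -(x * p x) = -∫ x, p x * (x * u x) := by
    rw [← integral_neg]; congr 1; funext x; ring
  rw [e1, show (fun x => u' x * p x) = fun x => p x * u' x from funext fun x => mul_comm _ _] at this
  linarith

/-- Gaussian integration by parts in one coordinate. -/
theorem ibp {F F' : (Fin n → ℝ) → ℝ} (i : Fin n) (hF : Integrable F (gs n))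
    (hF' : Integrable F' (gs n)) (hgF : Integrable (fun g => g i * F g) (gs n))
    (hd : ∀ g, HasDerivAt (fun x => F (Function.update g i x)) (F' g) (g i)) :
    ∫ g, g i * F g ∂gs n = ∫ g, F' g ∂gs n := by
  obtain ⟨m, rfl⟩ : ∃ m, n = m + 1 := ⟨n - 1, by have := i.isLt; omega⟩
  have h := (measurePreserving_piFinSuccAbove (fun _ : Fin (m + 1) => gaussianReal 0 1) i).symm
  have tr : ∀ f : (Fin (m + 1) → ℝ) → ℝ, Integrable f (gs (m + 1)) →
      Integrable (fun p : ℝ × (Fin m → ℝ) => f (i.insertNth p.1 p.2)) ((gaussianReal 0 1).prod (gs m)) ∧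
      ∫ g, f g ∂gs (m + 1) = ∫ y, ∫ x, f (i.insertNth x y) ∂gaussianReal 0 1 ∂gs m := fun f hf => by
    have hf' := hf
    rw [gs, ← h.map_eq, integrable_map_equiv] at hf'
    refine ⟨hf', ?_⟩
    rw [gs, ← h.map_eq, integral_map_equiv]
    exact integral_prod_symm _ hf'
  obtain ⟨a1, -⟩ := tr F hF
  obtain ⟨a2, e2⟩ := tr F' hF'
  obtain ⟨a3, e3⟩ := tr _ hgF
  rw [e2, e3]
  refine integral_congr_ae ?_
  filter_upwards [a1.prod_left_ae, a2.prod_left_ae, a3.prod_left_ae] with y b1 b2 b3
  simp only [Fin.insertNth_apply_same] at b3 ⊢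
  refine ibp_real (fun x => ?_) b1 b2 b3
  have := hd (i.insertNth x y)
  simpa [Fin.update_insertNth] using this

/-- A unit linear form of a standard Gaussian vector is standard Gaussian. -/
theorem map_lin (v : Fin n → ℝ) (hv : ∑ i, v i ^ 2 = 1) :
    (gs n).map (fun g => ∑ i, g i * v i) = gaussianReal 0 1 := by
  have hm : Measurable fun g : Fin n → ℝ => ∑ i, g i * v i := by fun_prop
  have : IsProbabilityMeasure ((gs n).map fun g => ∑ i, g i * v i) :=
    Measure.isProbabilityMeasure_map hm.aemeasurable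
  refine Measure.ext_of_charFun (funext fun t => ?_)
  rw [charFun_gaussianReal, charFun_apply_real, integral_map hm.aemeasurable (by fun_prop)]
  have h1 : ∀ g : Fin n → ℝ, Complex.exp ((t : ℂ) * ((∑ i, g i * v i : ℝ) : ℂ) * Complex.I)
      = ∏ i, Complex.exp (((t * v i : ℝ) : ℂ) * (g i : ℂ) * Complex.I) := fun g => by
    rw [← Complex.exp_sum]; push_cast; rw [Finset.mul_sum, Finset.sum_mul]
    congr 1; refine Finset.sum_congr rfl fun i _ => ?_; ring
  simp only [h1, gs]
  rw [integral_fintype_prod_eq_prod (f := fun i (x : ℝ) =>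
    Complex.exp (((t * v i : ℝ) : ℂ) * (x : ℂ) * Complex.I))]
  simp_rw [← charFun_apply_real, charFun_gaussianReal]
  rw [← Complex.exp_sum]
  congr 1
  have hv' : ((∑ i, v i ^ 2 : ℝ) : ℂ) = 1 := by rw [hv]; simp
  push_cast at hv' ⊢
  simp only [mul_zero, zero_mul, zero_sub, one_mul]
  rw [Finset.sum_neg_distrib, ← Finset.sum_div]
  simp only [mul_pow, ← Finset.mul_sum]
  rw [hv', mul_one]

/-- The value of `E exp (c Z²)`. -/
noncomputable def chi (c : ℝ) : ℝ := (√(1 - 2 * c))⁻¹

theorem integral_exp_sq {c : ℝ} (hc : c < 1 / 2) :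
    Integrable (fun x => Real.exp (c * x ^ 2)) (gaussianReal 0 1) ∧
    ∫ x, Real.exp (c * x ^ 2) ∂gaussianReal 0 1 = chi c := by
  have e : ∀ x : ℝ, gaussianPDFReal 0 1 x * Real.exp (c * x ^ 2)
      = (√(2 * Real.pi))⁻¹ * Real.exp (-(1 / 2 - c) * x ^ 2) := fun x => by
    simp only [gaussianPDFReal_def, NNReal.coe_one, mul_one, sub_zero, mul_assoc, ← Real.exp_add]
    congr 2; ring
  constructor
  · rw [gaussianReal_of_var_ne_zero 0 one_ne_zero, integrable_withDensity_iff_integrable_smul'
      (measurable_gaussianPDF 0 1) (ae_of_all _ fun x => gaussianPDF_lt_top)]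
    simp only [toReal_gaussianPDF, smul_eq_mul, e]
    exact (integrable_exp_neg_mul_sq (by linarith)).const_mul _
  · rw [integral_gaussianReal_eq_integral_smul one_ne_zero]
    simp only [smul_eq_mul, e]
    rw [integral_const_mul, integral_gaussian, ← Real.sqrt_inv, ← Real.sqrt_mul (by positivity), chi,
      ← Real.sqrt_inv]
    congr 1
    have : 1 - 2 * c ≠ 0 := by linarith
    have : Real.pi ≠ 0 := Real.pi_ne_zero
    field_simp

theorem exp_sq_lin (v : Fin n → ℝ) (hv : ∑ i, v i ^ 2 = 1) {c : ℝ} (hc : c < 1 / 2) :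
    Integrable (fun g => Real.exp (c * (∑ i, g i * v i) ^ 2)) (gs n) ∧
    ∫ g, Real.exp (c * (∑ i, g i * v i) ^ 2) ∂gs n = chi c := by
  have hm : Measurable fun g : Fin n → ℝ => ∑ i, g i * v i := by fun_prop
  obtain ⟨h1, h2⟩ := integral_exp_sq hc
  rw [← map_lin v hv] at h1 h2
  exact ⟨(integrable_map_measure (by fun_prop) hm.aemeasurable).1 h1,
    by rw [← h2, integral_map hm.aemeasurable (by fun_prop)]⟩

theorem sq_lin (v : Fin n → ℝ) (hv : ∑ i, v i ^ 2 = 1) :
    ∫ g, (∑ i, g i * v i) ^ 2 ∂gs n = 1 := by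
  have hm : Measurable fun g : Fin n → ℝ => ∑ i, g i * v i := by fun_prop
  have h := variance_id_gaussianReal (μ := 0) (v := 1)
  rw [variance_of_integral_eq_zero aemeasurable_id (by simp)] at h
  simp only [id_eq, NNReal.coe_one] at h
  rw [← map_lin v hv, integral_map hm.aemeasurable (by fun_prop)] at h
  exact h

end Vale.Agent.P166
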