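import Vale.Agent.P166.Deriv

/-!
The first two derivatives of the one-pattern free energy along the interpolation.
-/

open MeasureTheory ProbabilityTheory Filter Topology Set

namespace Vale.Agent.P166

variable {S : Type*} [Fintype S] {n : ℕ} {b : ℝ} {w : S → ℝ}

/-- Interpolated weight vector. -/
noncomputable def vec (v1 v2 : S → Fin n → ℝ) (t : ℝ) (s : S) (i : Fin n) : ℝ :=
  √t * v1 s i + √(1 - t) * v2 s i

/-- Its derivative. -/
noncomputable def dvec (v1 v2 : S → Fin n → ℝ) (t : ℝ) (s : S) (i : Fin n) : ℝ :=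
  1 / (2 * √t) * v1 s i - 1 / (2 * √(1 - t)) * v2 s i

/-- Interpolated fields. -/
noncomputable def hl (v1 v2 : S → Fin n → ℝ) (t : ℝ) (g : Fin n → ℝ) (s : S) : ℝ :=
  ∑ i, g i * vec v1 v2 t s i

noncomputable def dhl (v1 v2 : S → Fin n → ℝ) (t : ℝ) (g : Fin n → ℝ) (s : S) : ℝ :=
  ∑ i, g i * dvec v1 v2 t s i

/-- Difference of the covariances. -/
noncomputable def dcov (v1 v2 : S → Fin n → ℝ) (a c : S) : ℝ :=
  ∑ i, v1 a i * v1 c i - ∑ i, v2 a i * v2 c i

/-- Admissible pairs of weight vectors. -/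
structure Adm (v1 v2 : S → Fin n → ℝ) : Prop where
  unit1 : ∀ s, ∑ i, v1 s i ^ 2 = 1
  unit2 : ∀ s, ∑ i, v2 s i ^ 2 = 1
  orth : ∀ s s', ∑ i, v1 s i * v2 s' i = 0

variable {v1 v2 : S → Fin n → ℝ}

omit [Fintype S] in
theorem dcov_symm (a c : S) : dcov v1 v2 a c = dcov v1 v2 c a := by
  simp only [dcov, mul_comm]

omit [Fintype S] in
theorem dcov_diag (hv : Adm v1 v2) (a : S) : dcov v1 v2 a a = 0 := by
  simp only [dcov, ← pow_two, hv.unit1, hv.unit2, sub_self]

omit [Fintype S] in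
theorem vec_sq (hv : Adm v1 v2) {t : ℝ} (ht : t ∈ Icc (0 : ℝ) 1) (s : S) :
    ∑ i, vec v1 v2 t s i ^ 2 = 1 := by
  have e : ∀ i, vec v1 v2 t s i ^ 2
      = t * v1 s i ^ 2 + (1 - t) * v2 s i ^ 2 + 2 * (√t * √(1 - t)) * (v1 s i * v2 s i) := fun i => by
    rw [vec, add_sq, mul_pow, mul_pow, Real.sq_sqrt ht.1, Real.sq_sqrt (by linarith [ht.2])]
    ring
  simp only [e, Finset.sum_add_distrib, ← Finset.mul_sum, hv.unit1, hv.unit2, hv.orth]
  ring

omit [Fintype S] in
theorem sum_vec_dvec (hv : Adm v1 v2) {t : ℝ} (ht : t ∈ Ioo (0 : ℝ) 1) (a c : S) :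
    ∑ i, dvec v1 v2 t a i * vec v1 v2 t c i = dcov v1 v2 a c / 2 := by
  have h1 : √t ≠ 0 := (Real.sqrt_pos.2 ht.1).ne'
  have h2 : √(1 - t) ≠ 0 := (Real.sqrt_pos.2 (by linarith [ht.2])).ne'
  have e : ∀ i, dvec v1 v2 t a i * vec v1 v2 t c i
      = 1 / 2 * (v1 a i * v1 c i) - 1 / 2 * (v2 a i * v2 c i)
        + √(1 - t) / (2 * √t) * (v1 a i * v2 c i) - √t / (2 * √(1 - t)) * (v1 c i * v2 a i) := fun i => by
    rw [dvec, vec]; field_simp; ring
  simp only [e, Finset.sum_sub_distrib, Finset.sum_add_distrib, ← Finset.mul_sum, hv.orth, dcov]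
  ring

omit [Fintype S] in
theorem hasDeriv_hl {t : ℝ} (ht : t ∈ Ioo (0 : ℝ) 1) (g : Fin n → ℝ) (s : S) :
    HasDerivAt (fun r => hl v1 v2 r g s) (dhl v1 v2 t g s) t := by
  refine HasDerivAt.fun_sum (u := Finset.univ) fun i _ => ?_
  have h1 := (Real.hasDerivAt_sqrt ht.1.ne').mul_const (v1 s i)
  have h2 := (((hasDerivAt_id t).const_sub 1).sqrt (by simp; linarith [ht.2])).mul_const (v2 s i)
  refine ((h1.add h2).const_mul (g i)).congr_deriv ?_
  simp only [dvec, id]
  ring

omit [Fintype S] in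
theorem hasDeriv_hl_update (t : ℝ) (g : Fin n → ℝ) (i : Fin n) (x : ℝ) (s : S) :
    HasDerivAt (fun r => hl v1 v2 t (Function.update g i r) s) (vec v1 v2 t s i) x := by
  have e : ∀ r, hl v1 v2 t (Function.update g i r) s
      = r * vec v1 v2 t s i + ∑ j ∈ Finset.univ.erase i, g j * vec v1 v2 t s j := fun r => by
    rw [hl, ← Finset.add_sum_erase _ _ (Finset.mem_univ i)]
    simp only [Function.update_self]
    congr 1
    exact Finset.sum_congr rfl fun j hj => by
      rw [Function.update_of_ne (Finset.ne_of_mem_erase hj)]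
  simp only [e]
  simpa using ((hasDerivAt_id x).mul_const (vec v1 v2 t s i)).add_const
    (∑ j ∈ Finset.univ.erase i, g j * vec v1 v2 t s j)

section Tame

variable (hw : ∀ s, 0 ≤ w s) (hw1 : ∑ s, w s = 1)
include hw hw1

theorem pfun_mem (h : S → ℝ) (a : S) : pfun b w h a ∈ Icc (0 : ℝ) 1 := by
  have hz := zfun_pos (b := b) hw hw1 h
  refine ⟨div_nonneg (mul_nonneg (hw a) (Real.exp_pos _).le) hz.le, ?_⟩
  rw [pfun, div_le_one hz]
  exact Finset.single_le_sum (f := fun s => w s * Real.exp (b * h s ^ 2 / 2))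
    (fun s _ => mul_nonneg (hw s) (Real.exp_pos _).le) (Finset.mem_univ a)

theorem continuous_pfun (a : S) : Continuous fun h => pfun b w h a := by
  refine Continuous.div (by fun_prop) (by unfold zfun; fun_prop) fun h => (zfun_pos hw hw1 h).ne'

theorem continuous_lfun : Continuous (lfun b w) :=
  (show Continuous (zfun b w) by unfold zfun; fun_prop).log fun h => (zfun_pos hw hw1 h).ne'

theorem continuous_ufun (a : S) : Continuous fun h => ufun b w h a :=
  (continuous_pfun hw hw1 a).mul (continuous_apply a)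

theorem continuous_qfun (a : S) : Continuous fun h => qfun b w h a :=
  (continuous_pfun hw hw1 a).mul (by fun_prop)

theorem continuous_qform (D : S → S → ℝ) : Continuous (qform b w D) :=
  continuous_finsetSum _ fun a _ => (continuous_ufun hw hw1 a).mul
    (continuous_finsetSum _ fun c _ => (continuous_ufun hw hw1 c).const_mul _)

theorem abs_lfun_le (h : S → ℝ) : |lfun b w h| ≤ |b| * ∑ s, h s ^ 2 := by
  have hz := zfun_pos (b := b) hw hw1 h
  have hs : ∀ s, |b * h s ^ 2 / 2| ≤ |b| * ∑ s, h s ^ 2 := fun s => by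
    rw [abs_div, abs_mul, abs_of_nonneg (sq_nonneg (h s)), abs_of_pos (show (0 : ℝ) < 2 by norm_num)]
    have := Finset.single_le_sum (f := fun s => h s ^ 2) (fun s _ => sq_nonneg (h s)) (Finset.mem_univ s)
    nlinarith [abs_nonneg b, sq_nonneg (h s)]
  rw [lfun, abs_le]
  constructor
  · rw [Real.le_log_iff_exp_le hz]
    calc Real.exp (-(|b| * ∑ s, h s ^ 2)) = ∑ s, w s * Real.exp (-(|b| * ∑ s, h s ^ 2)) := by
          rw [← Finset.sum_mul, hw1, one_mul]
      _ ≤ _ := Finset.sum_le_sum fun s _ =>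
          mul_le_mul_of_nonneg_left (Real.exp_le_exp.2 (abs_le.1 (hs s)).1) (hw s)
  · rw [Real.log_le_iff_le_exp hz]
    calc zfun b w h ≤ ∑ s, w s * Real.exp (|b| * ∑ s, h s ^ 2) := Finset.sum_le_sum fun s _ =>
          mul_le_mul_of_nonneg_left (Real.exp_le_exp.2 (abs_le.1 (hs s)).2) (hw s)
      _ = _ := by rw [← Finset.sum_mul, hw1, one_mul]

variable {T : Set ℝ} {h : ℝ → (Fin n → ℝ) → S → ℝ} (hh : ∀ s, Tame T fun t g => h t g s)
include hh

theorem tame_p (a : S) : Tame T fun t g => pfun b w (h t g) a :=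
  tame_bdd (fun t ht => (continuous_pfun hw hw1 a).comp (continuous_pi fun s => (hh s).1 t ht))
    zero_le_one fun t _ g => by
      rw [abs_of_nonneg (pfun_mem hw hw1 _ a).1]; exact (pfun_mem hw hw1 _ a).2

theorem tame_u (a : S) : Tame T fun t g => ufun b w (h t g) a := (tame_p hw hw1 hh a).mul (hh a)

theorem tame_q (a : S) : Tame T fun t g => qfun b w (h t g) a :=
  (tame_p hw hw1 hh a).mul (by simpa only [pow_two] using (tame_const 1).add (((hh a).mul (hh a)).const_mul b))

theorem tame_y (D : S → S → ℝ) (a : S) : Tame T fun t g => yfun b w D (h t g) a :=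
  Tame.sum _ fun c _ => (tame_u hw hw1 hh c).const_mul _

theorem tame_Q (D : S → S → ℝ) : Tame T fun t g => qform b w D (h t g) :=
  Tame.sum _ fun c _ => (tame_u hw hw1 hh c).mul (tame_y hw hw1 hh D c)

theorem tame_k (D : S → S → ℝ) (a : S) : Tame T fun t g => kfun b w D (h t g) a :=
  ((tame_q hw hw1 hh a).mul (tame_y hw hw1 hh D a)).sub
    (((tame_u hw hw1 hh a).const_mul b).mul (tame_Q hw hw1 hh D))

theorem tame_r (a : S) : Tame T fun t g => rfun b w (h t g) a :=
  ((((hh a).const_mul b)).mul (tame_q hw hw1 hh a)).add ((tame_u hw hw1 hh a).const_mul (2 * b))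

theorem tame_g (D : S → S → ℝ) (a : S) : Tame T fun t g => gfun b w D (h t g) a :=
  ((tame_r hw hw1 hh a).mul (tame_y hw hw1 hh D a)).sub
    (((tame_q hw hw1 hh a).const_mul b).mul (tame_Q hw hw1 hh D))

theorem tame_s (D : S → S → ℝ) : Tame T fun t g => sfun b w D (h t g) := by
  have := ((Tame.sum Finset.univ fun a _ => (tame_q (b := b) hw hw1 hh a).mul
      (Tame.sum Finset.univ fun c _ => (tame_q (b := b) hw hw1 hh c).const_mul (D a c ^ 2))).sub
    ((Tame.sum Finset.univ fun a _ => (tame_q (b := b) hw hw1 hh a).mul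
      ((tame_y (b := b) hw hw1 hh D a).mul (tame_y (b := b) hw hw1 hh D a))).const_mul (4 * b))).add
    (((tame_Q (b := b) hw hw1 hh D).mul (tame_Q (b := b) hw hw1 hh D)).const_mul (3 * b ^ 2))
  simpa only [sfun, pow_two] using this

theorem tame_l : Tame T fun t g => lfun b w (h t g) := by
  obtain ⟨-, C, k, hC, hb⟩ := (Tame.sum Finset.univ fun s _ => (hh s).mul (hh s)).const_mul |b|
  refine ⟨fun t ht => (continuous_lfun hw hw1).comp (continuous_pi fun s => (hh s).1 t ht),
    C, k, hC, fun t ht g => (abs_lfun_le hw hw1 _).trans ?_⟩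
  have := (le_abs_self _).trans (hb t ht g)
  simpa [pow_two] using this

end Tame

omit [Fintype S] in
theorem tame_hl (s : S) : Tame (Icc (0 : ℝ) 1) fun t g => hl v1 v2 t g s := by
  refine tame_lin (C := ∑ i, (|v1 s i| + |v2 s i|)) (by positivity) fun t ht i => ?_
  have h1 : √t ≤ 1 := Real.sqrt_le_one.2 ht.2
  have h2 : √(1 - t) ≤ 1 := Real.sqrt_le_one.2 (by linarith [ht.1])
  have := Finset.single_le_sum (f := fun i => |v1 s i| + |v2 s i|) (fun i _ => by positivity) (Finset.mem_univ i)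
  refine le_trans ((abs_add_le _ _).trans (add_le_add ?_ ?_)) this <;>
    rw [abs_mul, abs_of_nonneg (Real.sqrt_nonneg _)] <;>
    exact mul_le_of_le_one_left (abs_nonneg _) ‹_›

omit [Fintype S] in
theorem tame_dhl {l u : ℝ} (hl0 : 0 < l) (hu : u < 1) (s : S) :
    Tame (Icc l u) fun t g => dhl v1 v2 t g s := by
  refine tame_lin (C := ∑ i, (|v1 s i| / (2 * √l) + |v2 s i| / (2 * √(1 - u)))) ?_ fun t ht i => ?_
  · positivity
  have h1 : 0 < √l := Real.sqrt_pos.2 hl0
  have h2 : 0 < √(1 - u) := Real.sqrt_pos.2 (by linarith)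
  have := Finset.single_le_sum (f := fun i => |v1 s i| / (2 * √l) + |v2 s i| / (2 * √(1 - u)))
    (fun i _ => by positivity) (Finset.mem_univ i)
  refine le_trans ((abs_sub _ _).trans (add_le_add ?_ ?_)) this
  · rw [abs_mul, abs_of_nonneg (by positivity), one_div_mul_eq_div]
    gcongr
    exact ht.1
  · rw [abs_mul, abs_of_nonneg (by positivity), one_div_mul_eq_div]
    gcongr
    exact ht.2

omit [Fintype S] in
theorem continuous_hl (g : Fin n → ℝ) : Continuous fun t => hl v1 v2 t g := by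
  unfold hl vec; fun_prop

/-- Differentiation under the Gaussian integral. -/
theorem deriv_under {F F' : ℝ → (Fin n → ℝ) → ℝ} {t : ℝ} (ht : t ∈ Ioo (0 : ℝ) 1)
    (hF : Tame (Icc (0 : ℝ) 1) F) (hF' : Tame (Icc (t / 2) ((1 + t) / 2)) F')
    (hd : ∀ r ∈ Icc (t / 2) ((1 + t) / 2), ∀ g, HasDerivAt (fun r => F r g) (F' r g) r) :
    HasDerivAt (fun r => ∫ g, F r g ∂gs n) (∫ g, F' t g ∂gs n) t := by
  obtain ⟨C, k, -, hb⟩ := hF'.2
  have hs : Icc (t / 2) ((1 + t) / 2) ∈ 𝓝 t := Icc_mem_nhds (by linarith [ht.1]) (by linarith [ht.2])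
  have hsub : Icc (t / 2) ((1 + t) / 2) ⊆ Icc (0 : ℝ) 1 :=
    Icc_subset_Icc (by linarith [ht.1]) (by linarith [ht.2])
  exact (hasDerivAt_integral_of_dominated_loc_of_deriv_le hs
    (by filter_upwards [hs] with r hr using (hF.1 r (hsub hr)).aestronglyMeasurable)
    (hF.integrable (Ioo_subset_Icc_self ht))
    (hF'.1 t ⟨by linarith [ht.1], by linarith [ht.2]⟩).aestronglyMeasurable
    (ae_of_all _ fun g r hr => by simpa [Real.norm_eq_abs] using hb r hr g)
    ((integrable_env_pow k).const_mul C) (ae_of_all _ fun g r hr => hd r hr g)).2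

/-- Integration by parts for the time derivative of the fields. -/
theorem ibp_fields {t : ℝ} {F : S → (Fin n → ℝ) → ℝ} {F' : S → Fin n → (Fin n → ℝ) → ℝ}
    (hF : ∀ c, Tame {t} fun _ => F c) (hF' : ∀ c i, Tame {t} fun _ => F' c i)
    (hd : ∀ c i g, HasDerivAt (fun x => F c (Function.update g i x)) (F' c i g) (g i)) :
    ∫ g, ∑ c, F c g * dhl v1 v2 t g c ∂gs n
      = ∫ g, ∑ c, ∑ i, dvec v1 v2 t c i * F' c i g ∂gs n := by
  have hgi : ∀ i : Fin n, Tame ({t} : Set ℝ) fun _ (g : Fin n → ℝ) => g i := fun i =>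
    ⟨fun _ _ => continuous_apply i, 1, 1, zero_le_one, fun _ _ g => by simpa using abs_coord_le g i⟩
  have hm : t ∈ ({t} : Set ℝ) := rfl
  have i1 : ∀ c i, Integrable (fun g => g i * F c g) (gs n) := fun c i => ((hgi i).mul (hF c)).integrable hm
  have i2 : ∀ c i, Integrable (F' c i) (gs n) := fun c i => (hF' c i).integrable hm
  have e : ∀ g, ∑ c, F c g * dhl v1 v2 t g c = ∑ c, ∑ i, dvec v1 v2 t c i * (g i * F c g) := fun g =>
    Finset.sum_congr rfl fun c _ => by
      rw [dhl, Finset.mul_sum]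
      exact Finset.sum_congr rfl fun i _ => by ring
  simp only [e]
  rw [integral_finsetSum _ fun c _ => integrable_finsetSum _ fun i _ => (i1 c i).const_mul _,
    integral_finsetSum _ fun c _ => integrable_finsetSum _ fun i _ => (i2 c i).const_mul _]
  refine Finset.sum_congr rfl fun c _ => ?_
  rw [integral_finsetSum _ fun i _ => (i1 c i).const_mul _,
    integral_finsetSum _ fun i _ => (i2 c i).const_mul _]
  refine Finset.sum_congr rfl fun i _ => ?_
  rw [integral_const_mul, integral_const_mul,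
    ibp i ((hF c).integrable hm) (i2 c i) (i1 c i) (hd c i)]

theorem contract_vec (hv : Adm v1 v2) {t : ℝ} (ht : t ∈ Ioo (0 : ℝ) 1) (a : S) (X : S → ℝ) :
    ∑ i, dvec v1 v2 t a i * ∑ c, X c * vec v1 v2 t c i = ∑ c, X c * (dcov v1 v2 a c / 2) := by
  simp only [Finset.mul_sum, ← sum_vec_dvec hv ht a]
  rw [Finset.sum_comm]
  exact Finset.sum_congr rfl fun c _ => Finset.sum_congr rfl fun i _ => by ring

section Derivs

variable (hw : ∀ s, 0 ≤ w s) (hw1 : ∑ s, w s = 1) (hv : Adm v1 v2)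
  {t : ℝ} (ht : t ∈ Ioo (0 : ℝ) 1)
include hw hw1 hv ht

/-- First derivative. -/
theorem deriv_phi : HasDerivAt (fun r => ∫ g, lfun b w (hl v1 v2 r g) ∂gs n)
    (-(b ^ 2 / 2) * ∫ g, qform b w (dcov v1 v2) (hl v1 v2 t g) ∂gs n) t := by
  have hsub : Icc (t / 2) ((1 + t) / 2) ⊆ Icc (0 : ℝ) 1 :=
    Icc_subset_Icc (by linarith [ht.1]) (by linarith [ht.2])
  have hT : ∀ s : S, Tame ({t} : Set ℝ) fun r g => hl v1 v2 r g s := fun s =>
    (tame_hl s).mono (singleton_subset_iff.2 (Ioo_subset_Icc_self ht))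
  refine (deriv_under ht (tame_l hw hw1 tame_hl)
    (F' := fun r g => b * ∑ c, ufun b w (hl v1 v2 r g) c * dhl v1 v2 r g c)
    ((Tame.sum _ fun c _ => ((tame_u hw hw1 fun s => (tame_hl s).mono hsub) c).mul
      (tame_dhl (by linarith [ht.1]) (by linarith [ht.2]) c)).const_mul b)
    fun r hr g => hasDeriv_l hw hw1 fun a => hasDeriv_hl
      ⟨by linarith [hr.1, ht.1], by linarith [hr.2, ht.2]⟩ g a).congr_deriv ?_
  rw [integral_const_mul, ibp_fields (F := fun c g => ufun b w (hl v1 v2 t g) c)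
    (F' := fun c i g => qfun b w (hl v1 v2 t g) c * vec v1 v2 t c i
      - b * ufun b w (hl v1 v2 t g) c * ∑ e, ufun b w (hl v1 v2 t g) e * vec v1 v2 t e i)]
  rotate_left
  · intro c
    obtain ⟨h1, C, k, hC, hb⟩ := tame_u (b := b) hw hw1 hT c
    exact ⟨fun _ _ => h1 t rfl, C, k, hC, fun _ _ g => hb t rfl g⟩
  · intro c i
    obtain ⟨h1, C, k, hC, hb⟩ := ((tame_q (b := b) hw hw1 hT c).mul (tame_const (vec v1 v2 t c i))).sub
      (((tame_u (b := b) hw hw1 hT c).const_mul b).mul (Tame.sum Finset.univ fun e _ =>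
        (tame_u (b := b) hw hw1 hT e).mul (tame_const (vec v1 v2 t e i))))
    exact ⟨fun _ _ => h1 t rfl, C, k, hC, fun _ _ g => hb t rfl g⟩
  · intro c i g
    have := hasDeriv_u (b := b) hw hw1 (h := fun x => hl v1 v2 t (Function.update g i x))
      (x := g i) (fun a => hasDeriv_hl_update t g i (g i) a) c
    simpa using this
  rw [← integral_const_mul, ← integral_const_mul]
  congr 1; funext g
  set h := hl v1 v2 t g
  rw [Finset.mul_sum, qform, Finset.mul_sum]
  refine Finset.sum_congr rfl fun c _ => ?_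
  have e : ∑ i, dvec v1 v2 t c i * (qfun b w h c * vec v1 v2 t c i
      - b * ufun b w h c * ∑ e, ufun b w h e * vec v1 v2 t e i)
      = qfun b w h c * (∑ i, dvec v1 v2 t c i * vec v1 v2 t c i)
        - b * ufun b w h c * ∑ i, dvec v1 v2 t c i * ∑ e, ufun b w h e * vec v1 v2 t e i := by
    rw [Finset.mul_sum, Finset.mul_sum, ← Finset.sum_sub_distrib]
    exact Finset.sum_congr rfl fun i _ => by ring
  rw [e, contract_vec hv ht, sum_vec_dvec hv ht, dcov_diag hv, yfun]
  simp only [Finset.mul_sum, zero_div, mul_zero, zero_sub, ← Finset.sum_neg_distrib]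
  exact Finset.sum_congr rfl fun e _ => by ring

/-- Derivative of the quadratic form. -/
theorem deriv_psi : HasDerivAt (fun r => ∫ g, qform b w (dcov v1 v2) (hl v1 v2 r g) ∂gs n)
    (∫ g, sfun b w (dcov v1 v2) (hl v1 v2 t g) ∂gs n) t := by
  set D := dcov v1 v2
  have hsub : Icc (t / 2) ((1 + t) / 2) ⊆ Icc (0 : ℝ) 1 :=
    Icc_subset_Icc (by linarith [ht.1]) (by linarith [ht.2])
  have hT : ∀ s : S, Tame ({t} : Set ℝ) fun r g => hl v1 v2 r g s := fun s =>
    (tame_hl s).mono (singleton_subset_iff.2 (Ioo_subset_Icc_self ht))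
  refine (deriv_under ht (tame_Q hw hw1 tame_hl D)
    (F' := fun r g => 2 * ∑ c, kfun b w D (hl v1 v2 r g) c * dhl v1 v2 r g c)
    ((Tame.sum _ fun c _ => ((tame_k hw hw1 (fun s => (tame_hl s).mono hsub) D) c).mul
      (tame_dhl (by linarith [ht.1]) (by linarith [ht.2]) c)).const_mul 2)
    fun r hr g => hasDeriv_Q hw hw1 (fun a => hasDeriv_hl
      ⟨by linarith [hr.1, ht.1], by linarith [hr.2, ht.2]⟩ g a) dcov_symm).congr_deriv ?_
  rw [integral_const_mul, ibp_fields (F := fun c g => kfun b w D (hl v1 v2 t g) c)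
    (F' := fun a i g =>
      let h := hl v1 v2 t g
      gfun b w D h a * vec v1 v2 t a i
        + (qfun b w h a * (∑ c, D a c * qfun b w h c * vec v1 v2 t c i
            - 2 * b * yfun b w D h a * ∑ c, ufun b w h c * vec v1 v2 t c i)
          + b ^ 2 * ufun b w h a * qform b w D h * ∑ c, ufun b w h c * vec v1 v2 t c i
          - 2 * b * ufun b w h a * ∑ c, kfun b w D h c * vec v1 v2 t c i))]
  rotate_left
  · intro c
    obtain ⟨h1, C, k, hC, hb⟩ := tame_k (b := b) hw hw1 hT D c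
    exact ⟨fun _ _ => h1 t rfl, C, k, hC, fun _ _ g => hb t rfl g⟩
  · intro a i
    have tq := tame_q (b := b) hw hw1 hT
    have tu := tame_u (b := b) hw hw1 hT
    have tv : ∀ (X : S → ℝ → (Fin n → ℝ) → ℝ), (∀ c, Tame {t} (X c)) →
        Tame {t} fun r g => ∑ c, X c r g * vec v1 v2 t c i := fun X hX =>
      Tame.sum _ fun c _ => (hX c).mul (tame_const _)
    obtain ⟨h1, C, k, hC, hb⟩ := ((tame_g (b := b) hw hw1 hT D a).mul (tame_const (vec v1 v2 t a i))).add
      ((((tq a).mul (((tv _ fun c => (tame_const (D a c)).mul (tq c))).sub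
        (((tame_y (b := b) hw hw1 hT D a).const_mul (2 * b)).mul (tv _ tu)))).add
        ((((tu a).const_mul (b ^ 2)).mul (tame_Q (b := b) hw hw1 hT D)).mul (tv _ tu))).sub
        (((tu a).const_mul (2 * b)).mul (tv _ (tame_k (b := b) hw hw1 hT D))))
    exact ⟨fun _ _ => h1 t rfl, C, k, hC, fun _ _ g => hb t rfl g⟩
  · intro c i g
    have := hasDeriv_k (b := b) (D := D) hw hw1 (h := fun x => hl v1 v2 t (Function.update g i x))
      (x := g i) (fun a => hasDeriv_hl_update t g i (g i) a) dcov_symm c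
    simpa using this
  rw [← integral_const_mul]
  congr 1; funext g
  set h := hl v1 v2 t g
  rw [← contract (b := b) (w := w) dcov_symm (dcov_diag hv) h, Finset.mul_sum]
  refine Finset.sum_congr rfl fun a _ => ?_
  have lin : ∀ X : S → ℝ, ∑ i, dvec v1 v2 t a i * ∑ c, X c * vec v1 v2 t c i
      = (∑ c, X c * D a c) / 2 := fun X => by
    rw [contract_vec hv ht, Finset.sum_div]
    exact Finset.sum_congr rfl fun c _ => by ring
  have e : ∑ i, dvec v1 v2 t a i * (gfun b w D h a * vec v1 v2 t a i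
        + (qfun b w h a * (∑ c, D a c * qfun b w h c * vec v1 v2 t c i
            - 2 * b * yfun b w D h a * ∑ c, ufun b w h c * vec v1 v2 t c i)
          + b ^ 2 * ufun b w h a * qform b w D h * ∑ c, ufun b w h c * vec v1 v2 t c i
          - 2 * b * ufun b w h a * ∑ c, kfun b w D h c * vec v1 v2 t c i))
      = gfun b w D h a * (∑ i, dvec v1 v2 t a i * vec v1 v2 t a i)
        + (qfun b w h a * (∑ i, dvec v1 v2 t a i * ∑ c, D a c * qfun b w h c * vec v1 v2 t c i
            - 2 * b * yfun b w D h a * ∑ i, dvec v1 v2 t a i * ∑ c, ufun b w h c * vec v1 v2 t c i)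
          + b ^ 2 * ufun b w h a * qform b w D h
              * ∑ i, dvec v1 v2 t a i * ∑ c, ufun b w h c * vec v1 v2 t c i
          - 2 * b * ufun b w h a * ∑ i, dvec v1 v2 t a i * ∑ c, kfun b w D h c * vec v1 v2 t c i) := by
    simp only [mul_add, mul_sub, Finset.sum_add_distrib, Finset.sum_sub_distrib]
    simp only [Finset.mul_sum]
    refine congrArg₂ (· + ·) ?_ (congrArg₂ (· - ·) (congrArg₂ (· + ·) (congrArg₂ (· - ·) ?_ ?_) ?_) ?_)
    all_goals
      exact Finset.sum_congr rfl fun i _ => by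
        ring_nf
  rw [e, lin, lin, lin, sum_vec_dvec hv ht, dcov_diag hv]
  ring

end Derivs

end Vale.Agent.P166
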