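import Vale.Agent.P166.Tame

/-!
Limits of products of normalised trace moments of a Wishart matrix, by integration by parts.
-/

open MeasureTheory ProbabilityTheory Filter Topology Finset Matrix

namespace Vale.Agent.P166

variable {M N : ℕ}

/-- A Gaussian vector read as an `M × N` matrix. -/
noncomputable def mat (g : Fin (M * N) → ℝ) : Matrix (Fin M) (Fin N) ℝ :=
  fun a i => g (finProdFinEquiv (a, i))

/-- Its Gram matrix. -/
noncomputable def gram (g : Fin (M * N) → ℝ) : Matrix (Fin N) (Fin N) ℝ := (mat g)ᵀ * mat g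

/-- Normalised trace moment. -/
noncomputable def tm (k : ℕ) (g : Fin (M * N) → ℝ) : ℝ := (gram g ^ k).trace / (N : ℝ) ^ (k + 1)

/-- Product of normalised trace moments. -/
noncomputable def tprod : List ℕ → (Fin (M * N) → ℝ) → ℝ
  | [], _ => 1
  | k :: l, g => tm k g * tprod l g

/-- Perturbation direction of the Gram matrix in the coordinate `(a, i)`. -/
noncomputable def dgram (g : Fin (M * N) → ℝ) (a : Fin M) (i : Fin N) : Matrix (Fin N) (Fin N) ℝ :=
  fun k l => (if k = i then mat g a l else 0) + (if l = i then mat g a k else 0)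

/-- Derivative of a power. -/
noncomputable def dpow (g : Fin (M * N) → ℝ) (a : Fin M) (i : Fin N) (p : ℕ) :
    Matrix (Fin N) (Fin N) ℝ :=
  ∑ r ∈ range p, gram g ^ r * dgram g a i * gram g ^ (p - 1 - r)

theorem hasDeriv_coord (g : Fin (M * N) → ℝ) (a : Fin M) (i : Fin N) (b : Fin M) (k : Fin N) :
    HasDerivAt (fun x => mat (Function.update g (finProdFinEquiv (a, i)) x) b k)
      (if b = a ∧ k = i then 1 else 0) (g (finProdFinEquiv (a, i))) := by
  simp only [mat, Function.update_apply, EmbeddingLike.apply_eq_iff_eq, Prod.mk.injEq]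
  split_ifs
  · exact hasDerivAt_id _
  · exact hasDerivAt_const _ _

theorem hasDeriv_gram (g : Fin (M * N) → ℝ) (a : Fin M) (i : Fin N) (k l : Fin N) :
    HasDerivAt (fun x => gram (Function.update g (finProdFinEquiv (a, i)) x) k l)
      (dgram g a i k l) (g (finProdFinEquiv (a, i))) := by
  simp only [gram, Matrix.mul_apply, Matrix.transpose_apply]
  refine (HasDerivAt.fun_sum (u := univ) fun b _ =>
    (hasDeriv_coord g a i b k).mul (hasDeriv_coord g a i b l)).congr_deriv ?_
  simp [dgram, ite_and, Finset.sum_add_distrib, Function.update_eq_self]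

theorem dpow_succ (g : Fin (M * N) → ℝ) (a : Fin M) (i : Fin N) (p : ℕ) :
    dpow g a i (p + 1) = dpow g a i p * gram g + gram g ^ p * dgram g a i := by
  simp only [dpow, Finset.sum_range_succ, Nat.add_sub_cancel, Nat.sub_self, pow_zero, mul_one,
    Finset.sum_mul]
  congr 1
  refine Finset.sum_congr rfl fun r hr => ?_
  rw [mul_assoc (gram g ^ r * dgram g a i), ← pow_succ,
    show p - 1 - r + 1 = p - r by have := mem_range.1 hr; omega]

theorem hasDeriv_pow (g : Fin (M * N) → ℝ) (a : Fin M) (i : Fin N) (p : ℕ) (k l : Fin N) :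
    HasDerivAt (fun x => (gram (Function.update g (finProdFinEquiv (a, i)) x) ^ p) k l)
      (dpow g a i p k l) (g (finProdFinEquiv (a, i))) := by
  induction p generalizing k l with
  | zero => simp only [pow_zero, dpow, range_zero, sum_empty]; exact hasDerivAt_const _ _
  | succ p ih =>
    simp only [pow_succ, Matrix.mul_apply]
    refine (HasDerivAt.fun_sum (u := univ) fun c _ =>
      (ih k c).mul (hasDeriv_gram g a i c l)).congr_deriv ?_
    simp [dpow_succ, Matrix.add_apply, Matrix.mul_apply, Finset.sum_add_distrib, Function.update_eq_self]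

theorem gram_pow_transpose (g : Fin (M * N) → ℝ) (p : ℕ) : (gram g ^ p)ᵀ = gram g ^ p := by
  rw [Matrix.transpose_pow]; simp [gram]

theorem gram_pow_symm (g : Fin (M * N) → ℝ) (p : ℕ) (k l : Fin N) :
    (gram g ^ p) k l = (gram g ^ p) l k := by
  conv_lhs => rw [← gram_pow_transpose g p]
  rfl

theorem sum_mat_mul (g : Fin (M * N) → ℝ) (p q : ℕ) :
    ∑ a, ∑ i, (mat g * gram g ^ p) a i * (mat g * gram g ^ q) a i = (gram g ^ (p + q + 1)).trace := by
  have h : ∑ a, ∑ i, (mat g * gram g ^ p) a i * (mat g * gram g ^ q) a i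
      = ((mat g * gram g ^ p)ᵀ * (mat g * gram g ^ q)).trace := by
    simp only [Matrix.trace, Matrix.diag, Matrix.mul_apply, Matrix.transpose_apply]
    exact Finset.sum_comm
  rw [h, Matrix.transpose_mul, gram_pow_transpose, Matrix.mul_assoc]
  congr 1
  rw [← Matrix.mul_assoc (mat g)ᵀ]
  change gram g ^ p * (gram g * gram g ^ q) = _
  rw [← pow_succ', ← pow_add, Nat.add_assoc]

theorem mul_dgram (g : Fin (M * N) → ℝ) (A B : Matrix (Fin N) (Fin N) ℝ) (a : Fin M) (i : Fin N)
    (k l : Fin N) : (A * dgram g a i * B) k l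
      = A k i * (mat g * B) a l + (∑ c, A k c * mat g a c) * B i l := by
  simp only [Matrix.mul_apply, dgram, mul_add, add_mul, Finset.sum_add_distrib, Finset.sum_mul,
    Finset.mul_sum]
  congr 1
  · refine Finset.sum_congr rfl fun x _ => ?_
    rw [Finset.sum_eq_single i (fun y _ hy => by simp [hy]) (fun h => absurd (mem_univ i) h)]
    simp; ring
  · rw [Finset.sum_eq_single i (fun y _ hy => by simp [hy]) (fun h => absurd (mem_univ i) h)]
    simp

theorem mat_mul_gram_symm (g : Fin (M * N) → ℝ) (p : ℕ) (a : Fin M) (k : Fin N) :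
    ∑ c, (gram g ^ p) k c * mat g a c = (mat g * gram g ^ p) a k := by
  simp only [Matrix.mul_apply]
  exact Finset.sum_congr rfl fun c _ => by rw [gram_pow_symm g p k c]; ring

/-- The divergence of `g ↦ G (GᵀG)^k`. -/
theorem div_matpow (g : Fin (M * N) → ℝ) (k : ℕ) :
    ∑ a, ∑ i, ((gram g ^ k) i i + ∑ c, mat g a c * dpow g a i k c i)
      = (M : ℝ) * (gram g ^ k).trace
        + ∑ p ∈ range k, ((gram g ^ (p + 1)).trace * (gram g ^ (k - 1 - p)).trace + (gram g ^ k).trace) := by
  rw [show (M : ℝ) * (gram g ^ k).trace = ∑ _a : Fin M, ∑ i, (gram g ^ k) i i by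
    simp [Matrix.trace, Matrix.diag]]
  simp only [Finset.sum_add_distrib]
  congr 1
  simp only [dpow, Matrix.sum_apply, mul_dgram, mat_mul_gram_symm, Finset.mul_sum]
  rw [Finset.sum_congr rfl fun a _ => Finset.sum_congr rfl fun i _ => Finset.sum_comm]
  rw [Finset.sum_congr rfl fun a _ => Finset.sum_comm, Finset.sum_comm, ← Finset.sum_add_distrib]
  refine Finset.sum_congr rfl fun p hp => ?_
  set q := k - 1 - p
  have e1 : ∑ a, ∑ i, ∑ c, mat g a c * ((gram g ^ p) c i * (mat g * gram g ^ q) a i)
      = (gram g ^ k).trace := by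
    rw [show k = p + q + 1 by have := mem_range.1 hp; omega, ← sum_mat_mul]
    simp only [Matrix.mul_apply (M := mat g) (N := gram g ^ p), Finset.sum_mul]
    exact Finset.sum_congr rfl fun a _ => Finset.sum_congr rfl fun i _ =>
      Finset.sum_congr rfl fun c _ => by ring
  have e2 : ∑ a, ∑ i, ∑ c, mat g a c * ((mat g * gram g ^ p) a c * (gram g ^ q) i i)
      = (gram g ^ (p + 1)).trace * (gram g ^ q).trace := by
    have h := sum_mat_mul g 0 p
    simp only [pow_zero, Matrix.mul_one, Nat.zero_add] at h
    rw [← h, Finset.sum_mul]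
    refine Finset.sum_congr rfl fun a _ => ?_
    simp only [Matrix.trace, Matrix.diag, Finset.sum_mul, Finset.mul_sum]
    exact Finset.sum_congr rfl fun i _ => Finset.sum_congr rfl fun c _ => by ring
  simp only [mul_add, Finset.sum_add_distrib]
  rw [e1, e2]; ring

theorem trace_dgram (g : Fin (M * N) → ℝ) (A : Matrix (Fin N) (Fin N) ℝ)
    (hA : ∀ k l, A k l = A l k) (a : Fin M) (i : Fin N) :
    (A * dgram g a i).trace = 2 * (mat g * A) a i := by
  have hs : ∀ x : Fin N, ∀ F : Fin N → ℝ, (∑ y, if x = i then F y else 0) = if x = i then ∑ y, F y else 0 :=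
    fun x F => by split_ifs <;> simp
  simp only [Matrix.trace, Matrix.diag, Matrix.mul_apply, dgram, mul_add, Finset.sum_add_distrib,
    mul_ite, mul_zero, hs, Finset.sum_ite_eq', mem_univ, if_true]
  rw [two_mul]
  congr 1
  · exact Finset.sum_congr rfl fun c _ => mul_comm _ _
  · exact Finset.sum_congr rfl fun c _ => by rw [hA i c]; ring

theorem trace_dpow (g : Fin (M * N) → ℝ) (p : ℕ) (a : Fin M) (i : Fin N) :
    (dpow g a i p).trace = 2 * p * (mat g * gram g ^ (p - 1)) a i := by
  simp only [dpow, Matrix.trace_sum]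
  rw [Finset.sum_congr rfl fun r hr => show (gram g ^ r * dgram g a i * gram g ^ (p - 1 - r)).trace
      = 2 * (mat g * gram g ^ (p - 1)) a i by
    rw [Matrix.trace_mul_cycle, ← pow_add, show p - 1 - r + r = p - 1 by have := mem_range.1 hr; omega,
      trace_dgram g _ (gram_pow_symm g _)]]
  simp; ring

theorem hasDeriv_tm (g : Fin (M * N) → ℝ) (a : Fin M) (i : Fin N) (j : ℕ) :
    HasDerivAt (fun x => tm j (Function.update g (finProdFinEquiv (a, i)) x))
      (2 * j * (mat g * gram g ^ (j - 1)) a i / (N : ℝ) ^ (j + 1)) (g (finProdFinEquiv (a, i))) := by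
  have h := (HasDerivAt.fun_sum (u := univ) fun k _ => hasDeriv_pow g a i j k k).div_const ((N : ℝ) ^ (j + 1))
  exact h.congr_deriv (by rw [← trace_dpow]; rfl)

/-- Derivative of a product of moments. -/
noncomputable def dprod (g : Fin (M * N) → ℝ) (a : Fin M) (i : Fin N) : List ℕ → ℝ
  | [] => 0
  | j :: l => 2 * j * (mat g * gram g ^ (j - 1)) a i / (N : ℝ) ^ (j + 1) * tprod l g + tm j g * dprod g a i l

theorem hasDeriv_tprod (g : Fin (M * N) → ℝ) (a : Fin M) (i : Fin N) (l : List ℕ) :
    HasDerivAt (fun x => tprod l (Function.update g (finProdFinEquiv (a, i)) x))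
      (dprod g a i l) (g (finProdFinEquiv (a, i))) := by
  induction l with
  | nil => simp only [tprod, dprod]; exact hasDerivAt_const _ _
  | cons j l ih =>
    refine ((hasDeriv_tm g a i j).mul ih).congr_deriv ?_
    simp [dprod, Function.update_eq_self]

/-- The cross term. -/
noncomputable def cross (k : ℕ) : List ℕ → (Fin (M * N) → ℝ) → ℝ
  | [], _ => 0
  | j :: l, g => 2 * j * tm (k + j) g * tprod l g + tm j g * cross k l g

theorem sum_dprod (hN : 0 < N) (g : Fin (M * N) → ℝ) (k : ℕ) (l : List ℕ) :
    ∑ a, ∑ i, (mat g * gram g ^ k) a i * dprod g a i l = (N : ℝ) ^ k * cross k l g := by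
  induction l with
  | nil => simp [dprod, cross]
  | cons j l ih =>
    have hN' : (N : ℝ) ≠ 0 := by exact_mod_cast hN.ne'
    have e : ∀ a i, (mat g * gram g ^ k) a i * dprod g a i (j :: l)
        = 2 * j / (N : ℝ) ^ (j + 1) * tprod l g * ((mat g * gram g ^ k) a i * (mat g * gram g ^ (j - 1)) a i)
          + tm j g * ((mat g * gram g ^ k) a i * dprod g a i l) := fun a i => by
      rw [dprod]; ring
    simp only [e, Finset.sum_add_distrib, ← Finset.mul_sum, sum_mat_mul, ih, cross]
    rcases Nat.eq_zero_or_pos j with rfl | hj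
    · simp; ring
    · rw [show k + (j - 1) + 1 = k + j by omega]
      simp only [tm]
      field_simp
      ring

/-- Tameness of a function of the Gaussian vector. -/
def PolyB {n : ℕ} (F : (Fin n → ℝ) → ℝ) : Prop := Tame (Set.univ : Set ℝ) fun _ g => F g

theorem PolyB.integrable {n : ℕ} {F : (Fin n → ℝ) → ℝ} (h : PolyB F) : Integrable F (gs n) :=
  Tame.integrable (T := (Set.univ : Set ℝ)) (F := fun _ g => F g) h (t := 0) (Set.mem_univ _)

theorem polyB_coord {n : ℕ} (j : Fin n) : PolyB fun g : Fin n → ℝ => g j := by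
  refine ⟨fun _ _ => continuous_apply j, 1, 1, zero_le_one, fun _ _ g => ?_⟩
  simpa using abs_coord_le g j

theorem polyB_pow (k : ℕ) (x y : Fin N) : PolyB fun g : Fin (M * N) → ℝ => (gram g ^ k) x y := by
  induction k generalizing x y with
  | zero => simp only [pow_zero]; exact tame_const _
  | succ k ih =>
    simp only [pow_succ, Matrix.mul_apply]
    refine Tame.sum _ fun c _ => (ih x c).mul ?_
    simp only [gram, Matrix.mul_apply, Matrix.transpose_apply, mat]
    exact Tame.sum _ fun b _ => Tame.mul (polyB_coord _) (polyB_coord _)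

theorem polyB_mgp (k : ℕ) (a : Fin M) (i : Fin N) :
    PolyB fun g : Fin (M * N) → ℝ => (mat g * gram g ^ k) a i := by
  simp only [Matrix.mul_apply, mat]
  exact Tame.sum _ fun c _ => Tame.mul (polyB_coord _) (polyB_pow k c i)

theorem polyB_tm (k : ℕ) : PolyB fun g : Fin (M * N) → ℝ => tm k g := by
  simp only [tm, Matrix.trace, Matrix.diag, div_eq_mul_inv]
  exact Tame.mul (Tame.sum _ fun c _ => polyB_pow k c c) (tame_const _)

theorem polyB_tprod (l : List ℕ) : PolyB fun g : Fin (M * N) → ℝ => tprod l g := by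
  induction l with
  | nil => simp only [tprod]; exact tame_const _
  | cons k l ih => simp only [tprod]; exact Tame.mul (polyB_tm k) ih

theorem polyB_cross (k : ℕ) (l : List ℕ) : PolyB fun g : Fin (M * N) → ℝ => cross k l g := by
  induction l with
  | nil => simp only [cross]; exact tame_const _
  | cons j l ih =>
    simp only [cross]
    exact Tame.add (Tame.mul (Tame.mul (tame_const _) (polyB_tm _)) (polyB_tprod l))
      (Tame.mul (polyB_tm j) ih)

theorem polyB_dpow (a : Fin M) (i : Fin N) (k : ℕ) (x y : Fin N) :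
    PolyB fun g : Fin (M * N) → ℝ => dpow g a i k x y := by
  simp only [dpow, Matrix.sum_apply, mul_dgram]
  refine Tame.sum _ fun r _ => Tame.add (Tame.mul (polyB_pow _ _ _) (polyB_mgp _ _ _))
    (Tame.mul (Tame.sum _ fun c _ => Tame.mul (polyB_pow _ _ _) ?_) (polyB_pow _ _ _))
  exact polyB_coord _

theorem polyB_dprod (a : Fin M) (i : Fin N) (l : List ℕ) :
    PolyB fun g : Fin (M * N) → ℝ => dprod g a i l := by
  induction l with
  | nil => simp only [dprod]; exact tame_const _
  | cons j l ih =>
    simp only [dprod, div_eq_mul_inv]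
    exact Tame.add (Tame.mul (Tame.mul (Tame.mul (tame_const _) (polyB_mgp _ _ _)) (tame_const _))
      (polyB_tprod l)) (Tame.mul (polyB_tm j) ih)

/-- Expected product of moments. -/
noncomputable def emom (M N : ℕ) (l : List ℕ) : ℝ := ∫ g, tprod (M := M) (N := N) l g ∂gs (M * N)

theorem emom_zero (hN : 0 < N) (l : List ℕ) : emom M N (0 :: l) = emom M N l := by
  have hN' : (N : ℝ) ≠ 0 := by exact_mod_cast hN.ne'
  simp [emom, tprod, tm, Matrix.trace_one, hN']

/-- Expected cross term with a prefix. -/
noncomputable def ecross (M N k : ℕ) (pre l : List ℕ) : ℝ :=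
  ∫ g, tprod (M := M) (N := N) pre g * cross k l g ∂gs (M * N)

theorem tprod_append (p q : List ℕ) (g : Fin (M * N) → ℝ) :
    tprod (p ++ q) g = tprod p g * tprod q g := by
  induction p with
  | nil => simp [tprod]
  | cons a p ih => simp [tprod, ih]; ring

theorem ecross_cons (k j : ℕ) (pre l : List ℕ) :
    ecross M N k pre (j :: l)
      = 2 * j * emom M N (pre ++ (k + j) :: l) + ecross M N k (pre ++ [j]) l := by
  simp only [ecross, emom]
  have i2 : PolyB fun g : Fin (M * N) → ℝ => tprod (pre ++ [j]) g * cross k l g :=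
    Tame.mul (polyB_tprod _) (polyB_cross k l)
  rw [← integral_const_mul, ← integral_add ((polyB_tprod _).integrable.const_mul _) i2.integrable]
  congr 1; funext g
  simp [tprod_append, tprod, cross]; ring

/-- Integration by parts identity. -/
theorem emom_succ (hN : 0 < N) (k : ℕ) (l : List ℕ) :
    emom M N ((k + 1) :: l) = (M : ℝ) / N * emom M N (k :: l)
      + ∑ p ∈ range k, (emom M N ((p + 1) :: (k - 1 - p) :: l) + emom M N (k :: l) / N)
      + ecross M N k [] l / (N : ℝ) ^ 2 := by
  have hN' : (N : ℝ) ≠ 0 := by exact_mod_cast hN.ne'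
  set P : Fin M → Fin N → (Fin (M * N) → ℝ) → ℝ := fun a i g => (mat g * gram g ^ k) a i * tprod l g
  set Q : Fin M → Fin N → (Fin (M * N) → ℝ) → ℝ := fun a i g =>
    ((gram g ^ k) i i + ∑ c, mat g a c * dpow g a i k c i) * tprod l g
      + (mat g * gram g ^ k) a i * dprod g a i l
  have hP : ∀ a i, PolyB (P a i) := fun a i => Tame.mul (polyB_mgp k a i) (polyB_tprod l)
  have hQ : ∀ a i, PolyB (Q a i) := fun a i =>
    Tame.add (Tame.mul (Tame.add (polyB_pow k i i)
      (Tame.sum _ fun c _ => Tame.mul (polyB_coord _) (polyB_dpow a i k c i))) (polyB_tprod l))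
      (Tame.mul (polyB_mgp k a i) (polyB_dprod a i l))
  have hgP : ∀ a i, Integrable (fun g => g (finProdFinEquiv (a, i)) * P a i g) (gs (M * N)) :=
    fun a i => PolyB.integrable (Tame.mul (polyB_coord _) (hP a i))
  have hibp : ∀ a i, ∫ g, g (finProdFinEquiv (a, i)) * P a i g ∂gs (M * N) = ∫ g, Q a i g ∂gs (M * N) :=
    fun a i => ibp _ (hP a i).integrable (hQ a i).integrable (hgP a i) fun g => by
      simp only [P, Matrix.mul_apply]
      refine ((HasDerivAt.fun_sum (u := univ) fun c _ =>
        (hasDeriv_coord g a i a c).mul (hasDeriv_pow g a i k c i)).mul (hasDeriv_tprod g a i l)).congr_deriv ?_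
      simp [Q, Finset.sum_add_distrib, Function.update_eq_self, Matrix.mul_apply]
  have hL : ∀ g, ∑ a, ∑ i, g (finProdFinEquiv (a, i)) * P a i g
      = (N : ℝ) ^ (k + 2) * tprod ((k + 1) :: l) g := fun g => by
    have h := sum_mat_mul g 0 k
    simp only [pow_zero, Matrix.mul_one, Nat.zero_add] at h
    simp only [P, ← mul_assoc, ← Finset.sum_mul, tprod, tm]
    rw [show ∑ a, ∑ i, g (finProdFinEquiv (a, i)) * (mat g * gram g ^ k) a i
      = ∑ a, ∑ i, mat g a i * (mat g * gram g ^ k) a i from rfl, h, mul_div_cancel₀ _ (by positivity)]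
  have hR : ∀ g, ∑ a, ∑ i, Q a i g = (N : ℝ) ^ (k + 2) * ((M : ℝ) / N * tprod (k :: l) g
      + ∑ p ∈ range k, (tprod ((p + 1) :: (k - 1 - p) :: l) g + tprod (k :: l) g / N)
      + cross k l g / (N : ℝ) ^ 2) := fun g => by
    have h1 := div_matpow g k
    have h2 := sum_dprod hN g k l
    simp only [Q, Finset.sum_add_distrib, ← Finset.sum_mul] at h1 h2 ⊢
    rw [h1, h2]
    have e : ∀ p ∈ range k, tprod ((p + 1) :: (k - 1 - p) :: l) g
        = (gram g ^ (p + 1)).trace * (gram g ^ (k - 1 - p)).trace / (N : ℝ) ^ (k + 2) * tprod l g :=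
      fun p hp => by
        have : (p + 1 + 1) + (k - 1 - p + 1) = k + 2 := by have := mem_range.1 hp; omega
        simp only [tprod, tm]
        generalize (gram g ^ (p + 1)).trace = A
        generalize (gram g ^ (k - 1 - p)).trace = B
        rw [← this, pow_add (N : ℝ)]; field_simp; ring
    rw [Finset.sum_congr rfl e]
    simp only [tprod, tm, ← Finset.sum_mul, ← Finset.sum_div, Finset.sum_const, Finset.card_range, nsmul_eq_mul]
    field_simp
    ring
  have hsum : ∫ g, ∑ a, ∑ i, g (finProdFinEquiv (a, i)) * P a i g ∂gs (M * N)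
      = ∫ g, ∑ a, ∑ i, Q a i g ∂gs (M * N) := by
    rw [integral_finsetSum _ fun a _ => integrable_finsetSum _ fun i _ => hgP a i,
      integral_finsetSum _ fun a _ => integrable_finsetSum _ fun i _ => (hQ a i).integrable]
    refine Finset.sum_congr rfl fun a _ => ?_
    rw [integral_finsetSum _ fun i _ => hgP a i, integral_finsetSum _ fun i _ => (hQ a i).integrable]
    exact Finset.sum_congr rfl fun i _ => hibp a i
  simp only [hL, hR, integral_const_mul] at hsum
  have hsum := mul_left_cancel₀ (pow_ne_zero _ hN') hsum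
  have iT : ∀ l', Integrable (fun g : Fin (M * N) → ℝ => tprod l' g) (gs (M * N)) :=
    fun l' => (polyB_tprod l').integrable
  have iC := (polyB_cross (M := M) (N := N) k l).integrable
  have i2 : ∀ p ∈ range k, Integrable (fun g : Fin (M * N) → ℝ =>
      tprod ((p + 1) :: (k - 1 - p) :: l) g + tprod (k :: l) g / (N : ℝ)) (gs (M * N)) :=
    fun p _ => (iT _).fun_add ((iT _).div_const _)
  rw [integral_add (((iT _).const_mul _).fun_add (integrable_finsetSum _ i2)) (iC.div_const _),
    integral_add ((iT _).const_mul _) (integrable_finsetSum _ i2), integral_finsetSum _ i2,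
    integral_const_mul, integral_div] at hsum
  simp only [integral_add (iT _) ((iT _).div_const _), integral_div] at hsum
  rw [ecross]
  simpa [emom, tprod] using hsum

/-- Products of moments converge; the limits of single moments satisfy the Marchenko-Pastur
recursion. -/
theorem moments_limit (α : ℝ) (hα : 0 ≤ α) :
    ∃ m : ℕ → ℝ, m 0 = 1 ∧
      (∀ k, m (k + 1) = α * m k + ∑ p ∈ range k, m (p + 1) * m (k - 1 - p)) ∧
      ∀ l : List ℕ, Tendsto (fun N : ℕ => emom ⌊α * N⌋₊ N l) atTop (𝓝 (l.map m).prod) := by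
  let M : ℕ → ℕ := fun N => ⌊α * N⌋₊
  have hM : Tendsto (fun N : ℕ => (M N : ℝ) / N) atTop (𝓝 α) :=
    (tendsto_nat_floor_mul_div_atTop hα).comp tendsto_natCast_atTop_atTop
  -- convergence for every list, by induction on the total degree and the length
  have main : ∀ s : ℕ, ∀ l : List ℕ, l.sum ≤ s → ∃ x, Tendsto (fun N => emom (M N) N l) atTop (𝓝 x) := by
    intro s
    induction s with
    | zero =>
      intro l hl
      induction l with
      | nil => exact ⟨1, by simp [emom, tprod]⟩
      | cons a l ih =>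
        obtain rfl : a = 0 := by simp at hl; omega
        obtain ⟨x, hx⟩ := ih (by simpa using hl)
        refine ⟨x, hx.congr' ?_⟩
        filter_upwards [eventually_gt_atTop 0] with N hN using (emom_zero hN l).symm
    | succ s ih =>
      intro l hl
      induction l with
      | nil => exact ⟨1, by simp [emom, tprod]⟩
      | cons a l ihl =>
        rcases a with _ | k
        · obtain ⟨x, hx⟩ := ihl (by simpa using hl)
          refine ⟨x, hx.congr' ?_⟩
          filter_upwards [eventually_gt_atTop 0] with N hN using (emom_zero hN l).symm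
        simp only [List.sum_cons] at hl
        have hx : ∀ (l₂ pre : List ℕ), pre.sum + k + l₂.sum ≤ s →
            ∃ x, Tendsto (fun N => ecross (M N) N k pre l₂) atTop (𝓝 x) := by
          intro l₂
          induction l₂ with
          | nil => intro pre _; exact ⟨0, by simp [ecross, cross]⟩
          | cons j l₂ ih₂ =>
            intro pre hp
            simp only [List.sum_cons] at hp
            obtain ⟨x₁, h₁⟩ := ih (pre ++ (k + j) :: l₂) (by simp; omega)
            obtain ⟨x₂, h₂⟩ := ih₂ (pre ++ [j]) (by simp; omega)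
            exact ⟨_, ((h₁.const_mul (2 * (j : ℝ))).add h₂).congr fun N => (ecross_cons k j pre l₂).symm⟩
        obtain ⟨xc, hc⟩ := hx l [] (by simp; omega)
        obtain ⟨x₀, h₀⟩ := ih (k :: l) (by simp; omega)
        choose xp hp using fun p : Fin k => ih ((p.1 + 1) :: (k - 1 - p.1) :: l)
          (by simp; omega)
        have hN0 : Tendsto (fun N : ℕ => (N : ℝ)⁻¹) atTop (𝓝 0) :=
          tendsto_inv_atTop_zero.comp tendsto_natCast_atTop_atTop
        have hlim := ((hM.mul h₀).add (tendsto_finsetSum (univ : Finset (Fin k))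
          fun p _ => (hp p).add (h₀.mul hN0))).add (hc.mul (hN0.pow 2))
        refine ⟨_, hlim.congr' ?_⟩
        filter_upwards [eventually_gt_atTop 0] with N hN
        rw [emom_succ hN k l, Finset.sum_range]
        simp [div_eq_mul_inv]
  choose lim hlim using fun l => main l.sum l le_rfl
  have hN0 : Tendsto (fun N : ℕ => (N : ℝ)⁻¹) atTop (𝓝 0) :=
    tendsto_inv_atTop_zero.comp tendsto_natCast_atTop_atTop
  have hrec : ∀ k l, lim ((k + 1) :: l) = α * lim (k :: l)
      + ∑ p ∈ range k, lim ((p + 1) :: (k - 1 - p) :: l) := fun k l => by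
    have hx : ∀ (l₂ pre : List ℕ), ∃ x, Tendsto (fun N => ecross (M N) N k pre l₂) atTop (𝓝 x) := by
      intro l₂
      induction l₂ with
      | nil => intro pre; exact ⟨0, by simp [ecross, cross]⟩
      | cons j l₂ ih₂ =>
        intro pre
        obtain ⟨x₂, h₂⟩ := ih₂ (pre ++ [j])
        exact ⟨_, (((hlim (pre ++ (k + j) :: l₂)).const_mul (2 * (j : ℝ))).add h₂).congr
          fun N => (ecross_cons k j pre l₂).symm⟩
    obtain ⟨xc, hc⟩ := hx l []
    have h := ((hM.mul (hlim (k :: l))).add (tendsto_finsetSum (range k)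
      fun p _ => (hlim ((p + 1) :: (k - 1 - p) :: l)).add ((hlim (k :: l)).mul hN0))).add
        (hc.mul (hN0.pow 2))
    have h' := tendsto_nhds_unique (hlim ((k + 1) :: l)) (h.congr' (by
      filter_upwards [eventually_gt_atTop 0] with N hN
      rw [emom_succ hN k l]; simp [div_eq_mul_inv]))
    simpa using h'
  have hnil : lim [] = 1 := tendsto_nhds_unique (hlim []) (by simp [emom, tprod])
  have hzero : ∀ l, lim (0 :: l) = lim l := fun l =>
    tendsto_nhds_unique (hlim (0 :: l)) ((hlim l).congr' (by
      filter_upwards [eventually_gt_atTop 0] with N hN using (emom_zero hN l).symm))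
  -- the limit factorises
  have hfac : ∀ s k : ℕ, k ≤ s → ∀ l, lim (k :: l) = lim [k] * lim l := by
    intro s
    induction s with
    | zero =>
      intro k hk l
      obtain rfl : k = 0 := by omega
      rw [hzero, hzero, hnil, one_mul]
    | succ s ih =>
      intro k hk l
      rcases k with _ | k
      · rw [hzero, hzero, hnil, one_mul]
      rw [hrec, hrec k [], ih k (by omega) l, add_mul, Finset.sum_mul, mul_assoc]
      congr 1
      refine Finset.sum_congr rfl fun p hp => ?_
      have := mem_range.1 hp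
      rw [ih (p + 1) (by omega) ((k - 1 - p) :: l), ih (k - 1 - p) (by omega) l,
        ih (p + 1) (by omega) [k - 1 - p], mul_assoc]
  refine ⟨fun k => lim [k], (hzero []).trans hnil, fun k => ?_, fun l => ?_⟩
  · simp only
    rw [hrec k []]
    congr 1
    exact Finset.sum_congr rfl fun p _ => hfac (p + 1) (p + 1) le_rfl _
  · have e : lim l = (l.map fun k => lim [k]).prod := by
      induction l with
      | nil => simpa using hnil
      | cons a l ih => rw [hfac a a le_rfl l, ih]; simp
    exact e ▸ hlim l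

end Vale.Agent.P166
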