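import Vale.Agent.P166.Hybrid
import Vale.Agent.P166.Moments

/-!
The pressure of a Wishart coupling matrix and its invariance under rotations of the spin space.
-/

open MeasureTheory ProbabilityTheory Filter Topology Matrix

namespace Vale.Agent.P166

variable {M N : ℕ}

/-- Pressure of the coupling matrix `GᵀG / N` as a function of the Gaussian vector. -/
noncomputable def wpr (β : ℝ) (g : Fin (M * N) → ℝ) : ℝ :=
  1 / (N : ℝ) * Real.log (((2 : ℝ) ^ N)⁻¹ * ∑ σ : Fin N → Bool,
    Real.exp (β / 2 * (∑ a, (∑ i, mat g a i * P157.sg (σ i)) ^ 2 / N)))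

/-- Right multiplication of the matrix by `U`. -/
noncomputable def rot (U : Matrix (Fin N) (Fin N) ℝ) (g : Fin (M * N) → ℝ) : Fin (M * N) → ℝ :=
  fun j => (mat g * U) (finProdFinEquiv.symm j).1 (finProdFinEquiv.symm j).2

theorem mat_rot (U : Matrix (Fin N) (Fin N) ℝ) (g : Fin (M * N) → ℝ) :
    mat (rot U g) = mat g * U := by
  ext a i
  simp only [mat, rot, Equiv.symm_apply_apply]

theorem measurePreserving_rot (U : Matrix (Fin N) (Fin N) ℝ) (hU : Uᵀ * U = 1) :
    MeasurePreserving (rot (M := M) U) (gs (M * N)) (gs (M * N)) := by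
  have hU' : U * Uᵀ = 1 := mul_eq_one_comm.1 hU
  let T : EuclideanSpace ℝ (Fin (M * N)) →ₗ[ℝ] EuclideanSpace ℝ (Fin (M * N)) :=
    { toFun := fun x => WithLp.toLp 2 (rot U x.ofLp)
      map_add' := fun x y => by
        ext j
        simp [rot, Matrix.mul_apply, mat, add_mul, Finset.sum_add_distrib]
      map_smul' := fun c x => by
        ext j
        simp [rot, Matrix.mul_apply, mat, mul_assoc, Finset.mul_sum] }
  have hsq : ∀ g : Fin (M * N) → ℝ, ∑ j, rot U g j ^ 2 = ∑ j, g j ^ 2 := fun g => by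
    have e : ∀ h : Fin (M * N) → ℝ, ∑ j, h j ^ 2 = (mat h * (mat h)ᵀ).trace := fun h => by
      rw [← finProdFinEquiv.sum_comp fun j => h j ^ 2, Fintype.sum_prod_type]
      simp [Matrix.trace, Matrix.diag, Matrix.mul_apply, mat, pow_two]
    rw [e, e, mat_rot, Matrix.transpose_mul, Matrix.mul_assoc, ← Matrix.mul_assoc U, hU', Matrix.one_mul]
  have hnorm : ∀ x, ‖T x‖ = ‖x‖ := fun x => by
    rw [EuclideanSpace.norm_eq, EuclideanSpace.norm_eq]; simp only [Real.norm_eq_abs, sq_abs]
    congr 1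
    exact hsq x.ofLp
  let F := ({ toLinearMap := T, norm_map' := hnorm } :
    EuclideanSpace ℝ (Fin (M * N)) →ₗᵢ[ℝ] EuclideanSpace ℝ (Fin (M * N))).toLinearIsometryEquiv rfl
  have hF : ∀ g : Fin (M * N) → ℝ, F (WithLp.toLp 2 g) = WithLp.toLp 2 (rot U g) := fun g => rfl
  have hm : Measurable (rot (M := M) U) := by
    refine measurable_pi_lambda _ fun j => ?_
    simp only [rot, Matrix.mul_apply, mat]
    fun_prop
  refine ⟨hm, ?_⟩
  have h := stdGaussian_map F
  rw [← map_pi_eq_stdGaussian, Measure.map_map (by fun_prop) (by fun_prop)] at h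
  have e2 : (F ∘ WithLp.toLp 2) = (WithLp.toLp 2 ∘ rot (M := M) U) := funext hF
  rw [e2, ← Measure.map_map (by fun_prop) hm] at h
  exact (MeasurableEquiv.toLp 2 (Fin (M * N) → ℝ)).map_measurableEquiv_injective h

/-- Rows of the Gaussian matrix are independent Gaussian vectors. -/
theorem measurePreserving_mat (M N : ℕ) :
    MeasurePreserving (fun (g : Fin (M * N) → ℝ) a i => mat g a i) (gs (M * N))
      (Measure.pi fun _ : Fin M => gs N) := by
  have h1 : MeasurePreserving (fun (g : Fin (M * N) → ℝ) (p : Fin M × Fin N) => g (finProdFinEquiv p))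
      (gs (M * N)) (Measure.pi fun _ : Fin M × Fin N => gaussianReal 0 1) :=
    P157.mp_comp (gaussianReal 0 1) finProdFinEquiv.injective
  have h2 : MeasurePreserving (MeasurableEquiv.curry (Fin M) (Fin N) ℝ)
      (Measure.pi fun _ : Fin M × Fin N => gaussianReal 0 1) (Measure.pi fun _ : Fin M => gs N) := by
    refine ⟨MeasurableEquiv.measurable _, ?_⟩
    have := Measure.infinitePi_map_curry fun (_ : Fin M) (_ : Fin N) => gaussianReal 0 1
    simpa [Measure.infinitePi_eq_pi, gs] using this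
  exact h2.comp h1

/-- The marked patterns. -/
noncomputable def toPats (g : Fin (M * N) → ℝ) (a : Fin M) : (Fin N → ℝ) × ℝ := (fun i => mat g a i, 1)

theorem measurePreserving_toPats (M N : ℕ) :
    MeasurePreserving (toPats (M := M) (N := N)) (gs (M * N)) (pats (Measure.dirac 1) N M) := by
  have h1 : MeasurePreserving (fun x : Fin N → ℝ => (x, (1 : ℝ))) (gs N) (pl (Measure.dirac 1) N) :=
    ⟨by fun_prop, by rw [pl, Measure.prod_dirac]⟩
  exact (measurePreserving_pi (fun _ : Fin M => gs N) (fun _ : Fin M => pl (Measure.dirac 1) N)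
    (f := fun _ (x : Fin N → ℝ) => (x, (1 : ℝ))) fun _ => h1).comp (measurePreserving_mat M N)

/-- Mean absolute convergence of the pressure of the Wishart model. -/
theorem wishart_limit {α β : ℝ} (hα : 0 ≤ α) (hβ : |β| ≤ 1 / 25) :
    ∃ L : ℝ, ∀ ε : ℝ, 0 < ε → ∀ᶠ N : ℕ in atTop,
      Integrable (fun g => (wpr β g - L) ^ 2) (gs (⌊α * N⌋₊ * N)) ∧
      ∫ g, (wpr (M := ⌊α * N⌋₊) (N := N) β g - L) ^ 2 ∂gs (⌊α * N⌋₊ * N) < ε := by
  obtain ⟨L, hL⟩ := tendsto_sq (ν := Measure.dirac 1) (κ := fun _ => β) (fun _ => hβ) measurable_const hα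
  refine ⟨L, fun ε hε => ?_⟩
  filter_upwards [hL ε hε, eventually_gt_atTop 0] with N hN hN0
  set M := ⌊α * (N : ℝ)⌋₊
  have hN' : (0 : ℝ) < N := by exact_mod_cast hN0
  have key : ∀ g : Fin (M * N) → ℝ,
      val (fun _ => β) (unif N) (fun _ : Fin M => flat N) (toPats g) / N = wpr β g := fun g => by
    have e : ∀ σ : Fin N → Bool, ener (fun _ => β) (fun _ : Fin M => flat N) (toPats g) σ
        = β / 2 * (∑ a, (∑ i, mat g a i * P157.sg (σ i)) ^ 2 / N) := fun σ => by
      simp only [ener, toPats, flat, Finset.mul_sum]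
      refine Finset.sum_congr rfl fun a _ => ?_
      simp only [mul_div_assoc', ← Finset.sum_div, div_pow, Real.sq_sqrt hN'.le]
      ring
    simp only [val, wpr, e, unif, ← Finset.mul_sum]
    ring
  have hmp := measurePreserving_toPats M N
  have i1 := hmp.integrable_comp_of_integrable hN.1
  simp only [Function.comp_def, key] at i1
  refine ⟨i1, ?_⟩
  have h2 := hN.2
  rw [← hmp.map_eq, integral_map hmp.measurable.aemeasurable
    (by rw [hmp.map_eq]; exact hN.1.aestronglyMeasurable)] at h2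
  simpa only [key] using h2

end Vale.Agent.P166
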