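import Mathlib

/-!
The pressure depends on the spectrum only through its bulk distribution and its upper edge.
-/

open MeasureTheory Filter Topology Finset

namespace Vale.Agent.P166

/-- A sign. -/
def spin (b : Bool) : ℝ := if b then 1 else -1

/-- Squared component of a configuration along row `i`. -/
noncomputable def comp2 {N : ℕ} (U : Fin N → Fin N → ℝ) (σ : Fin N → Bool) (i : Fin N) : ℝ :=
  (∑ k, U i k * spin (σ k)) ^ 2

/-- Gibbs weights before normalisation. -/
noncomputable def wgt {N : ℕ} (β : ℝ) (a : Fin N → ℝ) (U : Fin N → Fin N → ℝ) (σ : Fin N → Bool) : ℝ :=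
  Real.exp (β / 2 * ∑ i, a i * comp2 U σ i)

/-- Pressure as a function of the spectrum and the rotation. -/
noncomputable def pr {N : ℕ} (β : ℝ) (a : Fin N → ℝ) (U : Fin N → Fin N → ℝ) : ℝ :=
  1 / (N : ℝ) * Real.log (((2 : ℝ) ^ N)⁻¹ * ∑ σ, wgt β a U σ)

/-- Gibbs average of a squared component. -/
noncomputable def gib {N : ℕ} (β : ℝ) (a : Fin N → ℝ) (U : Fin N → Fin N → ℝ) (i : Fin N) : ℝ :=
  (∑ σ, wgt β a U σ * comp2 U σ i) / ∑ σ, wgt β a U σ

/-- Every configuration has total squared length `N`. -/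
def Good {N : ℕ} (U : Fin N → Fin N → ℝ) : Prop := ∀ σ, ∑ i, comp2 U σ i = N

/-- Row permutation. -/
def rowPerm {N : ℕ} (τ : Equiv.Perm (Fin N)) (U : Fin N → Fin N → ℝ) : Fin N → Fin N → ℝ :=
  fun i => U (τ i)

variable {N : ℕ} {β : ℝ} {a a' : Fin N → ℝ} {U : Fin N → Fin N → ℝ}

theorem wsum_pos (a : Fin N → ℝ) (U : Fin N → Fin N → ℝ) : 0 < ∑ σ, wgt β a U σ :=
  sum_pos (fun σ _ => Real.exp_pos _) univ_nonempty

theorem comp2_nonneg (σ : Fin N → Bool) (i : Fin N) : 0 ≤ comp2 U σ i := sq_nonneg _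

theorem pr_mono (hβ : 0 ≤ β) (h : ∀ i, a i ≤ a' i) : pr β a U ≤ pr β a' U := by
  refine mul_le_mul_of_nonneg_left (Real.log_le_log (mul_pos (by positivity) (wsum_pos _ _))
    (mul_le_mul_of_nonneg_left (sum_le_sum fun σ _ => Real.exp_le_exp.2 ?_) (by positivity)))
    (by positivity)
  exact mul_le_mul_of_nonneg_left (sum_le_sum fun i _ =>
    mul_le_mul_of_nonneg_right (h i) (comp2_nonneg σ i)) (by positivity)

/-- Convexity in the eigenvalues. -/
theorem pr_sub_le (hN : 0 < N) :
    pr β a' U - pr β a U ≤ β / (2 * N) * ∑ i, (a' i - a i) * gib β a' U i := by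
  have hA := wsum_pos (β := β) a U
  have hA' := wsum_pos (β := β) a' U
  have hN' : (0 : ℝ) < N := by exact_mod_cast hN
  set Z := ∑ σ, wgt β a' U σ
  set X : (Fin N → Bool) → ℝ := fun σ => β / 2 * ∑ i, (a i - a' i) * comp2 U σ i
  have h := convexOn_exp.map_sum_le (t := (univ : Finset (Fin N → Bool)))
    (w := fun σ => wgt β a' U σ / Z) (p := X)
    (fun σ _ => div_nonneg (Real.exp_pos _).le hA'.le)
    (by rw [← Finset.sum_div]; exact div_self hA'.ne') (fun σ _ => Set.mem_univ _)
  simp only [smul_eq_mul] at h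
  have e : ∑ σ, wgt β a' U σ / Z * Real.exp (X σ) = (∑ σ, wgt β a U σ) / Z := by
    rw [Finset.sum_div]
    refine sum_congr rfl fun σ _ => ?_
    rw [div_mul_eq_mul_div, wgt, wgt, ← Real.exp_add]
    congr 2
    simp only [X, ← mul_add, ← sum_add_distrib]
    congr 1
    exact sum_congr rfl fun i _ => by ring
  rw [e, le_div_iff₀ hA'] at h
  have hl := Real.log_le_log (mul_pos (Real.exp_pos _) hA') h
  rw [Real.log_mul (Real.exp_pos _).ne' hA'.ne', Real.log_exp] at hl
  have e2 : ∑ σ, wgt β a' U σ / Z * X σ = -(β / 2 * ∑ i, (a' i - a i) * gib β a' U i) := by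
    simp only [X, gib, mul_sum, sum_div, ← sum_neg_distrib]
    rw [sum_comm]
    exact sum_congr rfl fun i _ => sum_congr rfl fun σ _ => by simp only [Z]; ring
  rw [e2] at hl
  simp only [pr]
  rw [Real.log_mul (by positivity) hA.ne', Real.log_mul (by positivity) hA'.ne']
  calc _ = 1 / (N : ℝ) * (Real.log Z - Real.log (∑ σ, wgt β a U σ)) := by ring
    _ ≤ 1 / (N : ℝ) * (β / 2 * ∑ i, (a' i - a i) * gib β a' U i) :=
        mul_le_mul_of_nonneg_left (by linarith) (by positivity)
    _ = _ := by ring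

theorem gib_nonneg (a : Fin N → ℝ) (U : Fin N → Fin N → ℝ) (i : Fin N) : 0 ≤ gib β a U i :=
  div_nonneg (sum_nonneg fun σ _ => mul_nonneg (Real.exp_pos _).le (comp2_nonneg σ i))
    (wsum_pos a U).le

theorem gib_sum (hU : Good U) (a : Fin N → ℝ) : ∑ i, gib β a U i = N := by
  simp only [gib]
  rw [← sum_div, sum_comm]
  simp only [← mul_sum, hU _, ← sum_mul]
  field_simp [(wsum_pos (β := β) a U).ne']

theorem gib_le (hU : Good U) (a : Fin N → ℝ) (i : Fin N) : gib β a U i ≤ N :=
  (single_le_sum (fun j _ => gib_nonneg a U j) (mem_univ i)).trans_eq (gib_sum hU a)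

theorem sum_rowPerm (τ : Equiv.Perm (Fin N)) (a : Fin N → ℝ) (σ : Fin N → Bool) :
    ∑ i, a i * comp2 (rowPerm τ U) σ i = ∑ i, a (τ.symm i) * comp2 U σ i := by
  rw [← Equiv.sum_comp τ fun i => a (τ.symm i) * comp2 U σ i]
  simp [comp2, rowPerm]

theorem pr_rowPerm (τ : Equiv.Perm (Fin N)) (a : Fin N → ℝ) :
    pr β a (rowPerm τ U) = pr β (fun i => a (τ.symm i)) U := by
  simp only [pr, wgt, sum_rowPerm]

theorem gib_rowPerm (τ : Equiv.Perm (Fin N)) (a : Fin N → ℝ) (i : Fin N) :
    gib β a (rowPerm τ U) i = gib β (fun j => a (τ.symm j)) U (τ i) := by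
  simp only [gib, wgt, sum_rowPerm]
  rfl

theorem measurable_rowPerm (τ : Equiv.Perm (Fin N)) : Measurable (rowPerm τ) :=
  measurable_pi_lambda _ fun i => measurable_pi_apply (τ i)

theorem measurable_pr (a : Fin N → ℝ) : Measurable (pr β a) := by
  unfold pr wgt comp2; fun_prop

theorem measurable_gib (a : Fin N → ℝ) (i : Fin N) : Measurable fun U => gib β a U i := by
  unfold gib wgt comp2; fun_prop

theorem abs_pr_le (hN : 0 < N) (hU : Good U) {C : ℝ} (ha : ∀ i, |a i| ≤ C) :
    |pr β a U| ≤ |β| / 2 * C := by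
  have hN' : (0 : ℝ) < N := by exact_mod_cast hN
  have hx : ∀ σ, |β / 2 * ∑ i, a i * comp2 U σ i| ≤ |β| / 2 * C * N := fun σ => by
    rw [abs_mul, abs_div, abs_two, mul_assoc]
    refine mul_le_mul_of_nonneg_left ((abs_sum_le_sum_abs _ _).trans
      ((sum_le_sum (g := fun i => C * comp2 U σ i) fun i _ => ?_).trans_eq ?_)) (by positivity)
    · rw [abs_mul, abs_of_nonneg (comp2_nonneg σ i)]
      exact mul_le_mul_of_nonneg_right (ha i) (comp2_nonneg σ i)
    · rw [← mul_sum, hU σ]
  have h1 : Real.exp (-(|β| / 2 * C * N)) ≤ ((2 : ℝ) ^ N)⁻¹ * ∑ σ, wgt β a U σ := by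
    calc _ = ((2 : ℝ) ^ N)⁻¹ * ∑ _σ : Fin N → Bool, Real.exp (-(|β| / 2 * C * N)) := by simp
      _ ≤ _ := mul_le_mul_of_nonneg_left
          (sum_le_sum fun σ _ => Real.exp_le_exp.2 (abs_le.1 (hx σ)).1) (by positivity)
  have h2 : ((2 : ℝ) ^ N)⁻¹ * ∑ σ, wgt β a U σ ≤ Real.exp (|β| / 2 * C * N) := by
    calc _ ≤ ((2 : ℝ) ^ N)⁻¹ * ∑ _σ : Fin N → Bool, Real.exp (|β| / 2 * C * N) :=
          mul_le_mul_of_nonneg_left
            (sum_le_sum fun σ _ => Real.exp_le_exp.2 (abs_le.1 (hx σ)).2) (by positivity)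
      _ = _ := by simp
  have h0 := lt_of_lt_of_le (Real.exp_pos _) h1
  rw [pr, abs_mul, abs_of_pos (by positivity), one_div, inv_mul_le_iff₀ hN']
  refine abs_le.2 ⟨?_, ?_⟩
  · have := (Real.le_log_iff_exp_le h0).2 h1; linarith
  · have := (Real.log_le_iff_le_exp h0).2 h2; linarith

variable {π : Measure (Fin N → Fin N → ℝ)} [IsProbabilityMeasure π]

theorem integrable_pr (hgood : ∀ᵐ U ∂π, Good U) (hN : 0 < N) (a : Fin N → ℝ) :
    Integrable (pr β a) π := by
  refine Integrable.of_bound (measurable_pr a).aestronglyMeasurable (|β| / 2 * ∑ i, |a i|)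
    (hgood.mono fun U hU => ?_)
  rw [Real.norm_eq_abs]
  exact abs_pr_le hN hU fun i => single_le_sum (f := fun j => |a j|) (fun j _ => abs_nonneg _) (mem_univ i)

theorem integrable_gib (hgood : ∀ᵐ U ∂π, Good U) (a : Fin N → ℝ) (i : Fin N) :
    Integrable (fun U => gib β a U i) π :=
  Integrable.of_bound (measurable_gib a i).aestronglyMeasurable N (hgood.mono fun U hU => by
    rw [Real.norm_eq_abs, abs_of_nonneg (gib_nonneg a U i)]; exact gib_le hU a i)

omit [IsProbabilityMeasure π] in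
/-- Rows carrying equal eigenvalues have equal expected Gibbs weight. -/
theorem gib_exch (hperm : ∀ τ, π.map (rowPerm τ) = π) {i j : Fin N} (h : a i = a j) :
    ∫ U, gib β a U i ∂π = ∫ U, gib β a U j ∂π := by
  conv_lhs => rw [← hperm (Equiv.swap i j)]
  rw [integral_map (measurable_rowPerm _).aemeasurable (measurable_gib a i).aestronglyMeasurable]
  simp only [gib_rowPerm, Equiv.symm_swap, Equiv.swap_apply_left]
  congr 1
  funext U
  have : (fun k => a (Equiv.swap i j k)) = a := by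
    funext k
    rcases eq_or_ne k i with rfl | hi
    · simp [h]
    rcases eq_or_ne k j with rfl | hj
    · simp [h]
    · rw [Equiv.swap_apply_of_ne_of_ne hi hj]
  rw [this]

/-- Raising a few eigenvalues to the level of a large band costs little. -/
theorem band_le (hgood : ∀ᵐ U ∂π, Good U) (hperm : ∀ τ, π.map (rowPerm τ) = π) (hN : 0 < N)
    (hβ : 0 ≤ β) {e D : ℝ} (hD : 0 ≤ D) (W V : Finset (Fin N)) (hVW : V ⊆ W) (hW : W.Nonempty)
    (ha' : ∀ i ∈ W, a' i = e) (hout : ∀ i ∉ V, a' i = a i) (hin : ∀ i ∈ V, a' i - a i ≤ D) :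
    ∫ U, pr β a' U ∂π ≤ ∫ U, pr β a U ∂π + β / 2 * D * (V.card / W.card) := by
  classical
  have hN' : (0 : ℝ) < N := by exact_mod_cast hN
  have hWc : (0 : ℝ) < W.card := by exact_mod_cast hW.card_pos
  set m : Fin N → ℝ := fun i => ∫ U, gib β a' U i ∂π
  have hm0 : ∀ i, 0 ≤ m i := fun i => integral_nonneg fun U => gib_nonneg a' U i
  have hmsum : ∑ i, m i = N := by
    simp only [m]
    rw [← integral_finsetSum _ fun i _ => integrable_gib hgood a' i,
      integral_congr_ae (g := fun _ => (N : ℝ)) (hgood.mono fun U hU => gib_sum hU a'), integral_const,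
      probReal_univ, one_smul]
  have h1 : ∫ U, pr β a' U ∂π - ∫ U, pr β a U ∂π ≤ β / (2 * N) * ∑ i, (a' i - a i) * m i := by
    have i3 : Integrable (fun U => ∑ i, (a' i - a i) * gib β a' U i) π :=
      integrable_finsetSum _ fun i _ => (integrable_gib hgood a' i).const_mul _
    rw [← integral_sub (integrable_pr hgood hN a') (integrable_pr hgood hN a)]
    refine (integral_mono ((integrable_pr hgood hN a').sub (integrable_pr hgood hN a))
      (i3.const_mul (β / (2 * N))) fun U => pr_sub_le hN).trans_eq ?_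
    rw [integral_const_mul, integral_finsetSum _ fun i _ => (integrable_gib hgood a' i).const_mul _]
    simp only [integral_const_mul, m]
  have h2 : ∑ i, (a' i - a i) * m i ≤ D * ∑ i ∈ V, m i := by
    rw [← sum_subset (subset_univ V) (fun i _ hi => by rw [hout i hi, sub_self, zero_mul]), mul_sum]
    exact sum_le_sum fun i hi => mul_le_mul_of_nonneg_right (hin i hi) (hm0 i)
  have h3 : ∑ i ∈ V, m i ≤ (V.card : ℝ) / W.card * N := by
    obtain ⟨w, hw⟩ := hW
    have hc : ∀ i ∈ W, m i = m w := fun i hi => gib_exch hperm (by rw [ha' i hi, ha' w hw])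
    have eW : ∑ i ∈ W, m i = (W.card : ℝ) * m w := by
      rw [sum_congr rfl hc, sum_const, nsmul_eq_mul]
    have eV : ∑ i ∈ V, m i = (V.card : ℝ) * m w := by
      rw [sum_congr rfl fun i hi => hc i (hVW hi), sum_const, nsmul_eq_mul]
    have hle : ∑ i ∈ W, m i ≤ N := (sum_le_sum_of_subset_of_nonneg (subset_univ W)
      fun i _ _ => hm0 i).trans_eq hmsum
    rw [eW] at hle
    rw [eV, div_mul_eq_mul_div, le_div_iff₀ hWc]
    nlinarith [mul_le_mul_of_nonneg_left hle (Nat.cast_nonneg V.card : (0 : ℝ) ≤ V.card)]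
  have h4 := h1.trans (mul_le_mul_of_nonneg_left (h2.trans (mul_le_mul_of_nonneg_left h3 hD))
    (by positivity))
  have e4 : β / (2 * N) * (D * ((V.card : ℝ) / W.card * N)) = β / 2 * D * (V.card / W.card) := by
    field_simp
  linarith

/-- One-sided comparison of two spectra listed in a common order. -/
theorem compare (hgood : ∀ᵐ U ∂π, Good U) (hperm : ∀ τ, π.map (rowPerm τ) = π) (hN : 0 < N)
    (hβ : 0 ≤ β) {e η R : ℝ} (hη : 0 ≤ η) {b : Fin N → ℝ} (hb : ∀ i, b i ≤ e + η)
    (ha : ∀ i, a i ≤ e + η) (haR : ∀ i, -R ≤ a i) (heR : e + η ≤ R)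
    (B : Finset (Fin N)) (hB : B.Nonempty) (hBa : ∀ i ∈ B, e - η ≤ a i)
    (V : Finset (Fin N)) (hV : ∀ i ∉ V, b i ≤ a i + η) :
    ∫ U, max (pr β b U - pr β a U) 0 ∂π ≤ β / 2 * (3 * η + 2 * R * (V.card / B.card)) := by
  classical
  set a₂ : Fin N → ℝ := fun i => if i ∈ B then e + η else a i
  set a₁ : Fin N → ℝ := fun i => if i ∈ V then e + η else a₂ i
  set a₃ : Fin N → ℝ := fun i => a₁ i + η
  have hba : ∀ i, b i ≤ a₃ i := fun i => by
    simp only [a₃, a₁, a₂]
    split_ifs with h1 h2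
    · linarith [hb i]
    · linarith [hb i]
    · exact hV i h1
  have haa : ∀ i, a i ≤ a₃ i := fun i => by
    simp only [a₃, a₁, a₂]
    split_ifs <;> linarith [ha i]
  have i0 := integrable_pr (β := β) hgood hN a
  have hmax : ∫ U, max (pr β b U - pr β a U) 0 ∂π ≤ ∫ U, pr β a₃ U ∂π - ∫ U, pr β a U ∂π := by
    rw [← integral_sub (integrable_pr hgood hN a₃) i0]
    refine integral_mono (((integrable_pr hgood hN b).sub i0).sup (integrable_const 0))
      ((integrable_pr hgood hN a₃).sub i0) fun U => max_le ?_ ?_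
    · exact sub_le_sub_right (pr_mono hβ hba) _
    · exact sub_nonneg.2 (pr_mono hβ haa)
  have shift : ∀ (c : ℝ) (x : Fin N → ℝ) (y : Fin N → ℝ), 0 ≤ c → (∀ i, y i ≤ x i + c) →
      ∫ U, pr β y U ∂π ≤ ∫ U, pr β x U ∂π + β / 2 * c := fun c x y hc hxy => by
    have e1 : ∫ U, pr β y U ∂π ≤ ∫ U, pr β (fun i => x i + c) U ∂π :=
      integral_mono (integrable_pr hgood hN y) (integrable_pr hgood hN _) fun U => pr_mono hβ hxy
    refine e1.trans ?_
    rw [← sub_le_iff_le_add', ← integral_sub (integrable_pr hgood hN _) (integrable_pr hgood hN _)]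
    have hle : ∀ᵐ U ∂π, pr β (fun i => x i + c) U - pr β x U ≤ β / 2 * c := hgood.mono fun U hU => by
      refine (pr_sub_le hN).trans_eq ?_
      simp only [add_sub_cancel_left, ← mul_sum, gib_sum hU]
      field_simp
    exact (integral_mono_ae ((integrable_pr hgood hN _).sub (integrable_pr hgood hN _))
      (integrable_const _) hle).trans_eq (by simp)
  have s1 := shift η a₁ a₃ hη fun i => le_rfl
  have s2 := shift (2 * η) a a₂ (by linarith) fun i => by
    simp only [a₂]; split_ifs with h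
    · linarith [hBa i h]
    · linarith
  have hband : ∫ U, pr β a₁ U ∂π ≤ ∫ U, pr β a₂ U ∂π
      + β / 2 * (2 * R) * ((V.card : ℝ) / (V ∪ B).card) := by
    obtain ⟨i₀, hi₀⟩ := hB
    refine band_le hgood hperm hN hβ (e := e + η) (by linarith [haR i₀, ha i₀])
      (V ∪ B) V subset_union_left ⟨i₀, mem_union_right _ hi₀⟩ (fun i hi => ?_) (fun i hi => ?_)
      fun i hi => ?_
    · simp only [a₁, a₂]; rcases mem_union.1 hi with h | h <;> simp [h]
    · simp [a₁, hi]
    · simp only [a₁, if_pos hi, a₂]; split_ifs <;> linarith [haR i, haR i₀, ha i₀]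
  have hBc : (0 : ℝ) < B.card := by exact_mod_cast hB.card_pos
  have hR : 0 ≤ R := by obtain ⟨i₀, -⟩ := hB; linarith [haR i₀, ha i₀]
  have hfrac : (V.card : ℝ) / (V ∪ B).card ≤ V.card / B.card :=
    div_le_div_of_nonneg_left (Nat.cast_nonneg _) hBc
      (by exact_mod_cast card_le_card (subset_union_right (s₁ := V)))
  have := mul_le_mul_of_nonneg_left hfrac (show 0 ≤ β / 2 * (2 * R) by positivity)
  linarith

theorem count_le {N : ℕ} {a b : Fin N → ℝ} (ha : Monotone a) (hb : Monotone b) (t u : ℝ) :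
    ((univ.filter fun i => a i ≤ t ∧ u < b i).card : ℝ)
      ≤ max (((univ.filter fun i => a i ≤ t).card : ℝ) - (univ.filter fun i => b i ≤ u).card) 0 := by
  set A := univ.filter fun i => a i ≤ t
  set B := univ.filter fun i => b i ≤ u
  have e : (univ.filter fun i => a i ≤ t ∧ u < b i) = A \ B := by ext i; simp [A, B]
  rw [e]
  by_cases h : A ⊆ B
  · rw [sdiff_eq_empty_iff_subset.2 h]; simp
  · have hBA : B ⊆ A := fun i hi => by
      obtain ⟨k, hk, hk'⟩ := not_subset.1 h
      simp only [A, B, mem_filter, mem_univ, true_and, not_le] at hi hk hk' ⊢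
      rcases le_total i k with hik | hik
      · exact (ha hik).trans hk
      · linarith [hb hik]
    have hc := card_sdiff_add_card_eq_card hBA
    refine le_max_of_le_left (le_of_eq ?_)
    rw [eq_sub_iff_add_eq]; exact_mod_cast hc

/-- Piecewise linear cut-off. -/
noncomputable def ramp (t w x : ℝ) : ℝ := max 0 (min 1 ((t + w - x) / w))

theorem ramp_mem (t w x : ℝ) : 0 ≤ ramp t w x ∧ ramp t w x ≤ 1 :=
  ⟨le_max_left _ _, max_le zero_le_one (min_le_left _ _)⟩

theorem continuous_ramp (t w : ℝ) : Continuous (ramp t w) := by unfold ramp; fun_prop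

theorem ramp_lower {t w x : ℝ} (hw : 0 < w) (hx : x ≤ t) : ramp t w x = 1 := by
  have : 1 ≤ (t + w - x) / w := by rw [le_div_iff₀ hw]; linarith
  simp [ramp, min_eq_left this]

theorem ramp_upper {t w x : ℝ} (hw : 0 < w) (hx : t + w ≤ x) : ramp t w x = 0 :=
  max_eq_left ((min_le_right _ _).trans (div_nonpos_of_nonpos_of_nonneg (by linarith) hw.le))

/-- Empirical distributions converge weakly to `μ`. -/
def EmpTo (μ : Measure ℝ) (lam : ∀ N : ℕ, Fin N → ℝ) : Prop :=
  ∀ f : ℝ → ℝ, Continuous f → (∃ C, ∀ x, |f x| ≤ C) →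
    Tendsto (fun N : ℕ => (∑ i, f (lam N i)) / N) atTop (𝓝 (∫ x, f x ∂μ))

/-- Hypotheses on a sequence of spectra. -/
def Spec (μ : Measure ℝ) (e R : ℝ) (lam : ∀ N : ℕ, Fin N → ℝ) : Prop :=
  EmpTo μ lam ∧ (∀ η, 0 < η → ∀ᶠ N in atTop, ∀ i, lam N i ≤ e + η) ∧
    ∀ᶠ N in atTop, ∀ i, -R ≤ lam N i

section

variable {μ : Measure ℝ} [IsProbabilityMeasure μ] {e R : ℝ} {l m : ∀ N : ℕ, Fin N → ℝ}
  {law : ∀ N : ℕ, Measure (Fin N → Fin N → ℝ)} [∀ N, IsProbabilityMeasure (law N)]
  (hgood : ∀ N, ∀ᵐ U ∂law N, Good U) (hperm : ∀ N (τ : Equiv.Perm (Fin N)), (law N).map (rowPerm τ) = law N)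
include hgood hperm

theorem compare_tendsto (hβ : 0 ≤ β) (he : ∀ η, 0 < η → 0 < μ (Set.Ioi (e - η)))
    (hl : Spec μ e R l) (hm : Spec μ e R m) (hls : ∀ N, Monotone (l N)) (hms : ∀ N, Monotone (m N))
    (η₀ : ℝ) (hη₀ : 0 < η₀) :
    ∀ᶠ N in atTop, ∫ U, max (pr β (m N) U - pr β (l N) U) 0 ∂law N ≤ η₀ := by
  classical
  set η := η₀ / (2 * (β + 1)) with hηdef
  have hη : 0 < η := by positivity
  set R' := max R (e + η)
  -- band
  set ψ : ℝ → ℝ := fun x => 1 - ramp (e - η) (η / 2) x
  have hψ0 : ∀ x, 0 ≤ ψ x ∧ ψ x ≤ 1 := fun x => by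
    have := ramp_mem (e - η) (η / 2) x; exact ⟨by simp only [ψ]; linarith, by simp only [ψ]; linarith⟩
  have hψc : Continuous ψ := continuous_const.sub (continuous_ramp _ _)
  set c := ∫ x, ψ x ∂μ
  have hc : 0 < c := by
    have hi : Integrable ψ μ := Integrable.of_bound hψc.aestronglyMeasurable 1
      (ae_of_all _ fun x => by rw [Real.norm_eq_abs, abs_of_nonneg (hψ0 x).1]; exact (hψ0 x).2)
    have h1 : (Set.Ioi (e - η / 2)).indicator (fun _ => (1 : ℝ)) ≤ ψ := fun x => by
      refine Set.indicator_le' (fun x hx => ?_) (fun x _ => (hψ0 x).1) x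
      simp only [Set.mem_Ioi] at hx
      simp [ψ, ramp_upper (half_pos hη) (show e - η + η / 2 ≤ x by linarith)]
    have h2 := integral_mono ((integrable_const (1 : ℝ)).indicator measurableSet_Ioi) hi h1
    rw [integral_indicator_const _ measurableSet_Ioi, smul_eq_mul, mul_one] at h2
    exact lt_of_lt_of_le (ENNReal.toReal_pos (he _ (half_pos hη)).ne' (measure_ne_top _ _)) h2
  -- grid
  set K := ⌈(e + η + R') / (η / 2)⌉₊ + 1
  set t : ℕ → ℝ := fun j => -R' + j * (η / 2)
  set θ : ℝ := c * η / (2 * (2 * |R'| + 1) * (K + 1))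
  have hθ : 0 < θ := by positivity
  have hgrid : ∀ j, ∀ᶠ N : ℕ in atTop,
      ((univ.filter fun i => l N i ≤ t j ∧ t j + η / 2 < m N i).card : ℝ) ≤ θ * N := fun j => by
    have hr : ∃ C, ∀ x, |ramp (t j) (η / 2) x| ≤ C :=
      ⟨1, fun x => by rw [abs_of_nonneg (ramp_mem _ _ x).1]; exact (ramp_mem _ _ x).2⟩
    have h := (hl.1 _ (continuous_ramp (t j) (η / 2)) hr).sub (hm.1 _ (continuous_ramp (t j) (η / 2)) hr)
    rw [sub_self] at h
    filter_upwards [h.eventually (gt_mem_nhds hθ), eventually_gt_atTop 0] with N hN hN0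
    have hN' : (0 : ℝ) < N := by exact_mod_cast hN0
    rw [← sub_div, div_lt_iff₀ hN'] at hN
    refine (count_le (hls N) (hms N) (t j) (t j + η / 2)).trans (max_le ?_ (by positivity))
    have h1 : ((univ.filter fun i => l N i ≤ t j).card : ℝ) ≤ ∑ i, ramp (t j) (η / 2) (l N i) := by
      rw [card_eq_sum_ones, Nat.cast_sum, Nat.cast_one, sum_filter]
      refine sum_le_sum fun i _ => ?_
      split_ifs with hi
      · rw [ramp_lower (half_pos hη) hi]
      · exact (ramp_mem _ _ _).1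
    have h2 : ∑ i, ramp (t j) (η / 2) (m N i) ≤ ((univ.filter fun i => m N i ≤ t j + η / 2).card : ℝ) := by
      rw [card_eq_sum_ones, Nat.cast_sum, Nat.cast_one, sum_filter]
      refine sum_le_sum fun i _ => ?_
      split_ifs with hi
      · exact (ramp_mem _ _ _).2
      · rw [ramp_upper (half_pos hη) (not_le.1 hi).le]
    linarith
  have hψe := hl.1 ψ hψc ⟨1, fun x => by rw [abs_of_nonneg (hψ0 x).1]; exact (hψ0 x).2⟩
  filter_upwards [eventually_gt_atTop 0, hψe.eventually (lt_mem_nhds (half_lt_self hc)),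
    (eventually_all_finset (range (K + 1))).2 fun j _ => hgrid j,
    hl.2.1 η hη, hm.2.1 η hη, hl.2.2] with N hN hBN hV hlt hmt hlR
  have hN' : (0 : ℝ) < N := by exact_mod_cast hN
  set B := univ.filter fun i => e - η ≤ l N i
  have hBc : c / 2 * N ≤ (B.card : ℝ) := by
    rw [lt_div_iff₀ hN'] at hBN
    refine hBN.le.trans ?_
    rw [card_eq_sum_ones, Nat.cast_sum, Nat.cast_one, sum_filter]
    refine sum_le_sum fun i _ => ?_
    split_ifs with hi
    · exact (hψ0 _).2
    · simp [ψ, ramp_lower (half_pos hη) (not_le.1 hi).le]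
  have hBne : B.Nonempty := card_pos.1 (Nat.cast_pos.1 (lt_of_lt_of_le (by positivity) hBc))
  set V := univ.filter fun i => l N i + η < m N i
  have hVc : (V.card : ℝ) ≤ (K + 1) * θ * N := by
    have hsub : V ⊆ (range (K + 1)).biUnion
        fun j => univ.filter fun i => l N i ≤ t j ∧ t j + η / 2 < m N i := fun i hi => by
      simp only [V, mem_filter, mem_univ, true_and] at hi
      have hRR : -R' ≤ l N i := le_trans (neg_le_neg (le_max_left _ _)) (hlR i)
      have hx : 0 ≤ (l N i + R') / (η / 2) := div_nonneg (by linarith) (half_pos hη).le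
      set j := ⌈(l N i + R') / (η / 2)⌉₊
      have hj1 : j < K + 1 := by
        have : j ≤ ⌈(e + η + R') / (η / 2)⌉₊ :=
          Nat.ceil_le_ceil (div_le_div_of_nonneg_right (by linarith [hlt i]) (half_pos hη).le)
        omega
      have hj2 := Nat.le_ceil ((l N i + R') / (η / 2))
      have hj3 := Nat.ceil_lt_add_one hx
      rw [div_le_iff₀ (half_pos hη)] at hj2
      rw [div_add_one (half_pos hη).ne', lt_div_iff₀ (half_pos hη)] at hj3
      refine mem_biUnion.2 ⟨j, mem_range.2 hj1, mem_filter.2 ⟨mem_univ i, ?_, ?_⟩⟩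
      · simp only [t, j]; linarith
      · simp only [t, j]; linarith
    calc (V.card : ℝ) ≤ ((range (K + 1)).biUnion
          fun j => univ.filter fun i => l N i ≤ t j ∧ t j + η / 2 < m N i).card := by
          exact_mod_cast card_le_card hsub
      _ ≤ ∑ j ∈ range (K + 1), ((univ.filter fun i => l N i ≤ t j ∧ t j + η / 2 < m N i).card : ℝ) := by
          exact_mod_cast card_biUnion_le
      _ ≤ ∑ _j ∈ range (K + 1), θ * N := sum_le_sum hV
      _ = _ := by simp; ring
  refine (compare (hgood N) (hperm N) hN hβ (e := e) (η := η) (R := R') hη.le hmt hlt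
    (fun i => le_trans (neg_le_neg (le_max_left _ _)) (hlR i)) (le_max_right _ _) B hBne
    (fun i hi => (mem_filter.1 hi).2) V fun i hi => not_lt.1 fun h => hi (mem_filter.2 ⟨mem_univ i, h⟩)).trans ?_
  have hfr : 2 * R' * ((V.card : ℝ) / B.card) ≤ η := by
    have hBpos : (0 : ℝ) < B.card := lt_of_lt_of_le (by positivity) hBc
    rw [← mul_div_assoc, div_le_iff₀ hBpos]
    have hd : θ * (2 * (2 * |R'| + 1) * (K + 1)) = c * η := by simp only [θ]; field_simp
    have e1 := mul_le_mul_of_nonneg_left hVc (show 0 ≤ 2 * |R'| + 1 by positivity)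
    have e2 := mul_le_mul_of_nonneg_left hBc hη.le
    have e3 : 2 * R' * (V.card : ℝ) ≤ (2 * |R'| + 1) * V.card :=
      mul_le_mul_of_nonneg_right (by linarith [le_abs_self R']) (Nat.cast_nonneg _)
    have e4 : (2 * |R'| + 1) * ((K + 1) * θ * N) = η * (c / 2 * N) := by
      have : (2 * |R'| + 1) * ((K + 1 : ℝ) * θ) = c * η / 2 := by linarith
      calc _ = (2 * |R'| + 1) * ((K + 1 : ℝ) * θ) * N := by ring
        _ = _ := by rw [this]; ring
    linarith
  calc β / 2 * (3 * η + 2 * R' * ((V.card : ℝ) / B.card)) ≤ β / 2 * (3 * η + η) :=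
        mul_le_mul_of_nonneg_left (by linarith) (by positivity)
    _ ≤ η₀ := by
      have : β / 2 * (3 * η + η) = η₀ * (β / (β + 1)) := by rw [hηdef]; field_simp; ring
      rw [this]
      exact mul_le_of_le_one_right hη₀.le (div_le_one_of_le₀ (by linarith) (by linarith))

omit [∀ N, IsProbabilityMeasure (law N)] hgood in
theorem integral_pr_perm {F : ℝ → ℝ} (hF : Continuous F) {N : ℕ} (τ : Equiv.Perm (Fin N))
    (a : Fin N → ℝ) :
    ∫ U, F (pr β (a ∘ τ) U) ∂law N = ∫ U, F (pr β a U) ∂law N := by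
  conv_rhs => rw [← hperm N τ⁻¹]
  rw [integral_map (f := fun U => F (pr β a U)) (measurable_rowPerm _).aemeasurable
    (hF.measurable.comp (measurable_pr a)).aestronglyMeasurable]
  simp only [pr_rowPerm]
  rfl

/-- Two sequences of spectra with the same bulk and upper edge give the same pressure in law. -/
theorem spec_universal (hβ : 0 ≤ β) (he : ∀ η, 0 < η → 0 < μ (Set.Ioi (e - η)))
    (hl : Spec μ e R l) (hm : Spec μ e R m) {F : ℝ → ℝ} (hF : LipschitzWith 1 F) :
    Tendsto (fun N : ℕ => ∫ U, F (pr β (l N) U) ∂law N - ∫ U, F (pr β (m N) U) ∂law N) atTop (𝓝 0) := by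
  set l' : ∀ N : ℕ, Fin N → ℝ := fun N => l N ∘ Tuple.sort (l N)
  set m' : ∀ N : ℕ, Fin N → ℝ := fun N => m N ∘ Tuple.sort (m N)
  have hs : ∀ x : ∀ N : ℕ, Fin N → ℝ, Spec μ e R x → Spec μ e R fun N => x N ∘ Tuple.sort (x N) :=
    fun x hx => ⟨fun f hf hb => by
        simpa [Function.comp_def, Equiv.sum_comp (Tuple.sort (x _)) fun i => f (x _ i)] using hx.1 f hf hb,
      fun η hη => (hx.2.1 η hη).mono fun N h i => h _, hx.2.2.mono fun N h i => h _⟩
  have h1 := compare_tendsto hgood hperm hβ he (hs l hl) (hs m hm)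
    (fun N => Tuple.monotone_sort (l N)) fun N => Tuple.monotone_sort (m N)
  have h2 := compare_tendsto hgood hperm hβ he (hs m hm) (hs l hl)
    (fun N => Tuple.monotone_sort (m N)) fun N => Tuple.monotone_sort (l N)
  rw [Metric.tendsto_nhds]
  intro ε hε
  filter_upwards [h1 (ε / 3) (by positivity), h2 (ε / 3) (by positivity), eventually_gt_atTop 0]
    with N a1 a2 hN
  rw [Real.dist_eq, sub_zero, ← integral_pr_perm hperm hF.continuous (Tuple.sort (l N)) (l N),
    ← integral_pr_perm hperm hF.continuous (Tuple.sort (m N)) (m N)]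
  have il := integrable_pr (β := β) (hgood N) hN (l' N)
  have im := integrable_pr (β := β) (hgood N) hN (m' N)
  have iF : ∀ (a : Fin N → ℝ), Integrable (fun U => F (pr β a U)) (law N) := fun a => by
    refine ((integrable_const |F 0|).fun_add (integrable_pr (β := β) (hgood N) hN a).abs).mono'
      (hF.continuous.measurable.comp (measurable_pr a)).aestronglyMeasurable (ae_of_all _ fun U => ?_)
    have := hF.dist_le_mul (pr β a U) 0
    simp only [Real.dist_eq, NNReal.coe_one, one_mul, sub_zero] at this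
    rw [Real.norm_eq_abs]
    linarith [abs_sub_abs_le_abs_sub (F (pr β a U)) (F 0)]
  rw [← integral_sub (iF _) (iF _)]
  refine lt_of_le_of_lt abs_integral_le_integral_abs ?_
  have i1 : Integrable (fun U => max (pr β (m' N) U - pr β (l' N) U) 0) (law N) :=
    (im.sub il).sup (integrable_const 0)
  have i2 : Integrable (fun U => max (pr β (l' N) U - pr β (m' N) U) 0) (law N) :=
    (il.sub im).sup (integrable_const 0)
  refine lt_of_le_of_lt (integral_mono ((iF _).sub (iF _)).abs (i1.fun_add i2) fun U => ?_)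
    (by rw [integral_add i1 i2]; simp only [l', m'] at a1 a2 ⊢; linarith)
  have := hF.dist_le_mul (pr β (l' N) U) (pr β (m' N) U)
  simp only [Real.dist_eq, NNReal.coe_one, one_mul] at this
  refine this.trans ?_
  rcases le_total (pr β (l' N) U) (pr β (m' N) U) with h | h
  · rw [abs_of_nonpos (by linarith)]
    linarith [le_max_left (pr β (m' N) U - pr β (l' N) U) 0,
      le_max_right (pr β (l' N) U - pr β (m' N) U) 0]
  · rw [abs_of_nonneg (by linarith)]
    linarith [le_max_left (pr β (l' N) U - pr β (m' N) U) 0,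
      le_max_right (pr β (m' N) U - pr β (l' N) U) 0]

end

end Vale.Agent.P166
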