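import Vale.Agent.P166.Edge
import Vale.Agent.P166.Rot
import Vale.Agent.P166.Spectral

/-!
Marchenko-Pastur spectra: realisations, the limit measure, and the pressure for deterministic
spectra.
-/

open MeasureTheory ProbabilityTheory Filter Topology Matrix

namespace Vale.Agent.P166

/-- Marchenko-Pastur moments with unit variance. -/
def MPMoments (α : ℝ) (m : ℕ → ℝ) : Prop :=
  m 0 = 1 ∧ ∀ k, m (k + 1) = α * m k + ∑ p ∈ Finset.range k, m (p + 1) * m (k - 1 - p)

theorem mp_nonneg {α : ℝ} (hα : 0 ≤ α) {m : ℕ → ℝ} (hm : MPMoments α m) : ∀ k, 0 ≤ m k := by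
  intro k
  induction k using Nat.strong_induction_on with
  | _ k ih =>
    rcases k with _ | k
    · rw [hm.1]; exact zero_le_one
    · rw [hm.2]
      refine add_nonneg (mul_nonneg hα (ih k (by omega))) (Finset.sum_nonneg fun p hp => ?_)
      have := Finset.mem_range.1 hp
      exact mul_nonneg (ih _ (by omega)) (ih _ (by omega))

/-- The moments grow at least like powers of the upper edge. -/
theorem mp_edge {α : ℝ} (hα : 0 < α) {m : ℕ → ℝ} (hm : MPMoments α m) {r : ℝ} (hr0 : 0 ≤ r)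
    (hr : r < (1 + √α) ^ 2) : ∃ k, r ^ k < m k := by
  by_contra hc
  push Not at hc
  have hsα := Real.sqrt_pos.2 hα
  have hα2 := Real.sq_sqrt hα.le
  set e := (1 + √α) ^ 2
  set e' := (1 - √α) ^ 2
  have he' : e' < e := by simp only [e, e']; nlinarith
  have he0 : 0 < e := by positivity
  set r' := max (max r e') (e / 2)
  have hr' : r' < e := max_lt (max_lt hr he') (half_lt_self he0)
  have hr'0 : 0 < r' := lt_of_lt_of_le (half_pos he0) (le_max_right _ _)
  set z := 2 / (e + r')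
  have hz : 0 < z := by positivity
  have hez : 1 < e * z := by simp only [z]; rw [mul_div_assoc', one_lt_div (by positivity)]; linarith
  have hrz : r' * z < 1 := by simp only [z]; rw [mul_div_assoc', div_lt_one (by positivity)]; linarith
  have hm0 := mp_nonneg hα.le hm
  set b : ℕ → ℝ := fun j => m j * z ^ j
  set a : ℕ → ℝ := fun j => m (j + 1) * z ^ (j + 1)
  have hb0 : ∀ j, 0 ≤ b j := fun j => mul_nonneg (hm0 j) (pow_nonneg hz.le j)
  have hbs : Summable b := by
    refine Summable.of_nonneg_of_le hb0 (fun j => ?_) (summable_geometric_of_lt_one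
      (mul_nonneg hr0 hz.le)
      (lt_of_le_of_lt (mul_le_mul_of_nonneg_right ((le_max_left r e').trans (le_max_left _ _)) hz.le) hrz))
    rw [mul_pow]
    exact mul_le_mul_of_nonneg_right (hc j) (pow_nonneg hz.le j)
  have has : Summable a := (summable_nat_add_iff 1).2 hbs
  set f := ∑' j, b j
  have hf : ∑' j, a j = f - 1 := by
    have h := hbs.tsum_eq_zero_add
    simp only [b, hm.1, pow_zero, mul_one] at h
    simp only [f, a, b]; linarith
  have hconv := tsum_mul_tsum_eq_tsum_sum_range_of_summable_norm has.norm hbs.norm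
  have hcs : Summable fun n => ∑ p ∈ Finset.range (n + 1), a p * b (n - p) :=
    (summable_norm_sum_mul_range_of_summable_norm has.norm hbs.norm).of_norm
  have hstep : ∀ k, a k = α * z * b k + z * ∑ p ∈ Finset.range k, a p * b (k - 1 - p) := fun k => by
    simp only [a, b]
    rw [hm.2 k]
    simp only [Finset.mul_sum, add_mul, Finset.sum_mul]
    congr 1
    · ring
    · refine Finset.sum_congr rfl fun p hp => ?_
      have := Finset.mem_range.1 hp
      rw [show k + 1 = (p + 1) + (k - 1 - p) + 1 by omega, pow_succ, pow_add]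
      ring
  set c : ℕ → ℝ := fun k => ∑ p ∈ Finset.range k, a p * b (k - 1 - p)
  have hc1 : (fun n => c (n + 1)) = fun n => ∑ p ∈ Finset.range (n + 1), a p * b (n - p) := by
    funext n; simp only [c, Nat.add_sub_cancel]
  have hcS : Summable c := by
    have := hc1 ▸ hcs
    exact (summable_nat_add_iff 1).1 this
  have hcT : ∑' k, c k = (f - 1) * f := by
    rw [hcS.tsum_eq_zero_add, hc1, ← hconv, hf]; simp [c, f]
  have heq : f - 1 = α * z * f + z * ((f - 1) * f) := by
    rw [← hcT, ← hf, tsum_congr hstep, (hbs.mul_left _).tsum_add (hcS.mul_left _), tsum_mul_left, tsum_mul_left]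
  have hdisc : (1 + z - α * z) ^ 2 - 4 * z = (e * z - 1) * (e' * z - 1) := by
    have h1 : e * e' = (1 - α) ^ 2 := by
      simp only [e, e']; rw [← mul_pow, show (1 + √α) * (1 - √α) = 1 - √α ^ 2 by ring, hα2]
    have h2 : e + e' = 2 * (1 + α) := by simp only [e, e']; linarith
    calc _ = (1 - α) ^ 2 * z ^ 2 - 2 * (1 + α) * z + 1 := by ring
      _ = _ := by rw [← h1, ← h2]; ring
  have hneg : (e * z - 1) * (e' * z - 1) < 0 :=
    mul_neg_of_pos_of_neg (by linarith) (by
      have := mul_le_mul_of_nonneg_right ((le_max_right r e').trans (le_max_left _ (e / 2))) hz.le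
      linarith [hrz])
  nlinarith [sq_nonneg (2 * z * f - (1 + z - α * z))]

variable {M N : ℕ}

/-- Diagonalisation of the Gram matrix. -/
theorem gram_spectral (hN : 0 < N) (g : Fin (M * N) → ℝ) :
    ∃ (Q : Matrix (Fin N) (Fin N) ℝ) (x : Fin N → ℝ), Qᵀ * Q = 1 ∧ Q * Qᵀ = 1 ∧
      gram g = (N : ℝ) • (Qᵀ * diagonal x * Q) ∧
      ∀ j, x j = (∑ a, (∑ i, mat g a i * Q j i) ^ 2) / N := by
  have hN' : (N : ℝ) ≠ 0 := by exact_mod_cast hN.ne'
  have hA : (gram g).IsHermitian := by
    rw [Matrix.IsHermitian, Matrix.conjTranspose_eq_transpose_of_trivial]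
    simpa using gram_pow_transpose g 1
  set U : Matrix (Fin N) (Fin N) ℝ := (hA.eigenvectorUnitary : Matrix (Fin N) (Fin N) ℝ)
  have hU : Uᵀ * U = 1 := by
    have := Unitary.coe_star_mul_self hA.eigenvectorUnitary
    simpa [Matrix.star_eq_conjTranspose, Matrix.conjTranspose_eq_transpose_of_trivial] using this
  have hU' : U * Uᵀ = 1 := mul_eq_one_comm.1 hU
  have hspec : gram g = U * diagonal hA.eigenvalues * Uᵀ := by
    conv_lhs => rw [hA.spectral_theorem, Unitary.conjStarAlgAut_apply]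
    simp [Matrix.star_eq_conjTranspose, Matrix.conjTranspose_eq_transpose_of_trivial, U]
  refine ⟨Uᵀ, fun j => hA.eigenvalues j / N, by simpa using hU', by simpa using hU, ?_, fun j => ?_⟩
  · rw [Matrix.transpose_transpose]
    conv_lhs => rw [hspec]
    rw [show diagonal (fun j => hA.eigenvalues j / (N : ℝ)) = (N : ℝ)⁻¹ • diagonal hA.eigenvalues by
      rw [← Matrix.diagonal_smul]; congr 1; funext j; simp [div_eq_inv_mul]]
    simp [smul_smul, hN']
  · simp only
    congr 1
    have h : Uᵀ * gram g * U = diagonal hA.eigenvalues := by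
      conv_lhs => rw [hspec]
      rw [Matrix.mul_assoc, Matrix.mul_assoc (U * diagonal hA.eigenvalues), hU, Matrix.mul_one,
        ← Matrix.mul_assoc, hU, Matrix.one_mul]
    have h2 := congrFun (congrFun h j) j
    rw [Matrix.diagonal_apply_eq] at h2
    rw [← h2, gram, show Uᵀ * ((mat g)ᵀ * mat g) * U = (mat g * U)ᵀ * (mat g * U) by
      rw [Matrix.transpose_mul]; simp only [Matrix.mul_assoc]]
    simp [Matrix.mul_apply, pow_two, mul_comm (U _ j)]

theorem conj_pow {Q D : Matrix (Fin N) (Fin N) ℝ} (hQ : Q * Qᵀ = 1) (hQ' : Qᵀ * Q = 1) (k : ℕ) :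
    (Qᵀ * D * Q) ^ k = Qᵀ * D ^ k * Q := by
  induction k with
  | zero => simp [hQ']
  | succ k ih =>
    rw [pow_succ, ih, pow_succ]
    simp only [mul_assoc]
    rw [← mul_assoc Q Qᵀ, hQ, one_mul]

theorem tm_eq (hN : 0 < N) {g : Fin (M * N) → ℝ} {Q : Matrix (Fin N) (Fin N) ℝ} {x : Fin N → ℝ}
    (h1 : Qᵀ * Q = 1) (h2 : Q * Qᵀ = 1) (hg : gram g = (N : ℝ) • (Qᵀ * diagonal x * Q)) (k : ℕ) :
    tm k g = (∑ j, x j ^ k) / N := by
  have hN' : (N : ℝ) ≠ 0 := by exact_mod_cast hN.ne'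
  rw [tm, hg, smul_pow, conj_pow h2 h1, Matrix.trace_smul, Matrix.trace_mul_cycle, h2, Matrix.one_mul,
    Matrix.diagonal_pow, Matrix.trace_diagonal, smul_eq_mul, pow_succ]
  simp only [Pi.pow_apply]
  field_simp

/-- Pressure of the rotated coupling. -/
theorem wpr_rot (hN : 0 < N) (β : ℝ) {g : Fin (M * N) → ℝ} {Q : Matrix (Fin N) (Fin N) ℝ}
    {x : Fin N → ℝ} (hg : gram g = (N : ℝ) • (Qᵀ * diagonal x * Q)) (U : Fin N → Fin N → ℝ) :
    wpr β (rot (Matrix.of U) g) = pr β x (Q * Matrix.of U : Matrix (Fin N) (Fin N) ℝ) := by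
  have hN' : (N : ℝ) ≠ 0 := by exact_mod_cast hN.ne'
  simp only [wpr, pr, wgt]
  congr 3
  refine Finset.sum_congr rfl fun σ _ => ?_
  congr 2
  set s : Fin N → ℝ := fun i => P157.sg (σ i)
  have hspin : ∀ b, spin b = P157.sg b := fun b => rfl
  have e1 : ∑ a, (∑ i, mat (rot (Matrix.of U) g) a i * P157.sg (σ i)) ^ 2
      = s ⬝ᵥ ((mat g * Matrix.of U)ᵀ * (mat g * Matrix.of U)) *ᵥ s := by
    rw [← Matrix.mulVec_mulVec, Matrix.dotProduct_mulVec, Matrix.vecMul_transpose, mat_rot]
    simp [dotProduct, Matrix.mulVec, pow_two, s]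
  rw [← Finset.sum_div, e1]
  rw [show (mat g * Matrix.of U)ᵀ * (mat g * Matrix.of U) = (Matrix.of U)ᵀ * gram g * Matrix.of U by
    rw [Matrix.transpose_mul, gram]; simp only [Matrix.mul_assoc], hg]
  rw [Matrix.mul_smul, Matrix.smul_mul, Matrix.smul_mulVec, dotProduct_smul, smul_eq_mul,
    mul_div_cancel_left₀ _ hN']
  rw [show (Matrix.of U)ᵀ * (Qᵀ * diagonal x * Q) * Matrix.of U
      = (Q * Matrix.of U)ᵀ * diagonal x * (Q * Matrix.of U) by
    rw [Matrix.transpose_mul]; simp only [Matrix.mul_assoc]]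
  rw [← Matrix.mulVec_mulVec, ← Matrix.mulVec_mulVec, Matrix.dotProduct_mulVec, Matrix.vecMul_transpose]
  simp only [dotProduct, Matrix.mulVec_diagonal, comp2, hspin, s]
  refine Finset.sum_congr rfl fun i _ => ?_
  simp only [Matrix.mulVec, dotProduct]
  ring

theorem good_of_orth {U : Fin N → Fin N → ℝ} (hU : (Matrix.of U)ᵀ * Matrix.of U = 1) : Good U := fun σ => by
  set s : Fin N → ℝ := fun k => spin (σ k)
  calc ∑ i, comp2 U σ i = (Matrix.of U *ᵥ s) ⬝ᵥ (Matrix.of U *ᵥ s) := by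
        simp only [comp2, dotProduct, Matrix.mulVec, Matrix.of_apply, pow_two]; rfl
    _ = s ⬝ᵥ (((Matrix.of U)ᵀ * Matrix.of U) *ᵥ s) := by
        rw [← Matrix.mulVec_mulVec, Matrix.dotProduct_mulVec s, Matrix.vecMul_transpose]
    _ = N := by
        rw [hU, Matrix.one_mulVec]
        simp only [s, dotProduct, spin]
        simp [apply_ite (fun x : ℝ => x * x)]

/-- A law on orthogonal matrices invariant under left multiplication. -/
def LeftInv (π : Measure (Fin N → Fin N → ℝ)) : Prop :=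
  (∀ᵐ U ∂π, (Matrix.of U)ᵀ * Matrix.of U = 1) ∧
    ∀ Q : Matrix (Fin N) (Fin N) ℝ, Qᵀ * Q = 1 → π.map (fun U i k => (Q * Matrix.of U) i k) = π

theorem leftInv_perm {π : Measure (Fin N → Fin N → ℝ)} (h : LeftInv π) (τ : Equiv.Perm (Fin N)) :
    π.map (rowPerm τ) = π := by
  have e := h.2 ((1 : Matrix (Fin N) (Fin N) ℝ).submatrix τ id) (by
    rw [Matrix.transpose_submatrix, Matrix.transpose_one, Matrix.submatrix_mul_equiv, Matrix.one_mul,
      Matrix.submatrix_id_id])
  convert e using 2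
  funext U i k
  simp [rowPerm, Matrix.mul_apply, Matrix.one_apply]

/-- Expected deviation of the pressure with random rotation. -/
noncomputable def dev (π : Measure (Fin N → Fin N → ℝ)) (β L : ℝ) (g : Fin (M * N) → ℝ) : ℝ :=
  ∫ U, |wpr β (rot (Matrix.of U) g) - L| ∂π

theorem dev_facts (hN : 0 < N) (β L : ℝ) {π : Measure (Fin N → Fin N → ℝ)} [IsProbabilityMeasure π]
    (hπ : LeftInv π) (hi : Integrable (fun g : Fin (M * N) → ℝ => |wpr β g - L|) (gs (M * N))) :
    Integrable (dev π β L) (gs (M * N)) ∧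
      ∫ g, dev π β L g ∂gs (M * N) = ∫ g, |wpr β g - L| ∂gs (M * N) ∧
      ∀ g : Fin (M * N) → ℝ, ∀ (Q : Matrix (Fin N) (Fin N) ℝ) (x : Fin N → ℝ), Qᵀ * Q = 1 →
        gram g = (N : ℝ) • (Qᵀ * diagonal x * Q) → dev π β L g = ∫ U, |pr β x U - L| ∂π := by
  have hN' : (0 : ℝ) < N := by exact_mod_cast hN
  have hrep : ∀ g : Fin (M * N) → ℝ, ∀ (Q : Matrix (Fin N) (Fin N) ℝ) (x : Fin N → ℝ), Qᵀ * Q = 1 →
        gram g = (N : ℝ) • (Qᵀ * diagonal x * Q) → dev π β L g = ∫ U, |pr β x U - L| ∂π := by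
    intro g Q x hQ hg
    conv_rhs => rw [← hπ.2 Q hQ]
    rw [integral_map]
    · simp only [dev, wpr_rot hN β hg]
    · refine (measurable_pi_lambda _ fun i => measurable_pi_lambda _ fun k => ?_).aemeasurable
      simp only [Matrix.mul_apply, Matrix.of_apply]; fun_prop
    · exact (((measurable_pr x).sub_const L).abs).aestronglyMeasurable
  set F : (Fin (M * N) → ℝ) × (Fin N → Fin N → ℝ) → ℝ := fun q =>
    |wpr β (rot (Matrix.of q.2) q.1) - L|
  have hFm : Measurable F := by
    simp only [F, wpr, mat_rot, Matrix.mul_apply, Matrix.of_apply]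
    simp only [mat]
    fun_prop
  have hbound : ∀ᵐ q ∂(gs (M * N)).prod π, ‖F q‖ ≤ |β| / 2 * ((∑ j, q.1 j ^ 2) / N) + |L| := by
    have h := (Measure.quasiMeasurePreserving_snd (μ := gs (M * N)) (ν := π)).ae hπ.1
    filter_upwards [h] with q hq
    obtain ⟨Q, x, hQ, hQ', hg, hx⟩ := gram_spectral hN q.1
    have hgood : Good (Q * Matrix.of q.2 : Matrix (Fin N) (Fin N) ℝ) := good_of_orth (by
      change (Q * Matrix.of q.2)ᵀ * (Q * Matrix.of q.2) = 1
      rw [Matrix.transpose_mul, Matrix.mul_assoc, ← Matrix.mul_assoc Qᵀ, hQ, Matrix.one_mul, hq])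
    have hx0 : ∀ j, 0 ≤ x j := fun j => by
      rw [hx]; exact div_nonneg (Finset.sum_nonneg fun a _ => sq_nonneg _) hN'.le
    have hsum : ∑ j, x j = (∑ j, q.1 j ^ 2) / N := by
      have := tm_eq hN hQ hQ' hg 1
      simp only [pow_one] at this
      have htr : (gram q.1).trace = ∑ j, q.1 j ^ 2 := by
        rw [← finProdFinEquiv.sum_comp, Fintype.sum_prod_type, Finset.sum_comm]
        simp [gram, Matrix.trace, Matrix.diag, Matrix.mul_apply, mat, pow_two]
      rw [tm, pow_one, htr] at this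
      field_simp at this ⊢
      exact mul_left_cancel₀ hN'.ne' (by linear_combination (-1 / (N : ℝ) ^ 0) * this)
    have hb := abs_pr_le (β := β) hN hgood (C := ∑ j, x j) (a := x) fun i => by
      rw [abs_of_nonneg (hx0 i)]; exact Finset.single_le_sum (fun j _ => hx0 j) (Finset.mem_univ i)
    simp only [F, Real.norm_eq_abs, abs_abs, wpr_rot hN β hg]
    rw [← hsum]
    exact (abs_sub _ _).trans (add_le_add hb le_rfl)
  have hsq : Integrable (fun g : Fin (M * N) → ℝ => ∑ j, g j ^ 2) (gs (M * N)) := by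
    have h : PolyB fun g : Fin (M * N) → ℝ => ∑ i, g i * g i :=
      Tame.sum _ fun i _ => Tame.mul (polyB_coord i) (polyB_coord i)
    simpa only [pow_two] using h.integrable
  have hF : Integrable F ((gs (M * N)).prod π) :=
    ((((hsq.div_const _).const_mul (|β| / 2)).fun_add (integrable_const |L|)).comp_fst π).mono'
      hFm.aestronglyMeasurable hbound
  refine ⟨hF.integral_prod_left, ?_, hrep⟩
  have e1 : ∫ g, dev π β L g ∂gs (M * N) = ∫ U, ∫ g, F (g, U) ∂gs (M * N) ∂π := by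
    rw [← integral_prod_symm _ hF, integral_prod _ hF]; rfl
  rw [e1, integral_congr_ae (g := fun _ => ∫ g, |wpr (M := M) β g - L| ∂gs (M * N)) ?_]
  · simp
  · filter_upwards [hπ.1] with U hU
    have hmp := measurePreserving_rot (M := M) (Matrix.of U) hU
    conv_rhs => rw [← hmp.map_eq]
    rw [integral_map hmp.measurable.aemeasurable (by rw [hmp.map_eq]; exact hi.aestronglyMeasurable)]

/-- Realisations with good moments, edge and deviation. -/
theorem realise {α : ℝ} (hα : 0 < α) {m : ℕ → ℝ} (hm : MPMoments α m)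
    (hlim : ∀ l : List ℕ, Tendsto (fun N : ℕ => emom ⌊α * N⌋₊ N l) atTop (𝓝 (l.map m).prod))
    (D : ∀ N : ℕ, (Fin (⌊α * N⌋₊ * N) → ℝ) → ℝ) (hD0 : ∀ N g, 0 ≤ D N g)
    (hDi : ∀ᶠ N : ℕ in atTop, Integrable (D N) (gs (⌊α * N⌋₊ * N)))
    (hD : Tendsto (fun N : ℕ => ∫ g, D N g ∂gs (⌊α * N⌋₊ * N)) atTop (𝓝 0)) :
    ∃ (G : ∀ N : ℕ, Fin (⌊α * N⌋₊ * N) → ℝ) (l : ∀ N : ℕ, Fin N → ℝ),
      (∀ k : ℕ, Tendsto (fun N : ℕ => (∑ i, l N i ^ k) / N) atTop (𝓝 (m k))) ∧
      (∀ η, 0 < η → ∀ᶠ N in atTop, ∀ i, l N i ≤ (1 + √α) ^ 2 + η) ∧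
      (∀ᶠ N in atTop, ∀ i, 0 ≤ l N i) ∧
      (∀ N : ℕ, 0 < N → ∃ Q : Matrix (Fin N) (Fin N) ℝ, Qᵀ * Q = 1 ∧
        gram (G N) = (N : ℝ) • (Qᵀ * diagonal (l N) * Q)) ∧
      Tendsto (fun N => D N (G N)) atTop (𝓝 0) := by
  classical
  set M : ℕ → ℕ := fun N => ⌊α * (N : ℝ)⌋₊
  set a := 1 + √α
  have ha : 0 < a := by positivity
  have hMN : Tendsto (fun N : ℕ => (M N : ℝ) / N) atTop (𝓝 α) :=
    (tendsto_nat_floor_mul_div_atTop hα.le).comp tendsto_natCast_atTop_atTop
  have hpos : ∀ᶠ N in atTop, 0 < N ∧ 0 < M N := by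
    filter_upwards [eventually_gt_atTop 0, hMN.eventually (lt_mem_nhds hα)] with N hN h
    refine ⟨hN, Nat.pos_of_ne_zero fun h0 => ?_⟩
    simp [h0] at h
  -- moments are concentrated
  have hvar : ∀ k, Tendsto (fun N => ∫ g, (tm k g - m k) ^ 2 ∂gs (M N * N)) atTop (𝓝 0) := fun k => by
    have h := ((hlim [k, k]).sub ((hlim [k]).const_mul (2 * m k))).add_const (m k ^ 2)
    simp only [List.map_cons, List.map_nil, List.prod_cons, List.prod_nil, mul_one] at h
    rw [show m k * m k - 2 * m k * m k + m k ^ 2 = 0 by ring] at h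
    refine h.congr fun N => ?_
    have i2 := (polyB_tprod (M := M N) (N := N) [k, k]).integrable
    have i1 := (polyB_tprod (M := M N) (N := N) [k]).integrable
    have e : ∀ g : Fin (M N * N) → ℝ, (tm k g - m k) ^ 2
        = tprod [k, k] g - 2 * m k * tprod [k] g + m k ^ 2 := fun g => by simp [tprod]; ring
    simp only [e]
    rw [integral_add (i2.sub' (i1.const_mul _)) (integrable_const _), integral_sub i2 (i1.const_mul _),
      integral_const_mul, integral_const, probReal_univ, one_smul]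
    rfl
  have iT : ∀ k N, Integrable (fun g => |tm k g - m k|) (gs (M N * N)) := fun k N =>
    ((polyB_tm (M := M N) (N := N) k).integrable.sub' (integrable_const _)).abs
  have habs : ∀ k, Tendsto (fun N => ∫ g, |tm k g - m k| ∂gs (M N * N)) atTop (𝓝 0) := fun k => by
    rw [Metric.tendsto_nhds]
    intro ε hε
    filter_upwards [(hvar k).eventually (gt_mem_nhds (show 0 < ε ^ 2 / 4 by positivity))] with N hN
    rw [Real.dist_eq, sub_zero, abs_of_nonneg (integral_nonneg fun g => abs_nonneg _)]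
    have i2 : Integrable (fun g : Fin (M N * N) → ℝ => (tm k g - m k) ^ 2) (gs (M N * N)) := by
      have : PolyB fun g : Fin (M N * N) → ℝ => (tm k g - m k) * (tm k g - m k) :=
        Tame.mul (Tame.sub (polyB_tm k) (tame_const _)) (Tame.sub (polyB_tm k) (tame_const _))
      simpa only [pow_two] using this.integrable
    refine lt_of_le_of_lt (integral_mono (iT k N) ((i2.div_const ε).fun_add (integrable_const (ε / 4)))
      fun g => ?_) ?_
    · rw [div_add' _ _ _ hε.ne', le_div_iff₀ hε]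
      nlinarith [sq_nonneg (|tm k g - m k| - ε / 2), sq_abs (tm k g - m k)]
    · rw [integral_add (i2.div_const ε) (integrable_const _), integral_div, integral_const, probReal_univ,
        one_smul]
      have : (∫ g, (tm k g - m k) ^ 2 ∂gs (M N * N)) / ε < ε / 4 := by
        rw [div_lt_iff₀ hε]; nlinarith
      linarith
  -- the top
  have hZ : ∀ N, ∃ Z : (Fin (M N * N) → ℝ) → ℝ, 0 < N → 0 < M N → Integrable Z (gs (M N * N)) ∧
      ∫ g, Z g ∂gs (M N * N) ≤ √(M N : ℝ) + √(N : ℝ) + 4 ∧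
      ∀ g, 0 ≤ Z g ∧ ∀ v : Fin N → ℝ, ∑ i, v i ^ 2 = 1 → ∑ a, (∑ i, mat g a i * v i) ^ 2 ≤ Z g ^ 2 := by
    intro N
    by_cases h : 0 < N ∧ 0 < M N
    · obtain ⟨Z, h1, -, h2, h3⟩ := exists_top (M N) N h.2 h.1
      exact ⟨Z, fun _ _ => ⟨h1, h2, h3⟩⟩
    · exact ⟨0, fun h1 h2 => absurd ⟨h1, h2⟩ h⟩
  choose Z hZ using hZ
  set Y : ∀ N, (Fin (M N * N) → ℝ) → ℝ := fun N g => max (Z N g / √(N : ℝ) - a) 0
  have hY : Tendsto (fun N => ∫ g, Y N g ∂gs (M N * N)) atTop (𝓝 0) := by
    rw [Metric.tendsto_nhds]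
    intro ε hε
    set δ := min (ε / 4) (a / 2)
    have hδ : 0 < δ := lt_min (by positivity) (by positivity)
    have hδa : δ ≤ a / 2 := min_le_right _ _
    have hδe : δ ≤ ε / 4 := min_le_left _ _
    have hr : (a - δ) ^ 2 < a ^ 2 := by nlinarith
    obtain ⟨k, hk⟩ := mp_edge hα hm (sq_nonneg (a - δ)) hr
    set gap := m k - ((a - δ) ^ 2) ^ k
    have hgap : 0 < gap := sub_pos.2 hk
    have hroot : Tendsto (fun N : ℕ => √((M N : ℝ) / N) + 1 + 4 / √(N : ℝ)) atTop (𝓝 a) := by
      have h4 : Tendsto (fun N : ℕ => 4 / √(N : ℝ)) atTop (𝓝 0) :=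
        tendsto_const_nhds.div_atTop (Real.tendsto_sqrt_atTop.comp tendsto_natCast_atTop_atTop)
      have := (((Real.continuous_sqrt.tendsto α).comp hMN).add_const 1).add h4
      rw [add_zero, show √α + 1 = a from add_comm _ _] at this
      exact this
    filter_upwards [hpos, hroot.eventually (gt_mem_nhds (lt_add_of_pos_right a hδ)),
      (habs k).eventually (gt_mem_nhds (show 0 < gap * (δ / a) by positivity))] with N hN hlt hsmall
    obtain ⟨iZ, mZ, dZ⟩ := hZ N hN.1 hN.2
    have hN' : (0 : ℝ) < N := by exact_mod_cast hN.1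
    have hsN : 0 < √(N : ℝ) := Real.sqrt_pos.2 hN'
    rw [Real.dist_eq, sub_zero, abs_of_nonneg (integral_nonneg fun g => le_max_right _ _)]
    have hpt : ∀ g, Y N g ≤ (Z N g / √(N : ℝ) - a) + δ + a / gap * |tm k g - m k| := fun g => by
      simp only [Y]
      have hz0 : 0 ≤ Z N g / √(N : ℝ) := div_nonneg (dZ g).1 hsN.le
      have hq : 0 ≤ a / gap * |tm k g - m k| := by positivity
      refine max_le (by linarith) ?_
      by_cases hlo : a - δ ≤ Z N g / √(N : ℝ)
      · linarith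
      · push Not at hlo
        obtain ⟨Q, x, hQ, hQ', hg, hx⟩ := gram_spectral hN.1 g
        have hx1 : ∀ j, x j ≤ (a - δ) ^ 2 := fun j => by
          have hu : ∑ i, Q j i ^ 2 = 1 := by
            have := congrFun (congrFun hQ' j) j
            simpa [Matrix.mul_apply, pow_two] using this
          calc x j ≤ Z N g ^ 2 / N := by rw [hx]; gcongr; exact (dZ g).2 _ hu
            _ = (Z N g / √(N : ℝ)) ^ 2 := by rw [div_pow, Real.sq_sqrt hN'.le]
            _ ≤ _ := pow_le_pow_left₀ hz0 hlo.le 2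
        have hx0 : ∀ j, 0 ≤ x j := fun j => by
          rw [hx]; exact div_nonneg (Finset.sum_nonneg fun a _ => sq_nonneg _) hN'.le
        have ht : tm k g ≤ ((a - δ) ^ 2) ^ k := by
          rw [tm_eq hN.1 hQ hQ' hg, div_le_iff₀ hN']
          refine (Finset.sum_le_sum fun j _ => pow_le_pow_left₀ (hx0 j) (hx1 j) k).trans_eq ?_
          simp [mul_comm]
        have h2 : a ≤ a / gap * |tm k g - m k| := by
          rw [div_mul_eq_mul_div, le_div_iff₀ hgap]
          refine mul_le_mul_of_nonneg_left ?_ ha.le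
          rw [abs_sub_comm]
          exact le_trans (by simp only [gap]; linarith) (le_abs_self _)
        linarith
    have i1 : Integrable (fun g => Z N g / √(N : ℝ) - a) (gs (M N * N)) :=
      (iZ.div_const _).sub' (integrable_const _)
    refine lt_of_le_of_lt (integral_mono (i1.sup (integrable_const 0))
      ((i1.fun_add (integrable_const δ)).fun_add ((iT k N).const_mul _)) hpt) ?_
    rw [integral_add (i1.fun_add (integrable_const _)) ((iT k N).const_mul _),
      integral_add i1 (integrable_const _), integral_sub (iZ.div_const _) (integrable_const _),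
      integral_div, integral_const_mul, integral_const, integral_const, probReal_univ, one_smul, one_smul]
    have h1 : (∫ g, Z N g ∂gs (M N * N)) / √(N : ℝ) < a + δ := by
      refine lt_of_le_of_lt ?_ hlt
      rw [div_le_iff₀ hsN, add_mul, add_mul, ← Real.sqrt_mul (by positivity), div_mul_cancel₀ _ hN'.ne',
        div_mul_cancel₀ _ hsN.ne', one_mul]
      exact mZ
    have h2 : a / gap * ∫ g, |tm k g - m k| ∂gs (M N * N) < δ := by
      calc _ < a / gap * (gap * (δ / a)) := mul_lt_mul_of_pos_left hsmall (by positivity)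
        _ = δ := by field_simp
    linarith
  -- choice of realisations
  set score : ℕ → ∀ N, (Fin (M N * N) → ℝ) → ℝ := fun j N g =>
    (∑ k ∈ Finset.range (j + 1), |tm k g - m k|) + (Y N g + D N g)
  have hscore : ∀ j, ∀ᶠ N in atTop, ∃ g, score j N g ≤ 1 / ((j : ℝ) + 1) := fun j => by
    have h := (tendsto_finsetSum (Finset.range (j + 1)) fun k _ => habs k).add (hY.add hD)
    simp only [Finset.sum_const_zero, add_zero] at h
    filter_upwards [hpos, hDi, h.eventually (gt_mem_nhds (show (0 : ℝ) < 1 / ((j : ℝ) + 1) by positivity))]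
      with N hN d1 hlt
    obtain ⟨iZ, -, -⟩ := hZ N hN.1 hN.2
    have i1 : Integrable (Y N) (gs (M N * N)) :=
      ((iZ.div_const _).sub' (integrable_const _)).sup (integrable_const 0)
    have i2 : Integrable (fun g => ∑ k ∈ Finset.range (j + 1), |tm k g - m k|) (gs (M N * N)) :=
      integrable_finsetSum _ fun k _ => iT k N
    have i12 : Integrable (score j N) (gs (M N * N)) := i2.fun_add (i1.fun_add d1)
    obtain ⟨g, hg⟩ := exists_le_integral i12
    refine ⟨g, hg.trans (le_of_lt (lt_of_eq_of_lt ?_ hlt))⟩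
    simp only [score]
    rw [integral_add i2 (i1.fun_add d1), integral_add i1 d1,
      integral_finsetSum _ fun k _ => iT k N]
  set P : ℕ → ℕ → Prop := fun N j => ∃ g, score j N g ≤ 1 / ((j : ℝ) + 1)
  set J : ℕ → ℕ := fun N => Nat.findGreatest (P N) N
  have hJ : ∀ j, ∀ᶠ N in atTop, j ≤ J N ∧ P N (J N) := fun j => by
    filter_upwards [hscore j, eventually_ge_atTop j] with N hN hj
    exact ⟨Nat.le_findGreatest hj hN, Nat.findGreatest_spec hj hN⟩
  have hch : ∀ N, ∃ g : Fin (M N * N) → ℝ, P N (J N) → score (J N) N g ≤ 1 / ((J N : ℝ) + 1) := fun N => by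
    by_cases h : P N (J N)
    · obtain ⟨g, hg⟩ := h; exact ⟨g, fun _ => hg⟩
    · exact ⟨0, fun h' => absurd h' h⟩
  choose G hG using hch
  have hsp : ∀ N, ∃ x : Fin N → ℝ, 0 < N → ∃ Q : Matrix (Fin N) (Fin N) ℝ, Qᵀ * Q = 1 ∧ Q * Qᵀ = 1 ∧
      gram (G N) = (N : ℝ) • (Qᵀ * diagonal x * Q) ∧
      ∀ j, x j = (∑ a, (∑ i, mat (G N) a i * Q j i) ^ 2) / N := fun N => by
    rcases Nat.eq_zero_or_pos N with h | h
    · exact ⟨0, fun h' => absurd h' (by omega)⟩
    · obtain ⟨Q, x, hh⟩ := gram_spectral h (G N); exact ⟨x, fun _ => ⟨Q, hh⟩⟩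
  choose l hl using hsp
  have hdev0 : ∀ N, 0 ≤ D N (G N) := fun N => hD0 N _
  have hsmall : ∀ (k : ℕ) (ε : ℝ), 0 < ε → ∀ᶠ N in atTop,
      |tm k (G N) - m k| < ε ∧ Y N (G N) < ε ∧ D N (G N) < ε := fun k ε hε => by
    obtain ⟨j₀, hj₀⟩ := exists_nat_one_div_lt hε
    filter_upwards [hJ (max k j₀)] with N hN
    have h := hG N hN.2
    simp only [score] at h
    have hlt : 1 / ((J N : ℝ) + 1) < ε := lt_of_le_of_lt (one_div_le_one_div_of_le (by positivity)
      (by have : (j₀ : ℝ) ≤ J N := by exact_mod_cast (le_max_right k j₀).trans hN.1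
          linarith)) hj₀
    have h1 : |tm k (G N) - m k| ≤ ∑ k ∈ Finset.range (J N + 1), |tm k (G N) - m k| :=
      Finset.single_le_sum (f := fun k => |tm k (G N) - m k|) (fun k _ => abs_nonneg _)
        (Finset.mem_range.2 (by have := (le_max_left k j₀).trans hN.1; omega))
    have hs : 0 ≤ ∑ k ∈ Finset.range (J N + 1), |tm k (G N) - m k| :=
      Finset.sum_nonneg fun k _ => abs_nonneg _
    have hy : 0 ≤ Y N (G N) := le_max_right _ _
    have hd := hdev0 N
    exact ⟨by linarith, by linarith, by linarith⟩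
  refine ⟨G, l, fun k => ?_, fun η hη => ?_, ?_, fun N hN => ?_, ?_⟩
  · rw [Metric.tendsto_nhds]
    intro ε hε
    filter_upwards [hpos, hsmall k ε hε] with N hN h
    obtain ⟨Q, hQ, hQ', hg, -⟩ := hl N hN.1
    rw [Real.dist_eq, ← tm_eq hN.1 hQ hQ' hg]
    exact h.1
  · set δ := min (η / (3 * a)) a
    have hδ : 0 < δ := lt_min (by positivity) ha
    filter_upwards [hpos, hsmall 0 δ hδ] with N hN h i
    obtain ⟨Q, hQ, hQ', hg, hx⟩ := hl N hN.1
    obtain ⟨-, -, dZ⟩ := hZ N hN.1 hN.2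
    have hN' : (0 : ℝ) < N := by exact_mod_cast hN.1
    have hu : ∑ i', Q i i' ^ 2 = 1 := by
      have := congrFun (congrFun hQ' i) i
      simpa [Matrix.mul_apply, pow_two] using this
    have hzy : Z N (G N) / √(N : ℝ) ≤ a + δ := by
      have := le_max_left (Z N (G N) / √(N : ℝ) - a) 0
      have h2 := h.2.1
      simp only [Y] at h2
      linarith
    have e1 : δ ≤ η / (3 * a) := min_le_left _ _
    have e2 : δ ≤ a := min_le_right _ _
    rw [le_div_iff₀ (by positivity)] at e1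
    calc l N i ≤ Z N (G N) ^ 2 / N := by rw [hx]; gcongr; exact (dZ _).2 _ hu
      _ = (Z N (G N) / √(N : ℝ)) ^ 2 := by rw [div_pow, Real.sq_sqrt hN'.le]
      _ ≤ (a + δ) ^ 2 := pow_le_pow_left₀ (div_nonneg (dZ _).1 (Real.sqrt_nonneg _)) hzy 2
      _ ≤ _ := by nlinarith
  · filter_upwards [hpos] with N hN i
    obtain ⟨Q, -, -, -, hx⟩ := hl N hN.1
    rw [hx]; exact div_nonneg (Finset.sum_nonneg fun a _ => sq_nonneg _) (Nat.cast_nonneg _)
  · obtain ⟨Q, hQ, -, hg, -⟩ := hl N hN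
    exact ⟨Q, hQ, hg⟩
  · rw [Metric.tendsto_nhds]
    intro ε hε
    filter_upwards [hsmall 0 ε hε] with N h
    rw [Real.dist_eq, sub_zero, abs_of_nonneg (hdev0 N)]
    exact h.2.2

end Vale.Agent.P166
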