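import Vale.Agent.P166.Calc

/-!
Concavity of the one-pattern free energy along the interpolation, for `|b| ≤ 1/25`.
-/

open MeasureTheory ProbabilityTheory Filter Topology Set

namespace Vale.Agent.P166

variable {S : Type*} [Fintype S] {n : ℕ} {b : ℝ} {w : S → ℝ}

theorem le_exp_fifth (x : ℝ) : x ≤ 13 / 7 * Real.exp (x / 5) := by
  rcases le_or_gt x 0 with hx | hx
  · exact hx.trans (by positivity)
  have h := Real.add_one_le_exp (x / 5 - 1)
  rw [Real.exp_sub, le_div_iff₀ (Real.exp_pos 1)] at h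
  have := Real.exp_one_gt_d9
  nlinarith

theorem chi_le : chi (9 / 25) ≤ 19 / 10 := by
  rw [chi, inv_le_comm₀ (Real.sqrt_pos.2 (by norm_num)) (by norm_num)]
  exact Real.le_sqrt_of_sq_le (by norm_num)

theorem chi_small {c : ℝ} (hc : c ≤ 1 / 50) : chi c ≤ 1021 / 1000 := by
  rw [chi, inv_le_comm₀ (Real.sqrt_pos.2 (by linarith)) (by norm_num)]
  exact Real.le_sqrt_of_sq_le (by norm_num; linarith)

/-- Weighted arithmetic-geometric bound for four exponents. -/
theorem exp_four (x y z m a₁ a₂ a₃ a₄ : ℝ) (h₁ : 0 ≤ a₁) (h₂ : 0 ≤ a₂) (h₃ : 0 ≤ a₃) (h₄ : 0 ≤ a₄)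
    (hs : a₁ + a₂ + a₃ + a₄ = 9 / 25) :
    Real.exp (a₁ * x + a₂ * y + a₃ * z + a₄ * m)
      ≤ 25 / 9 * (a₁ * Real.exp (9 / 25 * x) + a₂ * Real.exp (9 / 25 * y)
        + a₃ * Real.exp (9 / 25 * z) + a₄ * Real.exp (9 / 25 * m)) := by
  have h := convexOn_exp.map_sum_le (t := (Finset.univ : Finset (Fin 4)))
    (w := fun i => 25 / 9 * ![a₁, a₂, a₃, a₄] i)
    (p := fun i => 9 / 25 * ![x, y, z, m] i)
    (fun i _ => by fin_cases i <;> simp <;> assumption)
    (by simp [Fin.sum_univ_four]; linarith) (fun i _ => Set.mem_univ _)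
  simp [Fin.sum_univ_four] at h
  refine le_trans (le_of_eq ?_) (h.trans (le_of_eq ?_))
  · congr 1; ring
  · ring

section

variable (hw : ∀ s, 0 ≤ w s) (hw1 : ∑ s, w s = 1) (hb : |b| ≤ 1 / 25)
include hw hw1

theorem exp_avg_le (c : ℝ) (x : S → ℝ) :
    Real.exp (c * ∑ s, w s * x s) ≤ ∑ s, w s * Real.exp (c * x s) := by
  have h := convexOn_exp.map_sum_le (t := (Finset.univ : Finset S)) (w := w) (p := fun s => c * x s)
    (fun s _ => hw s) hw1 (fun s _ => Set.mem_univ _)
  simp only [smul_eq_mul] at h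
  rwa [show c * ∑ s, w s * x s = ∑ s, w s * (c * x s) by
    rw [Finset.mul_sum]; exact Finset.sum_congr rfl fun s _ => by ring]

/-- The part of the pointwise bound carrying one error term. -/
theorem sfun_ge (D : S → S → ℝ) (h : S → ℝ) :
    ∑ a, ∑ c, D a c ^ 2 * (pfun b w h a * pfun b w h c *
      (1 - |b| * (h a ^ 2 + h c ^ 2)
        - 4 * |b| * ((1 + |b| * h a ^ 2) * ∑ e, pfun b w h e * h e ^ 2))) ≤ sfun b w D h := by
  have hp : ∀ a, 0 ≤ pfun b w h a := fun a => (pfun_mem hw hw1 h a).1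
  have hbb := abs_le.1 (le_refl |b|)
  set M := ∑ e, pfun b w h e * h e ^ 2
  have hy : ∀ a, yfun b w D h a ^ 2 ≤ (∑ c, D a c ^ 2 * pfun b w h c) * M := fun a =>
    Finset.sum_sq_le_sum_mul_sum_of_sq_le_mul _ (fun c _ => mul_nonneg (sq_nonneg _) (hp c))
      (fun c _ => mul_nonneg (hp c) (sq_nonneg _)) fun c _ => le_of_eq (by simp only [ufun]; ring)
  clear_value M
  have hq : ∀ a, |qfun b w h a| ≤ pfun b w h a * (1 + |b| * h a ^ 2) := fun a => by
    rw [qfun, abs_mul, abs_of_nonneg (hp a)]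
    refine mul_le_mul_of_nonneg_left ((abs_add_le _ _).trans_eq ?_) (hp a)
    rw [abs_one, abs_mul, abs_of_nonneg (sq_nonneg (h a))]
  have hqq : ∀ a c, pfun b w h a * pfun b w h c * (1 - |b| * (h a ^ 2 + h c ^ 2))
      ≤ qfun b w h a * qfun b w h c := fun a c => by
    simp only [qfun]
    rw [show pfun b w h a * (1 + b * h a ^ 2) * (pfun b w h c * (1 + b * h c ^ 2))
      = pfun b w h a * pfun b w h c * ((1 + b * h a ^ 2) * (1 + b * h c ^ 2)) by ring]
    refine mul_le_mul_of_nonneg_left ?_ (mul_nonneg (hp a) (hp c))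
    nlinarith [mul_le_mul_of_nonneg_right (neg_abs_le b) (sq_nonneg (h a)),
      mul_le_mul_of_nonneg_right (neg_abs_le b) (sq_nonneg (h c)), sq_nonneg (b * h a * h c)]
  have e1 : ∑ a, ∑ c, D a c ^ 2 * (pfun b w h a * pfun b w h c * (1 - |b| * (h a ^ 2 + h c ^ 2)))
      ≤ ∑ a, qfun b w h a * ∑ c, D a c ^ 2 * qfun b w h c := Finset.sum_le_sum fun a _ => by
    rw [Finset.mul_sum]
    exact Finset.sum_le_sum fun c _ => (mul_le_mul_of_nonneg_left (hqq a c) (sq_nonneg _)).trans_eq (by ring)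
  have e2 : b * ∑ a, qfun b w h a * yfun b w D h a ^ 2
      ≤ |b| * ∑ a, ∑ c, D a c ^ 2 * (pfun b w h a * pfun b w h c * ((1 + |b| * h a ^ 2) * M)) := by
    rw [Finset.mul_sum, Finset.mul_sum]
    refine Finset.sum_le_sum fun a _ => ?_
    refine (le_abs_self _).trans ?_
    rw [abs_mul, abs_mul, abs_of_nonneg (sq_nonneg (yfun b w D h a))]
    refine mul_le_mul_of_nonneg_left ((mul_le_mul (hq a) (hy a) (sq_nonneg _)
      (mul_nonneg (hp a) (by positivity))).trans_eq ?_) (abs_nonneg b)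
    rw [← mul_assoc, Finset.mul_sum, Finset.sum_mul]
    exact Finset.sum_congr rfl fun c _ => by ring
  have e3 : 0 ≤ 3 * b ^ 2 * qform b w D h ^ 2 := by positivity
  refine le_trans (le_of_eq ?_) (show _ - 4 * (|b| * _) ≤ _ from sub_le_sub e1
    (mul_le_mul_of_nonneg_left e2 (by norm_num : (0 : ℝ) ≤ 4)) |>.trans (by unfold sfun; linarith))
  rw [Finset.mul_sum, Finset.mul_sum, ← Finset.sum_sub_distrib]
  refine Finset.sum_congr rfl fun a _ => ?_
  rw [Finset.mul_sum, Finset.mul_sum, ← Finset.sum_sub_distrib]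
  exact Finset.sum_congr rfl fun c _ => by ring

include hb

theorem pair_le (h : S → ℝ) (a c : S) :
    pfun b w h a * pfun b w h c ≤ w a * w c *
      Real.exp (1 / 50 * h a ^ 2 + 1 / 50 * h c ^ 2 + 1 / 25 * ∑ s, w s * h s ^ 2) := by
  have hz := zfun_pos (b := b) hw hw1 h
  set m := ∑ s, w s * h s ^ 2
  have hm : 0 ≤ m := Finset.sum_nonneg fun s _ => mul_nonneg (hw s) (sq_nonneg _)
  have hJ : Real.exp (b / 2 * m) ≤ zfun b w h :=
    (exp_avg_le hw hw1 _ _).trans_eq (Finset.sum_congr rfl fun s _ => by ring_nf)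
  have hbb := abs_le.1 hb
  calc pfun b w h a * pfun b w h c
      = w a * w c * (Real.exp (b * h a ^ 2 / 2) * Real.exp (b * h c ^ 2 / 2) / (zfun b w h * zfun b w h)) := by
        simp only [pfun]; field_simp
    _ ≤ w a * w c * (Real.exp (b * h a ^ 2 / 2) * Real.exp (b * h c ^ 2 / 2)
        / (Real.exp (b / 2 * m) * Real.exp (b / 2 * m))) :=
        mul_le_mul_of_nonneg_left (div_le_div_of_nonneg_left (by positivity) (by positivity)
          (mul_le_mul hJ hJ (Real.exp_pos _).le hz.le)) (mul_nonneg (hw a) (hw c))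
    _ ≤ _ := by
        refine mul_le_mul_of_nonneg_left ?_ (mul_nonneg (hw a) (hw c))
        rw [← Real.exp_add, ← Real.exp_add, ← Real.exp_sub]
        refine Real.exp_le_exp.2 ?_
        nlinarith [mul_le_mul_of_nonneg_right hbb.2 (sq_nonneg (h a)),
          mul_le_mul_of_nonneg_right hbb.2 (sq_nonneg (h c)), mul_le_mul_of_nonneg_right hbb.1 hm]

theorem avg_sq_le (h : S → ℝ) : ∑ e, pfun b w h e * h e ^ 2
    ≤ ∑ e, w e * (13 / 7 * Real.exp (11 / 50 * h e ^ 2 + 1 / 50 * ∑ s, w s * h s ^ 2)) := by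
  have hz := zfun_pos (b := b) hw hw1 h
  set m := ∑ s, w s * h s ^ 2
  have hm : 0 ≤ m := Finset.sum_nonneg fun s _ => mul_nonneg (hw s) (sq_nonneg _)
  have hJ : Real.exp (b / 2 * m) ≤ zfun b w h :=
    (exp_avg_le hw hw1 _ _).trans_eq (Finset.sum_congr rfl fun s _ => by ring_nf)
  have hbb := abs_le.1 hb
  refine Finset.sum_le_sum fun e _ => ?_
  have h1 : pfun b w h e ≤ w e * Real.exp (b * h e ^ 2 / 2 - b / 2 * m) := by
    rw [pfun, Real.exp_sub, ← mul_div_assoc]
    exact div_le_div_of_nonneg_left (mul_nonneg (hw e) (Real.exp_pos _).le) (Real.exp_pos _) hJ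
  refine (mul_le_mul h1 (le_exp_fifth _) (sq_nonneg _) (mul_nonneg (hw e) (Real.exp_pos _).le)).trans ?_
  rw [mul_assoc, ← mul_assoc (Real.exp _), mul_comm (Real.exp _) (13 / 7 : ℝ), mul_assoc, ← Real.exp_add]
  refine mul_le_mul_of_nonneg_left (mul_le_mul_of_nonneg_left (Real.exp_le_exp.2 ?_) (by norm_num)) (hw e)
  nlinarith [mul_le_mul_of_nonneg_right hbb.2 (sq_nonneg (h e)), mul_le_mul_of_nonneg_right hbb.1 hm]

/-- Majorant of the error term for a pair. -/
theorem error_le (h : S → ℝ) (a c : S) :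
    pfun b w h a * pfun b w h c *
        (h a ^ 2 + h c ^ 2 + 4 * ((1 + |b| * h a ^ 2) * ∑ e, pfun b w h e * h e ^ 2))
      ≤ w a * w c * (13 / 7) *
        (25 / 9 * ((11 / 50 + 1 / 50) * (Real.exp (9 / 25 * h a ^ 2) + Real.exp (9 / 25 * h c ^ 2))
            + 2 * (3 / 25) * ∑ d, w d * Real.exp (9 / 25 * h d ^ 2))
          + 4 * (25 / 9) * (3 / 50 * Real.exp (9 / 25 * h a ^ 2) + 1 / 50 * Real.exp (9 / 25 * h c ^ 2)
            + 11 / 50 * ∑ e, w e * Real.exp (9 / 25 * h e ^ 2)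
            + 3 / 50 * ∑ d, w d * Real.exp (9 / 25 * h d ^ 2))) := by
  set m := ∑ s, w s * h s ^ 2
  set A := h a ^ 2
  set B := h c ^ 2
  set U := ∑ d, w d * Real.exp (9 / 25 * h d ^ 2)
  have hm : 0 ≤ m := Finset.sum_nonneg fun s _ => mul_nonneg (hw s) (sq_nonneg _)
  have hU : Real.exp (9 / 25 * m) ≤ U := exp_avg_le hw hw1 _ _
  have hA : 0 ≤ A := sq_nonneg _
  have hB : 0 ≤ B := sq_nonneg _
  have hpp := pair_le hw hw1 hb h a c
  have hww : 0 ≤ w a * w c := mul_nonneg (hw a) (hw c)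
  have one : ∀ X Y : ℝ, 0 ≤ X → 0 ≤ Y → pfun b w h a * pfun b w h c = pfun b w h a * pfun b w h c →
      Real.exp (1 / 50 * X + 1 / 50 * Y + 1 / 25 * m) * X
      ≤ 13 / 7 * (25 / 9 * (11 / 50 * Real.exp (9 / 25 * X) + 1 / 50 * Real.exp (9 / 25 * Y)
          + 3 / 25 * U)) := fun X Y hX hY _ => by
    refine (mul_le_mul_of_nonneg_left (le_exp_fifth X) (Real.exp_pos _).le).trans ?_
    rw [mul_left_comm, ← Real.exp_add]
    refine mul_le_mul_of_nonneg_left ?_ (by norm_num)
    refine (Real.exp_le_exp.2 (?_ : _ ≤ 11 / 50 * X + 1 / 50 * Y + 0 * (0 : ℝ) + 3 / 25 * m)).trans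
      ((exp_four X Y 0 m (11 / 50) (1 / 50) 0 (3 / 25) (by norm_num) (by norm_num) le_rfl
        (by norm_num) (by norm_num)).trans ?_)
    · linarith
    · nlinarith
  have two : Real.exp (1 / 50 * A + 1 / 50 * B + 1 / 25 * m)
        * ((1 + |b| * A) * ∑ e, pfun b w h e * h e ^ 2)
      ≤ 13 / 7 * (25 / 9) * (3 / 50 * Real.exp (9 / 25 * A) + 1 / 50 * Real.exp (9 / 25 * B)
        + 11 / 50 * ∑ e, w e * Real.exp (9 / 25 * h e ^ 2) + 3 / 50 * U) := by
    have h1 : 1 + |b| * A ≤ Real.exp (1 / 25 * A) := by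
      have := Real.add_one_le_exp (1 / 25 * A)
      nlinarith
    have h2 : 0 ≤ ∑ e, pfun b w h e * h e ^ 2 :=
      Finset.sum_nonneg fun e _ => mul_nonneg (pfun_mem hw hw1 h e).1 (sq_nonneg _)
    refine (mul_le_mul_of_nonneg_left (mul_le_mul h1 (avg_sq_le hw hw1 hb h) h2 (Real.exp_pos _).le)
      (Real.exp_pos _).le).trans ?_
    calc Real.exp (1 / 50 * A + 1 / 50 * B + 1 / 25 * m) * (Real.exp (1 / 25 * A)
          * ∑ e, w e * (13 / 7 * Real.exp (11 / 50 * h e ^ 2 + 1 / 50 * m)))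
        = ∑ e, w e * (13 / 7 * Real.exp (3 / 50 * A + 1 / 50 * B + 11 / 50 * h e ^ 2 + 3 / 50 * m)) := by
          rw [← mul_assoc, ← Real.exp_add, Finset.mul_sum]
          refine Finset.sum_congr rfl fun e _ => ?_
          rw [show Real.exp (1 / 50 * A + 1 / 50 * B + 1 / 25 * m + 1 / 25 * A)
              * (w e * (13 / 7 * Real.exp (11 / 50 * h e ^ 2 + 1 / 50 * m)))
            = w e * (13 / 7 * (Real.exp (1 / 50 * A + 1 / 50 * B + 1 / 25 * m + 1 / 25 * A)
              * Real.exp (11 / 50 * h e ^ 2 + 1 / 50 * m))) by ring, ← Real.exp_add]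
          ring_nf
      _ ≤ ∑ e, w e * (13 / 7 * (25 / 9 * (3 / 50 * Real.exp (9 / 25 * A) + 1 / 50 * Real.exp (9 / 25 * B)
            + 11 / 50 * Real.exp (9 / 25 * h e ^ 2) + 3 / 50 * U))) :=
          Finset.sum_le_sum fun e _ => mul_le_mul_of_nonneg_left (mul_le_mul_of_nonneg_left
            ((exp_four A B (h e ^ 2) m (3 / 50) (1 / 50) (11 / 50) (3 / 50) (by norm_num) (by norm_num)
              (by norm_num) (by norm_num) (by norm_num)).trans
              (mul_le_mul_of_nonneg_left (by linarith) (by norm_num))) (by norm_num)) (hw e)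
      _ = _ := by
          rw [Finset.sum_congr rfl fun e _ => (by ring :
            w e * (13 / 7 * (25 / 9 * (3 / 50 * Real.exp (9 / 25 * A) + 1 / 50 * Real.exp (9 / 25 * B)
              + 11 / 50 * Real.exp (9 / 25 * h e ^ 2) + 3 / 50 * U)))
            = w e * (13 / 7 * (25 / 9) * (3 / 50 * Real.exp (9 / 25 * A)
              + 1 / 50 * Real.exp (9 / 25 * B) + 3 / 50 * U))
              + 13 / 7 * (25 / 9) * (11 / 50) * (w e * Real.exp (9 / 25 * h e ^ 2))),
            Finset.sum_add_distrib, ← Finset.sum_mul, hw1, ← Finset.mul_sum]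
          ring
  have hM : 0 ≤ ∑ e, pfun b w h e * h e ^ 2 :=
    Finset.sum_nonneg fun e _ => mul_nonneg (pfun_mem hw hw1 h e).1 (sq_nonneg _)
  have hX : 0 ≤ A + B + 4 * ((1 + |b| * A) * ∑ e, pfun b w h e * h e ^ 2) := by positivity
  refine (mul_le_mul_of_nonneg_right hpp hX).trans ?_
  rw [show w a * w c * Real.exp (1 / 50 * A + 1 / 50 * B + 1 / 25 * m)
      * (A + B + 4 * ((1 + |b| * A) * ∑ e, pfun b w h e * h e ^ 2))
    = w a * w c * (Real.exp (1 / 50 * A + 1 / 50 * B + 1 / 25 * m) * A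
      + Real.exp (1 / 50 * A + 1 / 50 * B + 1 / 25 * m) * B
      + 4 * (Real.exp (1 / 50 * A + 1 / 50 * B + 1 / 25 * m)
        * ((1 + |b| * A) * ∑ e, pfun b w h e * h e ^ 2))) by ring, mul_assoc (w a * w c)]
  refine mul_le_mul_of_nonneg_left ?_ hww
  have oneA := one A B hA hB rfl
  have oneB := one B A hB hA rfl
  rw [show (1 : ℝ) / 50 * B + 1 / 50 * A = 1 / 50 * A + 1 / 50 * B by ring] at oneB
  linarith

omit hb in
/-- Lower bound for a pair. -/
theorem pair_ge (h : S → ℝ) (a c : S) :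
    w a * w c * (1 + b / 2 * (h a ^ 2 + h c ^ 2) - 2 * (∑ s, w s * Real.exp (b / 2 * h s ^ 2) - 1))
      ≤ pfun b w h a * pfun b w h c := by
  have hz := zfun_pos (b := b) hw hw1 h
  have e : pfun b w h a * pfun b w h c
      = w a * w c * Real.exp (b / 2 * (h a ^ 2 + h c ^ 2) - 2 * Real.log (zfun b w h)) := by
    rw [Real.exp_sub, show Real.exp (2 * Real.log (zfun b w h)) = zfun b w h * zfun b w h by
      rw [two_mul, Real.exp_add, Real.exp_log hz], mul_add, Real.exp_add]
    simp only [pfun]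
    field_simp
  rw [e]
  refine mul_le_mul_of_nonneg_left ?_ (mul_nonneg (hw a) (hw c))
  have hl := Real.log_le_sub_one_of_pos hz
  have hze : zfun b w h = ∑ s, w s * Real.exp (b / 2 * h s ^ 2) :=
    Finset.sum_congr rfl fun s _ => by ring_nf
  linarith [Real.add_one_le_exp (b / 2 * (h a ^ 2 + h c ^ 2) - 2 * Real.log (zfun b w h))]

/-- The expected second derivative has a sign. -/
theorem integral_sfun_nonneg (D : S → S → ℝ) (v : S → Fin n → ℝ) (hv : ∀ s, ∑ i, v s i ^ 2 = 1) :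
    0 ≤ ∫ g, sfun b w D (fun s => ∑ i, g i * v s i) ∂gs n := by
  set h : (Fin n → ℝ) → S → ℝ := fun g s => ∑ i, g i * v s i
  set E : S → (Fin n → ℝ) → ℝ := fun s g => Real.exp (9 / 25 * h g s ^ 2)
  set R : S → S → (Fin n → ℝ) → ℝ := fun a c g => w a * w c *
      ((1 + b / 2 * (h g a ^ 2 + h g c ^ 2) - 2 * (∑ s, w s * Real.exp (b / 2 * h g s ^ 2) - 1))
      - |b| * (13 / 7) *
        (25 / 9 * ((11 / 50 + 1 / 50) * (E a g + E c g) + 2 * (3 / 25) * ∑ d, w d * E d g)
          + 4 * (25 / 9) * (3 / 50 * E a g + 1 / 50 * E c g + 11 / 50 * ∑ e, w e * E e g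
            + 3 / 50 * ∑ d, w d * E d g)))
  have hbb := abs_le.1 hb
  have iE : ∀ s, Integrable (E s) (gs n) := fun s => (exp_sq_lin (v s) (hv s) (by norm_num)).1
  have iF : ∀ s, Integrable (fun g => Real.exp (b / 2 * h g s ^ 2)) (gs n) := fun s =>
    (exp_sq_lin (v s) (hv s) (by linarith)).1
  have iS : ∀ s, Integrable (fun g => h g s ^ 2) (gs n) := fun s => by
    have := ((tame_lin (T := (Set.univ : Set ℝ)) (C := ∑ i, |v s i|) (v := fun _ => v s)
      (by positivity) fun t _ i => Finset.single_le_sum (f := fun i => |v s i|) (fun i _ => abs_nonneg _) (Finset.mem_univ i)).mul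
      (tame_lin (T := (Set.univ : Set ℝ)) (C := ∑ i, |v s i|) (v := fun _ => v s)
      (by positivity) fun t _ i => Finset.single_le_sum (f := fun i => |v s i|) (fun i _ => abs_nonneg _) (Finset.mem_univ i))).integrable
      (Set.mem_univ 0)
    simpa only [pow_two] using this
  have iR : ∀ a c, Integrable (fun g => D a c ^ 2 * R a c g) (gs n) := fun a c => by
    refine ((((integrable_const 1).add (((iS a).add (iS c)).const_mul _)).sub
      (((integrable_finsetSum _ fun s _ => (iF s).const_mul _).sub (integrable_const 1)).const_mul 2)).sub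
      (((((((iE a).add (iE c)).const_mul _).add
          ((integrable_finsetSum _ fun d _ => (iE d).const_mul _).const_mul _)).const_mul _).add
        ((((((iE a).const_mul _).add ((iE c).const_mul _)).add
          ((integrable_finsetSum _ fun d _ => (iE d).const_mul _).const_mul _)).add
          ((integrable_finsetSum _ fun d _ => (iE d).const_mul _).const_mul _)).const_mul _)).const_mul _)
      |>.const_mul _).const_mul _
  have key : ∀ g, ∑ a, ∑ c, D a c ^ 2 * R a c g ≤ sfun b w D (h g) := fun g => by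
    refine le_trans (Finset.sum_le_sum fun a _ => Finset.sum_le_sum fun c _ =>
      mul_le_mul_of_nonneg_left ?_ (sq_nonneg _)) (sfun_ge hw hw1 D (h g))
    have h1 := pair_ge (b := b) hw hw1 (h g) a c
    have h2 := mul_le_mul_of_nonneg_left (error_le hw hw1 hb (h g) a c) (abs_nonneg b)
    simp only [R, E]
    nlinarith [h1, h2]
  have hT : ∀ s, Tame (Set.univ : Set ℝ) fun _ g => h g s := fun s =>
    tame_lin (C := ∑ i, |v s i|) (v := fun _ => v s) (by positivity)
      fun t _ i => Finset.single_le_sum (f := fun i => |v s i|) (fun i _ => abs_nonneg _) (Finset.mem_univ i)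
  refine le_trans ?_ (integral_mono (integrable_finsetSum _ fun a _ => integrable_finsetSum _ fun c _ => iR a c)
    ((tame_s hw hw1 hT D).integrable (Set.mem_univ 0)) key)
  rw [integral_finsetSum _ fun a _ => integrable_finsetSum _ fun c _ => iR a c]
  refine Finset.sum_nonneg fun a _ => ?_
  rw [integral_finsetSum _ fun c _ => iR a c]
  refine Finset.sum_nonneg fun c _ => ?_
  rw [integral_const_mul]
  refine mul_nonneg (sq_nonneg _) ?_
  simp only [R]
  rw [integral_const_mul]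
  refine mul_nonneg (mul_nonneg (hw a) (hw c)) ?_
  have eE : ∀ s, ∫ g, E s g ∂gs n ≤ 19 / 10 := fun s => by
    rw [(exp_sq_lin (v s) (hv s) (by norm_num)).2]; exact chi_le
  have eU : ∫ g, ∑ d, w d * E d g ∂gs n ≤ 19 / 10 := by
    rw [integral_finsetSum _ fun d _ => (iE d).const_mul _]
    simp only [integral_const_mul]
    calc ∑ d, w d * ∫ g, E d g ∂gs n ≤ ∑ d, w d * (19 / 10) :=
          Finset.sum_le_sum fun d _ => mul_le_mul_of_nonneg_left (eE d) (hw d)
      _ = _ := by rw [← Finset.sum_mul, hw1, one_mul]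
  have eF : ∫ g, ∑ s, w s * Real.exp (b / 2 * h g s ^ 2) ∂gs n ≤ 1021 / 1000 := by
    rw [integral_finsetSum _ fun s _ => (iF s).const_mul _]
    simp only [integral_const_mul]
    calc ∑ s, w s * ∫ g, Real.exp (b / 2 * h g s ^ 2) ∂gs n ≤ ∑ s, w s * (1021 / 1000) :=
          Finset.sum_le_sum fun s _ => mul_le_mul_of_nonneg_left
            (by rw [(exp_sq_lin (v s) (hv s) (by linarith)).2]; exact chi_small (by linarith)) (hw s)
      _ = _ := by rw [← Finset.sum_mul, hw1, one_mul]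
  have iU : Integrable (fun g => ∑ d, w d * E d g) (gs n) :=
    integrable_finsetSum _ fun d _ => (iE d).const_mul _
  have iZ : Integrable (fun g => ∑ s, w s * Real.exp (b / 2 * h g s ^ 2)) (gs n) :=
    integrable_finsetSum _ fun s _ => (iF s).const_mul _
  have hpos : ∀ s, 0 ≤ ∫ g, E s g ∂gs n := fun s => integral_nonneg fun g => (Real.exp_pos _).le
  have hposU : 0 ≤ ∫ g, ∑ d, w d * E d g ∂gs n :=
    integral_nonneg fun g => Finset.sum_nonneg fun d _ => mul_nonneg (hw d) (Real.exp_pos _).le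
  simp (disch := fun_prop) only [integral_sub, integral_add, integral_const_mul, integral_const,
    sq_lin _ (hv a), sq_lin _ (hv c), probReal_univ, one_smul, h]
  simp only [h] at eF eU eE hpos hposU
  have hab := abs_nonneg b
  nlinarith [eE a, eE c, hpos a, hpos c]

/-- Concavity along the interpolation. -/
theorem interp_concave {v1 v2 : S → Fin n → ℝ} (hv : Adm v1 v2) :
    ConcaveOn ℝ (Icc (0 : ℝ) 1) fun t => ∫ g, lfun b w (hl v1 v2 t g) ∂gs n := by
  have hcont : ∀ {F : (S → ℝ) → ℝ}, Continuous F →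
      (Tame (n := n) (Icc (0 : ℝ) 1) fun t g => F (hl v1 v2 t g)) →
      ContinuousOn (fun t => ∫ g, F (hl v1 v2 t g) ∂gs n) (Icc (0 : ℝ) 1) := fun {F} hF hT => by
    obtain ⟨C, k, -, hbd⟩ := hT.2
    exact continuousOn_of_dominated (fun t ht => (hT.1 t ht).aestronglyMeasurable)
      (fun t ht => ae_of_all _ fun g => by simpa [Real.norm_eq_abs] using hbd t ht g)
      ((integrable_env_pow k).const_mul C)
      (ae_of_all _ fun g => (hF.comp (continuous_hl g)).continuousOn)
  have hQ : MonotoneOn (fun t => ∫ g, qform b w (dcov v1 v2) (hl v1 v2 t g) ∂gs n) (Icc (0 : ℝ) 1) := by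
    refine monotoneOn_of_deriv_nonneg (convex_Icc 0 1)
      (hcont (continuous_qform hw hw1 _) (tame_Q hw hw1 tame_hl _)) ?_ ?_
    · intro t ht
      rw [interior_Icc] at ht
      exact (deriv_psi hw hw1 hv ht).differentiableAt.differentiableWithinAt
    · intro t ht
      rw [interior_Icc] at ht
      rw [(deriv_psi hw hw1 hv ht).deriv]
      exact integral_sfun_nonneg hw hw1 hb _ _ (vec_sq hv (Ioo_subset_Icc_self ht))
  refine AntitoneOn.concaveOn_of_deriv (convex_Icc 0 1)
    (hcont (continuous_lfun hw hw1) (tame_l hw hw1 tame_hl)) ?_ ?_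
  · intro t ht
    rw [interior_Icc] at ht
    exact (deriv_phi hw hw1 hv ht).differentiableAt.differentiableWithinAt
  · rw [interior_Icc]
    intro x hx y hy hxy
    rw [(deriv_phi hw hw1 hv hx).deriv, (deriv_phi hw hw1 hv hy).deriv]
    exact mul_le_mul_of_nonpos_left (hQ (Ioo_subset_Icc_self hx) (Ioo_subset_Icc_self hy) hxy)
      (by nlinarith [sq_nonneg b])

/-- **One-pattern comparison.** -/
theorem one_pattern {v1 v2 : S → Fin n → ℝ} (hv : Adm v1 v2) {c : ℝ} (hc : c ∈ Icc (0 : ℝ) 1) :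
    c * ∫ g, lfun b w (fun s => ∑ i, g i * v1 s i) ∂gs n
      + (1 - c) * ∫ g, lfun b w (fun s => ∑ i, g i * v2 s i) ∂gs n
      ≤ ∫ g, lfun b w (fun s => ∑ i, g i * (√c * v1 s i + √(1 - c) * v2 s i)) ∂gs n := by
  have h := (interp_concave hw hw1 hb hv).2 (right_mem_Icc.2 zero_le_one) (left_mem_Icc.2 zero_le_one)
    hc.1 (sub_nonneg.2 hc.2) (by ring)
  simp only [smul_eq_mul, mul_one, mul_zero, add_zero] at h
  unfold hl vec at h
  simpa using h

end

end Vale.Agent.P166
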