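import Vale.Agent.P166.Tame

/-!
The derivative identities for `h ↦ log ∑ w_s exp (b h_s² / 2)`.
-/

open Filter Topology Finset

namespace Vale.Agent.P166

variable {S : Type*} [Fintype S] (b : ℝ) (w : S → ℝ) (D : S → S → ℝ)

/-- One-pattern partition function. -/
noncomputable def zfun (h : S → ℝ) : ℝ := ∑ s, w s * Real.exp (b * h s ^ 2 / 2)
/-- One-pattern log partition function. -/
noncomputable def lfun (h : S → ℝ) : ℝ := Real.log (zfun b w h)
/-- Posterior weight. -/
noncomputable def pfun (h : S → ℝ) (a : S) : ℝ := w a * Real.exp (b * h a ^ 2 / 2) / zfun b w h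
noncomputable def ufun (h : S → ℝ) (a : S) : ℝ := pfun b w h a * h a
noncomputable def qfun (h : S → ℝ) (a : S) : ℝ := pfun b w h a * (1 + b * h a ^ 2)
noncomputable def yfun (h : S → ℝ) (a : S) : ℝ := ∑ c, D a c * ufun b w h c
noncomputable def qform (h : S → ℝ) : ℝ := ∑ a, ufun b w h a * yfun b w D h a
noncomputable def kfun (h : S → ℝ) (c : S) : ℝ :=
  qfun b w h c * yfun b w D h c - b * ufun b w h c * qform b w D h
noncomputable def rfun (h : S → ℝ) (a : S) : ℝ :=
  b * h a * qfun b w h a + 2 * b * ufun b w h a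
noncomputable def gfun (h : S → ℝ) (c : S) : ℝ :=
  rfun b w h c * yfun b w D h c - b * qfun b w h c * qform b w D h
/-- The expression of the second derivative. -/
noncomputable def sfun (h : S → ℝ) : ℝ :=
  ∑ a, qfun b w h a * (∑ c, D a c ^ 2 * qfun b w h c)
    - 4 * b * ∑ a, qfun b w h a * yfun b w D h a ^ 2 + 3 * b ^ 2 * qform b w D h ^ 2

variable {b} {w} {D}

theorem zfun_pos (hw : ∀ s, 0 ≤ w s) (hw1 : ∑ s, w s = 1) (h : S → ℝ) : 0 < zfun b w h := by
  obtain ⟨s, hs⟩ : ∃ s, 0 < w s := by
    by_contra hc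
    push Not at hc
    linarith [Finset.sum_eq_zero (s := (univ : Finset S)) fun s _ => le_antisymm (hc s) (hw s)]
  exact Finset.sum_pos' (fun t _ => mul_nonneg (hw t) (Real.exp_pos _).le)
    ⟨s, mem_univ s, mul_pos hs (Real.exp_pos _)⟩

variable (hw : ∀ s, 0 ≤ w s) (hw1 : ∑ s, w s = 1) {h : ℝ → S → ℝ} {dh : S → ℝ} {x : ℝ}
  (hh : ∀ a, HasDerivAt (fun t => h t a) (dh a) x)
include hw hw1 hh

theorem hasDeriv_z : HasDerivAt (fun t => zfun b w (h t))
    (b * zfun b w (h x) * ∑ c, ufun b w (h x) c * dh c) x := by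
  have hz := (zfun_pos (b := b) hw hw1 (h x)).ne'
  refine (HasDerivAt.fun_sum (u := univ) fun c _ =>
    (((((hh c).pow 2).const_mul b).div_const 2).exp).const_mul (w c)).congr_deriv ?_
  rw [Finset.mul_sum]
  refine Finset.sum_congr rfl fun c _ => ?_
  simp only [ufun, pfun]
  field_simp
  simp
  ring

theorem hasDeriv_l : HasDerivAt (fun t => lfun b w (h t))
    (b * ∑ c, ufun b w (h x) c * dh c) x := by
  have hz := (zfun_pos (b := b) hw hw1 (h x)).ne'
  refine ((hasDeriv_z hw hw1 hh).log hz).congr_deriv ?_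
  field_simp

theorem hasDeriv_p (a : S) : HasDerivAt (fun t => pfun b w (h t) a)
    (b * pfun b w (h x) a * (h x a * dh a - ∑ c, ufun b w (h x) c * dh c)) x := by
  have hz := (zfun_pos (b := b) hw hw1 (h x)).ne'
  refine (((((((hh a).pow 2).const_mul b).div_const 2).exp).const_mul (w a)).div
    (hasDeriv_z hw hw1 hh) hz).congr_deriv ?_
  simp only [pfun]
  field_simp
  simp
  ring

theorem hasDeriv_u (a : S) : HasDerivAt (fun t => ufun b w (h t) a)
    (qfun b w (h x) a * dh a - b * ufun b w (h x) a * ∑ c, ufun b w (h x) c * dh c) x := by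
  refine ((hasDeriv_p (b := b) hw hw1 hh a).mul (hh a)).congr_deriv ?_
  simp only [qfun]
  generalize ∑ c, ufun b w (h x) c * dh c = T
  simp only [ufun]
  ring

theorem hasDeriv_q (a : S) : HasDerivAt (fun t => qfun b w (h t) a)
    (rfun b w (h x) a * dh a - b * qfun b w (h x) a * ∑ c, ufun b w (h x) c * dh c) x := by
  refine ((hasDeriv_p (b := b) hw hw1 hh a).mul
    ((((hh a).pow 2).const_mul b).const_add 1)).congr_deriv ?_
  simp only [rfun]
  generalize ∑ c, ufun b w (h x) c * dh c = T
  simp only [ufun, qfun]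
  simp
  ring

theorem hasDeriv_y (a : S) : HasDerivAt (fun t => yfun b w D (h t) a)
    (∑ c, D a c * qfun b w (h x) c * dh c
      - b * yfun b w D (h x) a * ∑ c, ufun b w (h x) c * dh c) x := by
  refine (HasDerivAt.fun_sum (u := univ) fun c _ =>
    (hasDeriv_u (b := b) hw hw1 hh c).const_mul (D a c)).congr_deriv ?_
  simp only [mul_sub, Finset.sum_sub_distrib, yfun]
  generalize ∑ c, ufun b w (h x) c * dh c = T
  congr 1
  · exact Finset.sum_congr rfl fun c _ => by ring
  · rw [Finset.mul_sum, Finset.sum_mul]; exact Finset.sum_congr rfl fun c _ => by ring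

theorem hasDeriv_Q (hD : ∀ a c, D a c = D c a) : HasDerivAt (fun t => qform b w D (h t))
    (2 * ∑ c, kfun b w D (h x) c * dh c) x := by
  refine (HasDerivAt.fun_sum (u := univ) fun a _ =>
    (hasDeriv_u (b := b) hw hw1 hh a).mul (hasDeriv_y (b := b) (D := D) hw hw1 hh a)).congr_deriv ?_
  set T := ∑ c, ufun b w (h x) c * dh c
  have e : ∑ a, ufun b w (h x) a * ∑ c, D a c * qfun b w (h x) c * dh c
      = ∑ c, qfun b w (h x) c * dh c * yfun b w D (h x) c := by
    simp only [yfun, Finset.mul_sum]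
    rw [Finset.sum_comm]
    exact Finset.sum_congr rfl fun c _ => Finset.sum_congr rfl fun a _ => by rw [hD]; ring
  have eR : ∑ c, kfun b w D (h x) c * dh c
      = ∑ c, qfun b w (h x) c * dh c * yfun b w D (h x) c - b * qform b w D (h x) * T := by
    simp only [kfun, sub_mul, Finset.sum_sub_distrib, T, Finset.mul_sum]
    congr 1 <;> exact Finset.sum_congr rfl fun c _ => by ring
  rw [eR]
  simp only [sub_mul, mul_sub, Finset.sum_add_distrib, Finset.sum_sub_distrib, e]
  have e1 : ∑ a, b * ufun b w (h x) a * T * yfun b w D (h x) a = b * qform b w D (h x) * T := by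
    simp only [qform, Finset.mul_sum, Finset.sum_mul]
    exact Finset.sum_congr rfl fun a _ => by ring
  have e2 : ∑ a, ufun b w (h x) a * (b * yfun b w D (h x) a * T) = b * qform b w D (h x) * T := by
    rw [← e1]; exact Finset.sum_congr rfl fun a _ => by ring
  rw [e1, e2]; ring

theorem hasDeriv_k (hD : ∀ a c, D a c = D c a) (a : S) :
    HasDerivAt (fun t => kfun b w D (h t) a)
      (gfun b w D (h x) a * dh a
        + (qfun b w (h x) a * (∑ c, D a c * qfun b w (h x) c * dh c
            - 2 * b * yfun b w D (h x) a * ∑ c, ufun b w (h x) c * dh c)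
          + b ^ 2 * ufun b w (h x) a * qform b w D (h x) * ∑ c, ufun b w (h x) c * dh c
          - 2 * b * ufun b w (h x) a * ∑ c, kfun b w D (h x) c * dh c)) x := by
  refine (((hasDeriv_q (b := b) hw hw1 hh a).mul (hasDeriv_y (b := b) (D := D) hw hw1 hh a)).sub
    (((hasDeriv_u (b := b) hw hw1 hh a).const_mul b).mul
      (hasDeriv_Q (b := b) (D := D) hw hw1 hh hD))).congr_deriv ?_
  simp only [gfun]
  ring

omit hw hw1 hh in
/-- The contracted derivative of `k`. -/
theorem contract (hD : ∀ a c, D a c = D c a) (h0 : ∀ a, D a a = 0) (h : S → ℝ) :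
    ∑ a, (gfun b w D h a * D a a
      + (qfun b w h a * (∑ c, D a c * qfun b w h c * D a c
            - 2 * b * yfun b w D h a * ∑ c, ufun b w h c * D a c)
          + b ^ 2 * ufun b w h a * qform b w D h * ∑ c, ufun b w h c * D a c
          - 2 * b * ufun b w h a * ∑ c, kfun b w D h c * D a c)) = sfun b w D h := by
  have ey : ∀ a, ∑ c, ufun b w h c * D a c = yfun b w D h a := fun a =>
    Finset.sum_congr rfl fun c _ => mul_comm _ _
  have ek : ∑ a, ufun b w h a * ∑ c, kfun b w D h c * D a c
      = ∑ c, qfun b w h c * yfun b w D h c ^ 2 - b * qform b w D h ^ 2 := by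
    simp only [Finset.mul_sum]
    rw [Finset.sum_comm]
    have key : ∀ c, ∑ a, ufun b w h a * (kfun b w D h c * D a c)
        = kfun b w D h c * yfun b w D h c := fun c => by
      simp only [yfun, Finset.mul_sum]
      exact Finset.sum_congr rfl fun a _ => by rw [hD]; ring
    rw [Finset.sum_congr rfl fun c _ => key c]
    rw [show qform b w D h ^ 2 = qform b w D h * ∑ a, ufun b w h a * yfun b w D h a by
      rw [pow_two]; rfl, Finset.mul_sum, Finset.mul_sum, ← Finset.sum_sub_distrib]
    exact Finset.sum_congr rfl fun c _ => by simp only [kfun]; ring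
  have eq2 : ∑ a, b ^ 2 * ufun b w h a * qform b w D h * yfun b w D h a
      = b ^ 2 * qform b w D h ^ 2 := by
    rw [show qform b w D h ^ 2 = qform b w D h * ∑ a, ufun b w h a * yfun b w D h a by
      rw [pow_two]; rfl, Finset.mul_sum, Finset.mul_sum]
    exact Finset.sum_congr rfl fun c _ => by ring
  have e4 : ∑ a, 2 * b * ufun b w h a * ∑ c, kfun b w D h c * D a c
      = 2 * b * (∑ c, qfun b w h c * yfun b w D h c ^ 2 - b * qform b w D h ^ 2) := by
    rw [← ek, Finset.mul_sum]
    exact Finset.sum_congr rfl fun c _ => by ring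
  simp only [h0, mul_zero, zero_add, ey, mul_sub, Finset.sum_add_distrib, Finset.sum_sub_distrib,
    eq2, e4, sfun]
  have e5 : ∑ a, qfun b w h a * ∑ c, D a c * qfun b w h c * D a c
      = ∑ a, qfun b w h a * ∑ c, D a c ^ 2 * qfun b w h c :=
    Finset.sum_congr rfl fun a _ => by
      congr 1; exact Finset.sum_congr rfl fun c _ => by ring
  have e6 : ∑ a, qfun b w h a * (2 * b * yfun b w D h a * yfun b w D h a)
      = 2 * b * ∑ a, qfun b w h a * yfun b w D h a ^ 2 := by
    rw [Finset.mul_sum]; exact Finset.sum_congr rfl fun c _ => by ring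
  rw [e5, e6]
  ring

end Vale.Agent.P166
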