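import Vale.Agent.P166.MP

/-!
The limit measure and the deterministic-spectrum limit.
-/

open MeasureTheory ProbabilityTheory Filter Topology Matrix

namespace Vale.Agent.P166

/-- Uniform probability measure on the values of a vector. -/
theorem exists_empirical {X : Type*} [MeasurableSpace X] (x₀ : X) {N : ℕ} (x : Fin N → X) :
    ∃ P : ProbabilityMeasure X, 0 < N → ∀ f : X → ℝ, Measurable f →
      ∫ y, f y ∂(P : Measure X) = (∑ i, f (x i)) / N := by
  rcases Nat.eq_zero_or_pos N with rfl | hN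
  · exact ⟨⟨Measure.dirac x₀, inferInstance⟩, fun h => absurd h (by omega)⟩
  have : Nonempty (Fin N) := Fin.pos_iff_nonempty.1 hN
  set u := (PMF.uniformOfFintype (Fin N)).toMeasure
  refine ⟨⟨u.map x, Measure.isProbabilityMeasure_map (measurable_of_finite x).aemeasurable⟩,
    fun _ f hf => ?_⟩
  simp only [ProbabilityMeasure.coe_mk, u]
  rw [integral_map (measurable_of_finite x).aemeasurable hf.aestronglyMeasurable, PMF.integral_eq_sum]
  simp [← Finset.mul_sum, div_eq_inv_mul]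

/-- Convergence of moments gives weak convergence for bounded spectra. -/
theorem empTo_of_moments {μ : Measure ℝ} [IsProbabilityMeasure μ] {C : ℝ}
    (hμ : ∀ᵐ x ∂μ, x ∈ Set.Icc 0 C) {m : ℕ → ℝ} (hmom : ∀ k, ∫ x, x ^ k ∂μ = m k)
    {l : ∀ N : ℕ, Fin N → ℝ} (hl : ∀ᶠ N in atTop, ∀ i, l N i ∈ Set.Icc 0 C)
    (hk : ∀ k : ℕ, Tendsto (fun N : ℕ => (∑ i, l N i ^ k) / N) atTop (𝓝 (m k))) : EmpTo μ l := by
  intro f hf ⟨B, hB⟩
  rw [Metric.tendsto_nhds]
  intro ε hε
  obtain ⟨p, hp⟩ := exists_polynomial_near_of_continuousOn 0 C f hf.continuousOn (ε / 4) (by positivity)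
  have hi : ∀ k : ℕ, Integrable (fun x : ℝ => x ^ k) μ := fun k =>
    Integrable.of_bound (continuous_pow k).aestronglyMeasurable (C ^ k) (hμ.mono fun x hx => by
      rw [Real.norm_eq_abs, abs_of_nonneg (pow_nonneg hx.1 k)]; exact pow_le_pow_left₀ hx.1 hx.2 k)
  have hip : Integrable (fun x => p.eval x) μ := by
    simp only [Polynomial.eval_eq_sum_range]
    exact integrable_finsetSum _ fun k _ => (hi k).const_mul _
  have hpl : Tendsto (fun N : ℕ => (∑ i, p.eval (l N i)) / N) atTop (𝓝 (∫ x, p.eval x ∂μ)) := by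
    simp only [Polynomial.eval_eq_sum_range]
    rw [integral_finsetSum _ fun k _ => (hi k).const_mul _]
    simp only [integral_const_mul, hmom]
    refine (tendsto_finsetSum _ fun k _ => (hk k).const_mul (p.coeff k)).congr fun N => ?_
    rw [Finset.sum_comm, Finset.sum_div]
    simp only [Finset.mul_sum, ← mul_div_assoc]
  have hclose : |∫ x, f x ∂μ - ∫ x, p.eval x ∂μ| ≤ ε / 4 := by
    have hif : Integrable f μ := Integrable.of_bound hf.aestronglyMeasurable B (ae_of_all _ fun x => hB x)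
    rw [← integral_sub hif hip, ← Real.norm_eq_abs]
    refine (norm_integral_le_of_norm_le_const (C := ε / 4) (hμ.mono fun x hx => ?_)).trans_eq (by simp)
    rw [Real.norm_eq_abs, abs_sub_comm]; exact (hp x hx).le
  filter_upwards [hl, eventually_gt_atTop 0, hpl.eventually (Metric.ball_mem_nhds _ (show 0 < ε / 4 by positivity))]
    with N hN hN0 hball
  have hN' : (0 : ℝ) < N := by exact_mod_cast hN0
  simp only [Metric.mem_ball, Real.dist_eq] at hball
  have h1 : |(∑ i, f (l N i)) / N - (∑ i, p.eval (l N i)) / N| ≤ ε / 4 := by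
    rw [← sub_div, ← Finset.sum_sub_distrib, abs_div, abs_of_pos hN', div_le_iff₀ hN']
    refine (Finset.abs_sum_le_sum_abs _ _).trans ((Finset.sum_le_sum (g := fun _ => ε / 4) fun i _ => ?_).trans_eq ?_)
    · rw [abs_sub_comm]; exact (hp _ (hN i)).le
    · simp [mul_comm]
  rw [Real.dist_eq]
  have := abs_le.1 h1; have := abs_le.1 hclose; have := abs_lt.1 hball
  rw [abs_lt]; constructor <;> linarith

/-- The Marchenko-Pastur measure with its moments and upper edge. -/
theorem exists_mp {α : ℝ} (hα : 0 < α) :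
    ∃ (m : ℕ → ℝ) (μ : Measure ℝ), IsProbabilityMeasure μ ∧ MPMoments α m ∧
      (∀ l : List ℕ, Tendsto (fun N : ℕ => emom ⌊α * N⌋₊ N l) atTop (𝓝 (l.map m).prod)) ∧
      (∀ k, ∫ x, x ^ k ∂μ = m k) ∧ (∀ᵐ x ∂μ, x ∈ Set.Icc 0 ((1 + √α) ^ 2)) ∧
      (∀ η, 0 < η → 0 < μ (Set.Ioi ((1 + √α) ^ 2 - η))) := by
  obtain ⟨m, hm0, hrec, hlim⟩ := moments_limit α hα.le
  have hm : MPMoments α m := ⟨hm0, hrec⟩
  set e := (1 + √α) ^ 2
  have he : 0 < e := by positivity
  obtain ⟨G, l, hk, htop, hbot, -, -⟩ := realise hα hm hlim (fun _ _ => 0) (fun _ _ => le_rfl)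
    (Eventually.of_forall fun _ => integrable_zero _ _ _) (by simp)
  have hC : (0 : ℝ) ≤ e + 1 := by linarith
  choose P hP using fun N => exists_empirical (⟨0, le_rfl, hC⟩ : Set.Icc 0 (e + 1))
    fun i : Fin N => Set.projIcc 0 (e + 1) hC (l N i)
  obtain ⟨P₀, hP₀⟩ : ∃ P₀, MapClusterPt P₀ atTop P := by
    have := exists_clusterPt_of_compactSpace (Filter.map P atTop)
    exact this
  set μ := (P₀ : Measure (Set.Icc 0 (e + 1))).map Subtype.val
  have hμp : IsProbabilityMeasure μ :=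
    Measure.isProbabilityMeasure_map measurable_subtype_coe.aemeasurable
  have hμI : ∀ᵐ x ∂μ, x ∈ Set.Icc 0 (e + 1) := by
    exact (ae_map_iff measurable_subtype_coe.aemeasurable measurableSet_Icc).2 (ae_of_all _ fun x => x.2)
  have hmom : ∀ k, ∫ x, x ^ k ∂μ = m k := fun k => by
    rw [integral_map measurable_subtype_coe.aemeasurable (continuous_pow k).aestronglyMeasurable]
    set F : BoundedContinuousFunction (Set.Icc 0 (e + 1)) ℝ :=
      BoundedContinuousFunction.mkOfCompact ⟨fun x => (x : ℝ) ^ k, by fun_prop⟩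
    have hc : Continuous fun Q : ProbabilityMeasure (Set.Icc 0 (e + 1)) =>
        ∫ x, F x ∂(Q : Measure (Set.Icc 0 (e + 1))) :=
      continuous_iff_continuousAt.2 fun Q => ProbabilityMeasure.tendsto_iff_forall_integral_tendsto.1 tendsto_id F
    have h1 := hP₀.continuousAt_comp hc.continuousAt
    have h2 : Tendsto ((fun Q : ProbabilityMeasure (Set.Icc 0 (e + 1)) =>
        ∫ x, F x ∂(Q : Measure (Set.Icc 0 (e + 1)))) ∘ P) atTop (𝓝 (m k)) := by
      refine (hk k).congr' ?_
      filter_upwards [eventually_gt_atTop 0, htop 1 one_pos, hbot] with N hN h3 h4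
      simp only [Function.comp]
      rw [hP N hN _ F.continuous.measurable]
      congr 1
      refine Finset.sum_congr rfl fun i _ => ?_
      simp [F, Set.projIcc_of_mem hC ⟨h4 i, h3 i⟩]
    exact eq_of_nhds_neBot (h1.clusterPt.mono h2)
  have hemp := empTo_of_moments hμI hmom
    (l := l) (by filter_upwards [htop 1 one_pos, hbot] with N h1 h2 using fun i => ⟨h2 i, h1 i⟩) hk
  have hle : ∀ η, 0 < η → ∀ᵐ x ∂μ, x ≤ e + 2 * η := fun η hη => by
    set ψ : ℝ → ℝ := fun x => 1 - ramp (e + η) η x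
    have hψc : Continuous ψ := continuous_const.sub (continuous_ramp _ _)
    have hψ0 : ∀ x, 0 ≤ ψ x ∧ ψ x ≤ 1 := fun x => by
      have := ramp_mem (e + η) η x
      exact ⟨by simp only [ψ]; linarith, by simp only [ψ]; linarith⟩
    have hb : ∀ x, |ψ x| ≤ 1 := fun x => by rw [abs_of_nonneg (hψ0 x).1]; exact (hψ0 x).2
    have hz : ∫ x, ψ x ∂μ = 0 := by
      refine tendsto_nhds_unique (hemp ψ hψc ⟨1, hb⟩) (tendsto_const_nhds.congr' ?_)
      filter_upwards [htop η hη] with N hN
      have hr : ∀ i, ramp (e + η) η (l N i) = 1 := fun i => ramp_lower hη (hN i)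
      simp [ψ, hr]
    have := (integral_eq_zero_iff_of_nonneg_ae (ae_of_all _ fun x => (hψ0 x).1)
      (Integrable.of_bound hψc.aestronglyMeasurable 1 (ae_of_all _ hb))).1 hz
    filter_upwards [this] with x hx
    by_contra hlt
    push Not at hlt
    simp [ψ, ramp_upper hη (show e + η + η ≤ x by linarith)] at hx
  refine ⟨m, μ, hμp, hm, hlim, hmom, ?_, fun η hη => ?_⟩
  · have hall : ∀ᵐ x ∂μ, ∀ n : ℕ, x ≤ e + 2 * (1 / ((n : ℝ) + 1)) :=
      ae_all_iff.2 fun n => hle _ (by positivity)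
    filter_upwards [hall, hμI] with x hx hx'
    refine ⟨hx'.1, le_of_forall_pos_le_add fun ε hε => ?_⟩
    obtain ⟨n, hn⟩ := exists_nat_one_div_lt (half_pos hε)
    linarith [hx n]
  · by_contra hzero
    push Not at hzero
    have hnull : μ (Set.Ioi (e - η)) = 0 := nonpos_iff_eq_zero.1 hzero
    have hxle : ∀ᵐ x ∂μ, x ≤ e - η := by
      rw [ae_iff]; simpa [not_le, Set.Ioi] using hnull
    obtain ⟨k, hk'⟩ := mp_edge hα hm (r := max (e - η) 0) (le_max_right _ _)
      (max_lt (by linarith) he)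
    have : m k ≤ max (e - η) 0 ^ k := by
      rw [← hmom k]
      have hi : Integrable (fun x : ℝ => x ^ k) μ :=
        Integrable.of_bound (continuous_pow k).aestronglyMeasurable ((e + 1) ^ k) (hμI.mono fun x hx => by
          rw [Real.norm_eq_abs, abs_of_nonneg (pow_nonneg hx.1 k)]; exact pow_le_pow_left₀ hx.1 hx.2 k)
      refine (integral_mono_ae hi (integrable_const (max (e - η) 0 ^ k)) ?_).trans_eq (by simp)
      filter_upwards [hxle, hμI] with x h1 h2
      exact pow_le_pow_left₀ h2.1 (h1.trans (le_max_left _ _)) k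
    linarith

/-- The pressure converges for every deterministic Marchenko-Pastur spectrum. -/
theorem deterministic_limit {α β : ℝ} (hα : 0 < α) (hβ0 : 0 ≤ β) (hβ : β ≤ 1 / 25) :
    ∃ (μ : Measure ℝ) (_ : IsProbabilityMeasure μ) (m : ℕ → ℝ) (L : ℝ),
      MPMoments α m ∧ (∀ k, ∫ x, x ^ k ∂μ = m k) ∧ (∀ᵐ x ∂μ, x ∈ Set.Icc 0 ((1 + √α) ^ 2)) ∧
      (∀ η, 0 < η → 0 < μ (Set.Ioi ((1 + √α) ^ 2 - η))) ∧
      ∀ (law : ∀ N : ℕ, Measure (Fin N → Fin N → ℝ)), (∀ N, IsProbabilityMeasure (law N)) →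
        (∀ N, LeftInv (law N)) → ∀ (R : ℝ) (lam : ∀ N : ℕ, Fin N → ℝ),
          Spec μ ((1 + √α) ^ 2) R lam →
          Tendsto (fun N : ℕ => ∫ U, (pr β (lam N) U - L) ^ 2 ∂law N) atTop (𝓝 0) := by
  obtain ⟨m, μ, hμp, hm, hlim, hmom, hsupp, hedge⟩ := exists_mp hα
  obtain ⟨L, hL⟩ := wishart_limit (α := α) (β := β) hα.le (abs_le.2 ⟨by linarith, hβ⟩)
  refine ⟨μ, hμp, m, L, hm, hmom, hsupp, hedge, fun law hp hlaw R lam hlam => ?_⟩
  set e := (1 + √α) ^ 2
  have habsI : ∀ᶠ N : ℕ in atTop, Integrable (fun g => |wpr β g - L|) (gs (⌊α * N⌋₊ * N)) := by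
    filter_upwards [hL 1 one_pos] with N hN
    refine (hN.1.fun_add (integrable_const 1)).mono'
      (Measurable.aestronglyMeasurable (by simp only [wpr, mat]; fun_prop)) (ae_of_all _ fun g => ?_)
    rw [Real.norm_eq_abs, abs_abs]
    nlinarith [sq_nonneg (|wpr β g - L| - 1), sq_abs (wpr β g - L), abs_nonneg (wpr β g - L)]
  have habs : Tendsto (fun N : ℕ => ∫ g, |wpr (M := ⌊α * N⌋₊) (N := N) β g - L| ∂gs (⌊α * N⌋₊ * N))
      atTop (𝓝 0) := by
    rw [Metric.tendsto_nhds]
    intro ε hε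
    filter_upwards [habsI, hL (ε ^ 2 / 4) (by positivity)] with N hi h
    rw [Real.dist_eq, sub_zero, abs_of_nonneg (integral_nonneg fun g => abs_nonneg _)]
    refine lt_of_le_of_lt (integral_mono hi ((h.1.div_const ε).fun_add (integrable_const (ε / 4)))
      fun g => ?_) ?_
    · rw [div_add' _ _ _ hε.ne', le_div_iff₀ hε]
      nlinarith [sq_nonneg (|wpr β g - L| - ε / 2), sq_abs (wpr β g - L)]
    · rw [integral_add (h.1.div_const ε) (integrable_const _), integral_div, integral_const, probReal_univ,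
        one_smul]
      have : (∫ g, (wpr (M := ⌊α * N⌋₊) (N := N) β g - L) ^ 2 ∂gs (⌊α * N⌋₊ * N)) / ε < ε / 4 := by
        rw [div_lt_iff₀ hε]; nlinarith [h.2]
      linarith
  have hdev : ∀ᶠ N : ℕ in atTop, Integrable (dev (law N) β L) (gs (⌊α * N⌋₊ * N)) ∧
      ∫ g, dev (law N) β L g ∂gs (⌊α * N⌋₊ * N) = ∫ g, |wpr β g - L| ∂gs (⌊α * N⌋₊ * N) := by
    filter_upwards [habsI, eventually_gt_atTop 0] with N hi hN
    have h := dev_facts hN β L (hlaw N) hi
    exact ⟨h.1, h.2.1⟩
  obtain ⟨G, l, hk, htop, hbot, hrep, hD⟩ := realise hα hm hlim (fun N => dev (law N) β L)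
    (fun N g => integral_nonneg fun U => abs_nonneg _) (hdev.mono fun N h => h.1)
    (habs.congr' (hdev.mono fun N h => h.2.symm))
  have hbase : Tendsto (fun N => ∫ U, |pr β (l N) U - L| ∂law N) atTop (𝓝 0) := by
    refine hD.congr' ?_
    filter_upwards [habsI, eventually_gt_atTop 0] with N hi hN
    obtain ⟨Q, hQ, hg⟩ := hrep N hN
    exact (dev_facts hN β L (hlaw N) hi).2.2 (G N) Q (l N) hQ hg
  set R₀ := max R 0
  have hspec : Spec μ e R₀ l := by
    refine ⟨empTo_of_moments (C := e + 1) (hsupp.mono fun x hx => ⟨hx.1, by linarith [hx.2]⟩) hmom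
      (by filter_upwards [htop 1 one_pos, hbot] with N h1 h2 using fun i => ⟨h2 i, h1 i⟩) hk, htop, ?_⟩
    filter_upwards [hbot] with N h i
    linarith [h i, le_max_right R 0]
  have hspec' : Spec μ e R₀ lam :=
    ⟨hlam.1, hlam.2.1, hlam.2.2.mono fun N h i => by linarith [h i, le_max_left R 0]⟩
  have hgood : ∀ N, ∀ᵐ U ∂law N, Good U := fun N => (hlaw N).1.mono fun U hU => good_of_orth hU
  have hF : LipschitzWith 1 fun x : ℝ => |x - L| := by
    refine LipschitzWith.of_dist_le_mul fun x y => ?_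
    simp only [Real.dist_eq, NNReal.coe_one, one_mul]
    exact (abs_abs_sub_abs_le_abs_sub _ _).trans (le_of_eq (by ring_nf))
  have hu := spec_universal (law := law) (β := β) hgood (fun N τ => leftInv_perm (hlaw N) τ) hβ0 hedge
    hspec' hspec hF
  have hlim1 : Tendsto (fun N => ∫ U, |pr β (lam N) U - L| ∂law N) atTop (𝓝 0) := by
    simpa using hu.add hbase
  set B := β / 2 * max R₀ (e + 1) + |L|
  refine squeeze_zero' (Eventually.of_forall fun N => integral_nonneg fun U => sq_nonneg _) ?_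
    (by simpa using hlim1.const_mul B)
  filter_upwards [eventually_gt_atTop 0, hspec'.2.1 1 one_pos, hspec'.2.2] with N hN h1 h2
  have i1 := ((integrable_pr (β := β) (hgood N) hN (lam N)).sub' (integrable_const L)).abs
  rw [← integral_const_mul]
  refine integral_mono_of_nonneg (ae_of_all _ fun U => sq_nonneg _) (i1.const_mul B)
    ((hgood N).mono fun U hU => ?_)
  have hb := abs_pr_le (β := β) hN hU (a := lam N) (C := max R₀ (e + 1)) fun i =>
    abs_le.2 ⟨by linarith [h2 i, le_max_left R₀ (e + 1)], (h1 i).trans (le_max_right _ _)⟩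
  rw [abs_of_nonneg hβ0] at hb
  simp only
  rw [← sq_abs, pow_two]
  exact mul_le_mul_of_nonneg_right ((abs_sub _ _).trans (add_le_add hb le_rfl)) (abs_nonneg _)

end Vale.Agent.P166
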