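import Vale.Agent.P166.Calc
import Vale.Agent.P166.Moments
import Vale.Agent.P157.Hybrid

/-!
The largest singular value of a Gaussian matrix by Gaussian comparison.
-/

open MeasureTheory ProbabilityTheory Filter Topology Set

namespace Vale.Agent.P166

variable {S : Type*} [Fintype S] {n : ℕ}

/-- Soft maximum. -/
noncomputable def lse (γ : ℝ) (h : S → ℝ) : ℝ := Real.log (∑ s, Real.exp (γ * h s))

/-- Softmax weights. -/
noncomputable def smax (γ : ℝ) (h : S → ℝ) (a : S) : ℝ := Real.exp (γ * h a) / ∑ s, Real.exp (γ * h s)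

theorem smax_mem [Nonempty S] (γ : ℝ) (h : S → ℝ) (a : S) : smax γ h a ∈ Icc (0 : ℝ) 1 := by
  have hz : 0 < ∑ s, Real.exp (γ * h s) :=
    Finset.sum_pos (fun s _ => Real.exp_pos _) Finset.univ_nonempty
  refine ⟨div_nonneg (Real.exp_pos _).le hz.le, ?_⟩
  rw [smax, div_le_one hz]
  exact Finset.single_le_sum (f := fun s => Real.exp (γ * h s)) (fun s _ => (Real.exp_pos _).le)
    (Finset.mem_univ a)

theorem continuous_lse [Nonempty S] (γ : ℝ) : Continuous (lse (S := S) γ) :=
  (show Continuous fun h : S → ℝ => ∑ s, Real.exp (γ * h s) by fun_prop).log fun _ =>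
    (Finset.sum_pos (fun s _ => Real.exp_pos _) Finset.univ_nonempty).ne'

theorem continuous_smax [Nonempty S] (γ : ℝ) (a : S) : Continuous fun h => smax γ h a :=
  Continuous.div (by fun_prop) (by fun_prop) fun _ =>
    (Finset.sum_pos (fun s _ => Real.exp_pos _) Finset.univ_nonempty).ne'

theorem lse_bounds [Nonempty S] {γ : ℝ} (h : S → ℝ) :
    (∀ a, γ * h a ≤ lse γ h) ∧ ∀ C, (∀ a, γ * h a ≤ C) → lse γ h ≤ C + Real.log (Fintype.card S) := by
  have hz : 0 < ∑ s, Real.exp (γ * h s) :=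
    Finset.sum_pos (fun s _ => Real.exp_pos _) Finset.univ_nonempty
  refine ⟨fun a => (Real.le_log_iff_exp_le hz).2 (Finset.single_le_sum
    (f := fun s => Real.exp (γ * h s)) (fun s _ => (Real.exp_pos _).le) (Finset.mem_univ a)), fun C hC => ?_⟩
  rw [lse, Real.log_le_iff_le_exp hz, Real.exp_add, Real.exp_log (by exact_mod_cast Fintype.card_pos)]
  calc ∑ s, Real.exp (γ * h s) ≤ ∑ _s : S, Real.exp C :=
        Finset.sum_le_sum fun s _ => Real.exp_le_exp.2 (hC s)
    _ = _ := by simp [mul_comm]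

variable {v1 v2 : S → Fin n → ℝ}

theorem tame_lse [Nonempty S] (γ : ℝ) :
    Tame (Icc (0 : ℝ) 1) fun t g => lse γ (hl v1 v2 t g) := by
  obtain ⟨-, C, k, hC, hb⟩ := ((tame_const (Real.log (Fintype.card S))).add
    ((Tame.sum Finset.univ fun s _ => (tame_const (1 : ℝ)).add
      ((tame_hl (v1 := v1) (v2 := v2) s).mul (tame_hl s))).const_mul |γ|))
  refine ⟨fun t ht => (continuous_lse γ).comp (continuous_pi fun s => (tame_hl s).1 t ht), C, k, hC,
    fun t ht g => le_trans ?_ ((le_abs_self _).trans (hb t ht g))⟩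
  set h := hl v1 v2 t g
  have hs : ∀ a, |γ * h a| ≤ |γ| * ∑ s, (1 + h s * h s) := fun a => by
    rw [abs_mul]
    refine mul_le_mul_of_nonneg_left (le_trans ?_ (Finset.single_le_sum (f := fun s => 1 + h s * h s)
      (fun s _ => by nlinarith [mul_self_nonneg (h s)]) (Finset.mem_univ a))) (abs_nonneg γ)
    nlinarith [sq_nonneg (|h a| - 1), sq_abs (h a)]
  obtain ⟨h1, h2⟩ := lse_bounds (γ := γ) h
  obtain ⟨a⟩ := (inferInstance : Nonempty S)
  have := h2 _ fun s => (abs_le.1 (hs s)).2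
  have hlog : 0 ≤ Real.log (Fintype.card S) :=
    Real.log_nonneg (by exact_mod_cast Fintype.card_pos)
  rw [abs_le]
  exact ⟨by linarith [h1 a, (abs_le.1 (hs a)).1], by linarith⟩

theorem tame_smax [Nonempty S] {T : Set ℝ} (hT : T ⊆ Icc (0 : ℝ) 1) (γ : ℝ) (a : S) :
    Tame T fun t g => smax γ (hl v1 v2 t g) a :=
  tame_bdd (fun t ht => (continuous_smax γ a).comp (continuous_pi fun s => (tame_hl s).1 t (hT ht)))
    zero_le_one fun t _ g => by
      rw [abs_of_nonneg (smax_mem γ _ a).1]; exact (smax_mem γ _ a).2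

/-- Gaussian comparison: smaller covariances give a larger expected soft maximum. -/
theorem lse_compare [Nonempty S] (hv : Adm v1 v2) (hD : ∀ a c, 0 ≤ dcov v1 v2 a c) (γ : ℝ) :
    ∫ g, lse γ (fun s => ∑ i, g i * v1 s i) ∂gs n ≤ ∫ g, lse γ (fun s => ∑ i, g i * v2 s i) ∂gs n := by
  set φ : ℝ → ℝ := fun t => ∫ g, lse γ (hl v1 v2 t g) ∂gs n
  have hder : ∀ t ∈ Ioo (0 : ℝ) 1, ∃ x ≤ 0, HasDerivAt φ x t := fun t ht => by
    have hsub : Icc (t / 2) ((1 + t) / 2) ⊆ Icc (0 : ℝ) 1 :=
      Icc_subset_Icc (by linarith [ht.1]) (by linarith [ht.2])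
    have ht1 : ({t} : Set ℝ) ⊆ Icc 0 1 := singleton_subset_iff.2 (Ioo_subset_Icc_self ht)
    have hdl : ∀ r ∈ Icc (t / 2) ((1 + t) / 2), ∀ g, HasDerivAt (fun r => lse γ (hl v1 v2 r g))
        (∑ c, γ * smax γ (hl v1 v2 r g) c * dhl v1 v2 r g c) r := fun r hr g => by
      have hz : 0 < ∑ s, Real.exp (γ * hl v1 v2 r g s) :=
        Finset.sum_pos (fun s _ => Real.exp_pos _) Finset.univ_nonempty
      refine ((HasDerivAt.fun_sum (u := Finset.univ) fun s _ => ((hasDeriv_hl
        ⟨by linarith [hr.1, ht.1], by linarith [hr.2, ht.2]⟩ g s).const_mul γ).exp).log hz.ne').congr_deriv ?_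
      rw [Finset.sum_div]
      exact Finset.sum_congr rfl fun c _ => by simp only [smax]; ring
    have hd' : ∀ (c : S) (i : Fin n) (g : Fin n → ℝ),
        HasDerivAt (fun x => γ * smax γ (hl v1 v2 t (Function.update g i x)) c)
          (γ * (γ * smax γ (hl v1 v2 t g) c
            * (vec v1 v2 t c i - ∑ e, smax γ (hl v1 v2 t g) e * vec v1 v2 t e i))) (g i) := fun c i g => by
      have hh := fun s => (hasDeriv_hl_update (v1 := v1) (v2 := v2) t g i (g i) s).const_mul γ
      have hz : 0 < ∑ s, Real.exp (γ * hl v1 v2 t (Function.update g i (g i)) s) :=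
        Finset.sum_pos (fun s _ => Real.exp_pos _) Finset.univ_nonempty
      refine (((hh c).exp.div (HasDerivAt.fun_sum (u := Finset.univ) fun s _ => (hh s).exp) hz.ne').const_mul
        γ).congr_deriv ?_
      simp only [Function.update_eq_self, smax] at hz ⊢
      simp only [div_mul_eq_mul_div, ← Finset.sum_div]
      rw [show ∑ s, Real.exp (γ * hl v1 v2 t g s) * (γ * vec v1 v2 t s i)
        = γ * ∑ s, Real.exp (γ * hl v1 v2 t g s) * vec v1 v2 t s i by
          rw [Finset.mul_sum]; exact Finset.sum_congr rfl fun s _ => by ring]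
      field_simp
    refine ⟨_, ?_, deriv_under ht (tame_lse γ)
      (F' := fun r g => ∑ c, γ * smax γ (hl v1 v2 r g) c * dhl v1 v2 r g c)
      (Tame.sum _ fun c _ => ((tame_smax hsub γ c).const_mul γ).mul
        (tame_dhl (by linarith [ht.1]) (by linarith [ht.2]) c)) hdl⟩
    rw [ibp_fields (F := fun c g => γ * smax γ (hl v1 v2 t g) c)
      (F' := fun c i g => γ * (γ * smax γ (hl v1 v2 t g) c
        * (vec v1 v2 t c i - ∑ e, smax γ (hl v1 v2 t g) e * vec v1 v2 t e i))) (fun c => ?_) (fun c i => ?_)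
      fun c i g => hd' c i g]
    · refine integral_nonpos fun g => ?_
      set p := smax γ (hl v1 v2 t g)
      have e : ∀ c, ∑ i, dvec v1 v2 t c i * (γ * (γ * p c * (vec v1 v2 t c i - ∑ e, p e * vec v1 v2 t e i)))
          = -(γ ^ 2 * p c * ∑ e, p e * (dcov v1 v2 c e / 2)) := fun c => by
        rw [← contract_vec hv ht c p]
        have h1 := sum_vec_dvec hv ht c c
        rw [dcov_diag hv, zero_div] at h1
        calc _ = γ ^ 2 * p c * ((∑ i, dvec v1 v2 t c i * vec v1 v2 t c i)
              - ∑ i, dvec v1 v2 t c i * ∑ e, p e * vec v1 v2 t e i) := by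
              rw [← Finset.sum_sub_distrib, Finset.mul_sum]
              exact Finset.sum_congr rfl fun i _ => by ring
          _ = _ := by rw [h1]; ring
      simp only [e, Pi.zero_apply]
      refine Finset.sum_nonpos fun c _ => neg_nonpos.2 (mul_nonneg
        (mul_nonneg (sq_nonneg γ) (smax_mem γ _ c).1)
        (Finset.sum_nonneg fun e _ => mul_nonneg (smax_mem γ _ e).1 (by linarith [hD c e])))
    · obtain ⟨h1, C, k, hC, hb⟩ := (tame_smax (v1 := v1) (v2 := v2) ht1 γ c).const_mul γ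
      exact ⟨fun _ _ => h1 t rfl, C, k, hC, fun _ _ g => hb t rfl g⟩
    · obtain ⟨h1, C, k, hC, hb⟩ := (((tame_smax (v1 := v1) (v2 := v2) ht1 γ c).const_mul γ).mul
        ((tame_const (vec v1 v2 t c i)).sub (Tame.sum Finset.univ fun e _ =>
          (tame_smax (v1 := v1) (v2 := v2) ht1 γ e).mul (tame_const (vec v1 v2 t e i))))).const_mul γ
      exact ⟨fun _ _ => h1 t rfl, C, k, hC, fun _ _ g => hb t rfl g⟩
  have hcont : ContinuousOn φ (Icc (0 : ℝ) 1) := by
    obtain ⟨hc, C, k, -, hb⟩ := tame_lse (v1 := v1) (v2 := v2) γ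
    exact continuousOn_of_dominated (fun t ht => (hc t ht).aestronglyMeasurable)
      (fun t ht => ae_of_all _ fun g => by simpa [Real.norm_eq_abs] using hb t ht g)
      ((integrable_env_pow k).const_mul C)
      (ae_of_all _ fun g => ((continuous_lse γ).comp (continuous_hl g)).continuousOn)
  have h := antitoneOn_of_deriv_nonpos (convex_Icc 0 1) hcont
    (by
      intro t ht
      rw [interior_Icc] at ht
      obtain ⟨x, -, hx⟩ := hder t ht
      exact hx.differentiableAt.differentiableWithinAt)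
    (by
      intro t ht
      rw [interior_Icc] at ht
      obtain ⟨x, hx0, hx⟩ := hder t ht
      rw [hx.deriv]; exact hx0)
    (left_mem_Icc.2 zero_le_one) (right_mem_Icc.2 zero_le_one) zero_le_one
  simp only [φ] at h
  unfold hl vec at h
  simpa using h

/-- Squared length. -/
theorem integral_abs_le (f : Fin n → ℝ) :
    √(∑ i, f i ^ 2) ≤ ((∑ i, f i ^ 2) / √(n : ℝ) + √(n : ℝ)) / 2 := by
  rcases Nat.eq_zero_or_pos n with rfl | hn
  · simp
  have hn' : 0 < √(n : ℝ) := Real.sqrt_pos.2 (by exact_mod_cast hn)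
  rw [le_div_iff₀ two_pos, div_add' _ _ _ hn'.ne', le_div_iff₀ hn']
  nlinarith [sq_nonneg (√(∑ i, f i ^ 2) - √(n : ℝ)),
    Real.sq_sqrt (Finset.sum_nonneg fun i _ => sq_nonneg (f i) : (0 : ℝ) ≤ ∑ i, f i ^ 2)]

theorem integral_sumsq (n : ℕ) : ∫ g, ∑ i, g i ^ 2 ∂gs n = n := by
  have h : ∀ i : Fin n, Integrable (fun g : Fin n → ℝ => g i ^ 2) (gs n) := fun i => by
    have := PolyB.integrable (Tame.mul (polyB_coord i) (polyB_coord i) :
      PolyB fun g : Fin n → ℝ => g i * g i)
    simpa only [pow_two] using this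
  rw [integral_finsetSum _ fun i _ => h i]
  have e : ∀ i : Fin n, ∫ g : Fin n → ℝ, g i ^ 2 ∂gs n = 1 := fun i => by
    have := sq_lin (Pi.single i 1 : Fin n → ℝ) (by simp [Pi.single_apply, ite_pow])
    simpa [Pi.single_apply] using this
  simp [e]

theorem polyB_sqrt_sumsq {n : ℕ} {ι : Type*} (s : Finset ι) (f : ι → (Fin n → ℝ) → ℝ)
    (hf : ∀ i ∈ s, PolyB (f i)) : PolyB fun g => √(∑ i ∈ s, f i g ^ 2) := by
  obtain ⟨hc, C, k, hC, hb⟩ := Tame.add (tame_const 1) (Tame.sum s fun i hi => Tame.mul (hf i hi) (hf i hi))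
  refine ⟨fun t ht => (continuous_finsetSum _ fun i hi => ((hf i hi).1 t ht).pow 2).sqrt, C, k, hC,
    fun t ht g => le_trans ?_ ((le_abs_self _).trans (hb t ht g))⟩
  rw [abs_of_nonneg (Real.sqrt_nonneg _)]
  simp only [← pow_two]
  set x := ∑ i ∈ s, f i g ^ 2
  have hx : 0 ≤ x := Finset.sum_nonneg fun i _ => sq_nonneg _
  nlinarith [sq_nonneg (√x - 1), Real.sq_sqrt hx]

theorem integral_norm_le (n : ℕ) : ∫ g, √(∑ i : Fin n, g i ^ 2) ∂gs n ≤ √(n : ℝ) := by
  have i1 : Integrable (fun g : Fin n → ℝ => √(∑ i, g i ^ 2)) (gs n) :=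
    (polyB_sqrt_sumsq Finset.univ (fun i g => g i) fun i _ => polyB_coord i).integrable
  have i2 : Integrable (fun g : Fin n → ℝ => ∑ i, g i ^ 2) (gs n) := by
    have h : PolyB fun g : Fin n → ℝ => ∑ i, g i * g i :=
      Tame.sum _ fun i _ => Tame.mul (polyB_coord i) (polyB_coord i)
    simpa only [pow_two] using h.integrable
  refine (integral_mono i1 (((i2.div_const _).fun_add (integrable_const _)).div_const 2)
    fun g => integral_abs_le g).trans ?_
  rw [integral_div, integral_add (i2.div_const _) (integrable_const _), integral_div, integral_sumsq,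
    integral_const, probReal_univ, one_smul, Real.div_sqrt]
  linarith

/-- A function dominating the largest singular value, with the sharp mean. -/
theorem exists_top (M N : ℕ) (hM : 0 < M) (hN : 0 < N) :
    ∃ Z : (Fin (M * N) → ℝ) → ℝ, Integrable Z (gs (M * N)) ∧ Measurable Z ∧
      ∫ g, Z g ∂gs (M * N) ≤ √(M : ℝ) + √(N : ℝ) + 4 ∧
      ∀ g, 0 ≤ Z g ∧ ∀ v : Fin N → ℝ, ∑ i, v i ^ 2 = 1 → ∑ a, (∑ i, mat g a i * v i) ^ 2 ≤ Z g ^ 2 := by
  classical
  set ε : ℝ := 1 / (√((M * N : ℕ) : ℝ) + 1) with hεdef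
  have hε : 0 < ε := by positivity
  -- finite nets
  have net : ∀ m : ℕ, 0 < m → ∃ T : Finset (Fin m → ℝ), T.Nonempty ∧ (∀ u ∈ T, ∑ i, u i ^ 2 = 1) ∧
      ∀ x : Fin m → ℝ, ∑ i, x i ^ 2 = 1 → ∃ u ∈ T, √(∑ i, (x i - u i) ^ 2) ≤ ε := fun m hm => by
    obtain ⟨t, hts, htf, hcov⟩ := finite_cover_balls_of_compact
      (isCompact_sphere (0 : EuclideanSpace ℝ (Fin m)) 1) hε
    refine ⟨htf.toFinset.image fun x => (x.ofLp : Fin m → ℝ), ?_, ?_, ?_⟩
    · have hone : EuclideanSpace.single (⟨0, hm⟩ : Fin m) (1 : ℝ) ∈ Metric.sphere (0 : EuclideanSpace ℝ (Fin m)) 1 := by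
        simp
      obtain ⟨x, hx, -⟩ := Set.mem_iUnion₂.1 (hcov hone)
      exact ⟨_, Finset.mem_image.2 ⟨x, htf.mem_toFinset.2 hx, rfl⟩⟩
    · intro u hu
      obtain ⟨x, hx, rfl⟩ := Finset.mem_image.1 hu
      have h := hts (htf.mem_toFinset.1 hx)
      rw [mem_sphere_zero_iff_norm] at h
      have h2 := EuclideanSpace.real_norm_sq_eq x
      rw [h, one_pow] at h2
      exact h2.symm
    · intro x hx
      have hx' : WithLp.toLp 2 x ∈ Metric.sphere (0 : EuclideanSpace ℝ (Fin m)) 1 := by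
        rw [mem_sphere_zero_iff_norm, EuclideanSpace.norm_eq]
        simp [hx]
      obtain ⟨y, hy, hxy⟩ := Set.mem_iUnion₂.1 (hcov hx')
      refine ⟨_, Finset.mem_image.2 ⟨y, htf.mem_toFinset.2 hy, rfl⟩, ?_⟩
      rw [Metric.mem_ball, EuclideanSpace.dist_eq] at hxy
      refine le_trans (le_of_eq ?_) hxy.le
      congr 1
      exact Finset.sum_congr rfl fun i _ => by simp [Real.dist_eq, sq_abs]
  obtain ⟨TU, hUne, hU1, hUcov⟩ := net M hM
  obtain ⟨TV, hVne, hV1, hVcov⟩ := net N hN
  set T := TU ×ˢ TV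
  have hT : T.Nonempty := hUne.product hVne
  have : Nonempty T := hT.to_subtype
  set X : T → (Fin (M * N) → ℝ) → ℝ := fun p g => ∑ j, g j *
    (p.1.1 (finProdFinEquiv.symm j).1 * p.1.2 (finProdFinEquiv.symm j).2)
  set F : (Fin (M * N) → ℝ) → ℝ := fun g => √(∑ j, g j ^ 2)
  set γ : ℝ := Real.log (Fintype.card T) + 1 with hγdef
  have hlog : 0 ≤ Real.log (Fintype.card T) := Real.log_nonneg (by exact_mod_cast Fintype.card_pos)
  have hγ : 0 < γ := by linarith
  set Z : (Fin (M * N) → ℝ) → ℝ := fun g => lse γ (fun p => X p g) / γ + 2 * ε * F g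
  -- Z dominates
  have hdom : ∀ g (v : Fin N → ℝ), ∑ i, v i ^ 2 = 1 → ∀ (u : Fin M → ℝ), ∑ a, u a ^ 2 = 1 →
      ∑ a, u a * ∑ i, mat g a i * v i ≤ Z g := fun g v hv u hu => by
    obtain ⟨u', hu', hue⟩ := hUcov u hu
    obtain ⟨v', hv', hve⟩ := hVcov v hv
    set p : T := ⟨(u', v'), Finset.mem_product.2 ⟨hu', hv'⟩⟩
    have hX : X p g ≤ lse γ (fun p => X p g) / γ := by
      rw [le_div_iff₀ hγ, mul_comm]
      exact (lse_bounds (γ := γ) fun p => X p g).1 p
    have eX : ∀ (x : Fin M → ℝ) (y : Fin N → ℝ), ∑ j, g j * (x (finProdFinEquiv.symm j).1 * y (finProdFinEquiv.symm j).2)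
        = ∑ a, x a * ∑ i, mat g a i * y i := fun x y => by
      rw [← finProdFinEquiv.sum_comp, Fintype.sum_prod_type]
      simp [mat, Finset.mul_sum]
      exact Finset.sum_congr rfl fun a _ => Finset.sum_congr rfl fun i _ => by ring
    have cs : ∀ (x : Fin M → ℝ) (y : Fin N → ℝ),
        ∑ a, x a * ∑ i, mat g a i * y i ≤ √(∑ a, x a ^ 2) * √(∑ i, y i ^ 2) * F g := fun x y => by
      rw [← eX, ← Real.sqrt_mul (Finset.sum_nonneg fun a _ => sq_nonneg (x a))]
      refine (Real.sum_mul_le_sqrt_mul_sqrt _ _ _).trans (le_of_eq ?_)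
      rw [mul_comm]
      congr 2
      rw [← finProdFinEquiv.sum_comp, Fintype.sum_prod_type, Finset.sum_mul_sum]
      simp [mul_pow]
    have e : ∑ a, u a * ∑ i, mat g a i * v i = X p g + (∑ a, (u a - u' a) * ∑ i, mat g a i * v i
        + ∑ a, u' a * ∑ i, mat g a i * (v i - v' i)) := by
      simp only [X, p, eX, mul_sub, sub_mul, Finset.sum_sub_distrib]
      ring
    have hF : 0 ≤ F g := Real.sqrt_nonneg _
    have c1 := cs (fun a => u a - u' a) v
    have c2 := cs u' (fun i => v i - v' i)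
    rw [hv, Real.sqrt_one, mul_one] at c1
    rw [hU1 u' hu', Real.sqrt_one, one_mul] at c2
    have c1' := c1.trans (mul_le_mul_of_nonneg_right hue hF)
    have c2' := c2.trans (mul_le_mul_of_nonneg_right hve hF)
    rw [e]
    simp only [Z]
    linarith
  have hpos : ∀ g, 0 ≤ Z g := fun g => by
    obtain ⟨v, hv⟩ := hVne
    obtain ⟨u, hu⟩ := hUne
    have h1 := hdom g v (hV1 v hv) u (hU1 u hu)
    have h2 := hdom g v (hV1 v hv) (fun a => -u a) (by simpa using hU1 u hu)
    simp only [neg_mul, Finset.sum_neg_distrib] at h2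
    linarith
  have pX : ∀ p, PolyB (X p) := fun p => Tame.sum _ fun j _ => Tame.mul (polyB_coord j) (tame_const _)
  have pF : PolyB F := polyB_sqrt_sumsq Finset.univ (fun i g => g i) fun i _ => polyB_coord i
  have cX : Continuous fun g p => X p g := continuous_pi fun p => (pX p).1 0 (Set.mem_univ _)
  have cL : Continuous fun g => lse γ (fun p => X p g) := (continuous_lse γ).comp cX
  have hbnd : ∀ g, |lse γ (fun p => X p g)| ≤ Real.log (Fintype.card T) + γ * ∑ p, |X p g| := fun g => by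
    have hs : ∀ p, |X p g| ≤ ∑ q, |X q g| := fun p =>
      Finset.single_le_sum (f := fun q => |X q g|) (fun q _ => abs_nonneg _) (Finset.mem_univ p)
    obtain ⟨h1, h2⟩ := lse_bounds (γ := γ) fun p => X p g
    obtain ⟨p⟩ := (inferInstance : Nonempty T)
    have := h2 (γ * ∑ q, |X q g|) fun a => mul_le_mul_of_nonneg_left ((le_abs_self _).trans (hs a)) hγ.le
    rw [abs_le]
    refine ⟨?_, by linarith⟩
    have hm := mul_le_mul_of_nonneg_left (le_trans (neg_le_neg (hs p)) (neg_abs_le (X p g))) hγ.le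
    linarith [h1 p]
  have iL : Integrable (fun g => lse γ (fun p => X p g)) (gs (M * N)) :=
    ((integrable_const _).fun_add ((integrable_finsetSum _ fun p _ => (pX p).integrable.abs).const_mul γ)).mono'
      cL.aestronglyMeasurable (ae_of_all _ hbnd)
  have iZ : Integrable Z (gs (M * N)) := (iL.div_const _).fun_add (pF.integrable.const_mul _)
  refine ⟨Z, iZ, ((cL.div_const _).add ((pF.1 0 (Set.mem_univ _)).const_mul _)).measurable, ?_,
    fun g => ⟨hpos g, fun v hv => ?_⟩⟩
  · -- comparison with the decoupled process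
    have h2 : √(2 : ℝ) ≠ 0 := Real.sqrt_ne_zero'.2 two_pos
    set v1 : T → Fin ((M * N + 1) + (M + N)) → ℝ := fun p => Fin.append (Fin.append (fun j =>
      p.1.1 (finProdFinEquiv.symm j).1 * p.1.2 (finProdFinEquiv.symm j).2 / √2) fun _ => 1 / √2) 0
    set v2 : T → Fin ((M * N + 1) + (M + N)) → ℝ := fun p =>
      Fin.append 0 (Fin.append (fun a => p.1.1 a / √2) fun i => p.1.2 i / √2)
    have hu : ∀ p : T, ∑ a, p.1.1 a ^ 2 = 1 := fun p => hU1 _ (Finset.mem_product.1 p.2).1
    have hv' : ∀ p : T, ∑ i, p.1.2 i ^ 2 = 1 := fun p => hV1 _ (Finset.mem_product.1 p.2).2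
    have hprod : ∀ (x y : Fin M → ℝ) (x' y' : Fin N → ℝ), ∑ j, (x (finProdFinEquiv.symm j).1 * x' (finProdFinEquiv.symm j).2 / √2)
        * (y (finProdFinEquiv.symm j).1 * y' (finProdFinEquiv.symm j).2 / √2)
        = (∑ a, x a * y a) * (∑ i, x' i * y' i) / 2 := fun x y x' y' => by
      rw [← finProdFinEquiv.sum_comp, Fintype.sum_prod_type, Finset.sum_mul_sum, Finset.sum_div]
      refine Finset.sum_congr rfl fun a _ => ?_
      rw [Finset.sum_div]
      refine Finset.sum_congr rfl fun i _ => ?_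
      simp only [Equiv.symm_apply_apply]
      field_simp
      rw [Real.sq_sqrt two_pos.le]; ring
    have hcov1 : ∀ p r : T, ∑ i, v1 p i * v1 r i
        = (∑ a, p.1.1 a * r.1.1 a) * (∑ i, p.1.2 i * r.1.2 i) / 2 + 1 / 2 := fun p r => by
      simp only [v1, Fin.sum_univ_add, Fin.append_left, Fin.append_right, hprod]
      simp
      field_simp
      rw [Real.sq_sqrt two_pos.le]
    have hcov2 : ∀ p r : T, ∑ i, v2 p i * v2 r i
        = ((∑ a, p.1.1 a * r.1.1 a) + ∑ i, p.1.2 i * r.1.2 i) / 2 := fun p r => by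
      simp only [v2, Fin.sum_univ_add, Fin.append_left, Fin.append_right, Pi.zero_apply, mul_zero,
        Finset.sum_const_zero, zero_add, add_div, Finset.sum_div]
      congr 1 <;> exact Finset.sum_congr rfl fun i _ => by
        field_simp
        rw [Real.sq_sqrt two_pos.le]; ring
    have hadm : Adm v1 v2 := by
      refine ⟨fun p => ?_, fun p => ?_, fun p r => ?_⟩
      · have := hcov1 p p
        simp only [← pow_two, hu, hv'] at this
        rw [this]; norm_num
      · have := hcov2 p p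
        simp only [← pow_two, hu, hv'] at this
        rw [this]; norm_num
      · simp [v1, v2, Fin.sum_univ_add]
    have hD : ∀ p r, 0 ≤ dcov v1 v2 p r := fun p r => by
      have hx : ∑ a, p.1.1 a * r.1.1 a ≤ 1 := by
        refine (Real.sum_mul_le_sqrt_mul_sqrt _ _ _).trans ?_
        rw [hu p, hu r, Real.sqrt_one, one_mul]
      have hy : ∑ i, p.1.2 i * r.1.2 i ≤ 1 := by
        refine (Real.sum_mul_le_sqrt_mul_sqrt _ _ _).trans ?_
        rw [hv' p, hv' r, Real.sqrt_one, one_mul]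
      simp only [dcov, hcov1, hcov2]
      nlinarith [mul_nonneg (sub_nonneg.2 hx) (sub_nonneg.2 hy)]
    have hcmp := lse_compare hadm hD (√2 * γ)
    -- the two sides
    set cG : Fin (M * N) → Fin ((M * N + 1) + (M + N)) := fun j => Fin.castAdd (M + N) (Fin.castAdd 1 j)
    set cU : Fin M → Fin ((M * N + 1) + (M + N)) := fun a => Fin.natAdd (M * N + 1) (Fin.castAdd N a)
    set cV : Fin N → Fin ((M * N + 1) + (M + N)) := fun i => Fin.natAdd (M * N + 1) (Fin.natAdd M i)
    have mG := P157.mp_comp (gaussianReal 0 1) (e := cG) ((Fin.castAdd_injective _ _).comp (Fin.castAdd_injective _ _))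
    have mU := P157.mp_comp (gaussianReal 0 1) (e := cU) ((Fin.natAdd_injective _ _).comp (Fin.castAdd_injective _ _))
    have mV := P157.mp_comp (gaussianReal 0 1) (e := cV) ((Fin.natAdd_injective _ _).comp (Fin.natAdd_injective _ _))
    set ζ : Fin ((M * N + 1) + (M + N)) := Fin.castAdd (M + N) (Fin.natAdd (M * N) 0)
    have e1 : ∀ g : Fin ((M * N + 1) + (M + N)) → ℝ, lse (√2 * γ) (fun p => ∑ i, g i * v1 p i)
        = lse γ (fun p => X p fun j => g (cG j)) + γ * g ζ := fun g => by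
      have e : ∀ p, √2 * γ * ∑ i, g i * v1 p i = γ * g ζ + γ * X p fun j => g (cG j) := fun p => by
        simp only [v1, Fin.sum_univ_add, Fin.append_left, Fin.append_right, Pi.zero_apply, mul_zero,
          Finset.sum_const_zero, add_zero, X, cG, ζ, Fin.sum_univ_one, mul_add, Finset.mul_sum]
        rw [add_comm]
        congr 1
        · field_simp
        · exact Finset.sum_congr rfl fun j _ => by field_simp
      simp only [lse, e, Real.exp_add, ← Finset.mul_sum]
      rw [Real.log_mul (Real.exp_pos _).ne' (Finset.sum_pos (fun p _ => Real.exp_pos _)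
        Finset.univ_nonempty).ne', Real.log_exp]
      ring
    have e2 : ∀ g : Fin ((M * N + 1) + (M + N)) → ℝ, lse (√2 * γ) (fun p => ∑ i, g i * v2 p i)
        ≤ γ * (√(∑ a, g (cU a) ^ 2) + √(∑ i, g (cV i) ^ 2)) + Real.log (Fintype.card T) := fun g => by
      refine (lse_bounds _).2 _ fun p => ?_
      have e : √2 * γ * ∑ i, g i * v2 p i
          = γ * (∑ a, g (cU a) * p.1.1 a + ∑ i, g (cV i) * p.1.2 i) := by
        simp only [v2, Fin.sum_univ_add, Fin.append_left, Fin.append_right, Pi.zero_apply, mul_zero,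
          Finset.sum_const_zero, zero_add, cU, cV, mul_add, Finset.mul_sum]
        congr 1 <;> exact Finset.sum_congr rfl fun j _ => by field_simp
      rw [e]
      refine mul_le_mul_of_nonneg_left (add_le_add ?_ ?_) hγ.le
      · refine (Real.sum_mul_le_sqrt_mul_sqrt _ _ _).trans ?_; rw [hu p, Real.sqrt_one, mul_one]
      · refine (Real.sum_mul_le_sqrt_mul_sqrt _ _ _).trans ?_; rw [hv' p, Real.sqrt_one, mul_one]
    have iζ : Integrable (fun g : Fin ((M * N + 1) + (M + N)) → ℝ => g ζ) (gs ((M * N + 1) + (M + N))) := (polyB_coord ζ).integrable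
    have zζ : ∫ g : Fin ((M * N + 1) + (M + N)) → ℝ, g ζ ∂gs ((M * N + 1) + (M + N)) = 0 := by
      have hmp := measurePreserving_eval (fun _ : Fin ((M * N + 1) + (M + N)) => gaussianReal 0 1) ζ
      conv_rhs => rw [← integral_id_gaussianReal (μ := 0) (v := 1), ← hmp.map_eq]
      rw [integral_map hmp.measurable.aemeasurable (by fun_prop)]
      rfl
    have pU : PolyB fun g : Fin M → ℝ => √(∑ a, g a ^ 2) :=
      polyB_sqrt_sumsq Finset.univ (fun i g => g i) fun i _ => polyB_coord i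
    have pV : PolyB fun g : Fin N → ℝ => √(∑ a, g a ^ 2) :=
      polyB_sqrt_sumsq Finset.univ (fun i g => g i) fun i _ => polyB_coord i
    have jG : Integrable (fun g : Fin ((M * N + 1) + (M + N)) → ℝ => lse γ (fun p => X p fun j => g (cG j))) (gs ((M * N + 1) + (M + N))) :=
      mG.integrable_comp_of_integrable iL
    have jU : Integrable (fun g : Fin ((M * N + 1) + (M + N)) → ℝ => √(∑ a, g (cU a) ^ 2)) (gs ((M * N + 1) + (M + N))) :=
      mU.integrable_comp_of_integrable pU.integrable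
    have jV : Integrable (fun g : Fin ((M * N + 1) + (M + N)) → ℝ => √(∑ i, g (cV i) ^ 2)) (gs ((M * N + 1) + (M + N))) :=
      mV.integrable_comp_of_integrable pV.integrable
    simp only [e1] at hcmp
    rw [integral_add jG (iζ.const_mul γ), integral_const_mul, zζ, mul_zero, add_zero] at hcmp
    have hG : ∫ g : Fin ((M * N + 1) + (M + N)) → ℝ, lse γ (fun p => X p fun j => g (cG j)) ∂gs ((M * N + 1) + (M + N))
        = ∫ g, lse γ (fun p => X p g) ∂gs (M * N) := by
      conv_rhs => rw [gs, ← mG.map_eq]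
      rw [integral_map mG.measurable.aemeasurable cL.aestronglyMeasurable]
      rfl
    rw [hG] at hcmp
    have j2 : Integrable (fun g : Fin ((M * N + 1) + (M + N)) → ℝ => lse (√2 * γ) (fun p => ∑ i, g i * v2 p i)) (gs ((M * N + 1) + (M + N))) := by
      have := (tame_lse (v1 := v1) (v2 := v2) (√2 * γ)).integrable (t := 0) (left_mem_Icc.2 zero_le_one)
      unfold hl vec at this
      simpa using this
    have hup := integral_mono j2 (((jU.fun_add jV).const_mul γ).fun_add (integrable_const _)) e2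
    rw [integral_add ((jU.fun_add jV).const_mul γ) (integrable_const _), integral_const_mul,
      integral_add jU jV, integral_const, probReal_univ, one_smul] at hup
    have hU' : ∫ g : Fin ((M * N + 1) + (M + N)) → ℝ, √(∑ a, g (cU a) ^ 2) ∂gs ((M * N + 1) + (M + N)) ≤ √(M : ℝ) := by
      refine le_trans (le_of_eq ?_) (integral_norm_le M)
      conv_rhs => rw [gs, ← mU.map_eq]
      rw [integral_map mU.measurable.aemeasurable (pU.1 0 (Set.mem_univ _)).aestronglyMeasurable]
      rfl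
    have hV' : ∫ g : Fin ((M * N + 1) + (M + N)) → ℝ, √(∑ a, g (cV a) ^ 2) ∂gs ((M * N + 1) + (M + N)) ≤ √(N : ℝ) := by
      refine le_trans (le_of_eq ?_) (integral_norm_le N)
      conv_rhs => rw [gs, ← mV.map_eq]
      rw [integral_map mV.measurable.aemeasurable (pV.1 0 (Set.mem_univ _)).aestronglyMeasurable]
      rfl
    simp only [Z]
    rw [integral_add (iL.div_const _) (pF.integrable.const_mul _), integral_div, integral_const_mul]
    have a1 : (∫ g, lse γ (fun p => X p g) ∂gs (M * N)) / γ ≤ √(M : ℝ) + √(N : ℝ) + 1 := by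
      rw [div_le_iff₀ hγ]
      have := mul_le_mul_of_nonneg_left (add_le_add hU' hV') hγ.le
      linarith [hcmp.trans hup]
    have a2 : 2 * ε * ∫ g, F g ∂gs (M * N) ≤ 2 := by
      have h0 := mul_le_mul_of_nonneg_left (integral_norm_le (M * N)) (by linarith : (0 : ℝ) ≤ 2 * ε)
      refine h0.trans ?_
      rw [hεdef, mul_one_div, div_mul_eq_mul_div, div_le_iff₀ (by positivity)]
      linarith
    linarith
  · have hnn : 0 ≤ ∑ a, (∑ i, mat g a i * v i) ^ 2 := Finset.sum_nonneg fun a _ => sq_nonneg _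
    set r := √(∑ a, (∑ i, mat g a i * v i) ^ 2)
    rw [← Real.sq_sqrt hnn]
    refine pow_le_pow_left₀ (Real.sqrt_nonneg _) ?_ 2
    rcases (Real.sqrt_nonneg _ : 0 ≤ r).eq_or_lt with h0 | h0
    · rw [← h0]; exact hpos g
    · have hu : ∑ a, ((∑ i, mat g a i * v i) / r) ^ 2 = 1 := by
        simp only [div_pow, ← Finset.sum_div]
        rw [div_eq_one_iff_eq (by positivity), Real.sq_sqrt hnn]
      refine le_trans (le_of_eq ?_) (hdom g v hv _ hu)
      simp only [div_mul_eq_mul_div, ← Finset.sum_div, ← pow_two]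
      rw [eq_div_iff h0.ne', ← pow_two]
      exact Real.sq_sqrt hnn

end Vale.Agent.P166
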