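import Vale.Agent.P166.Sys
import Vale.Agent.P157.Main

/-!
Hybrid systems and near superadditivity of the expected log partition function.
-/

open MeasureTheory ProbabilityTheory Filter Topology

namespace Vale.Agent.P166

/-- Uniform prior on the cube. -/
noncomputable def unif (n : ℕ) (_σ : Fin n → Bool) : ℝ := ((2 : ℝ) ^ n)⁻¹

/-- Weight vectors of an ordinary system. -/
noncomputable def flat (n : ℕ) (σ : Fin n → Bool) (i : Fin n) : ℝ := P157.sg (σ i) / √(n : ℝ)

/-- Weight vector of a pattern of the given kind. -/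
noncomputable def wv (a b : ℕ) : Option Bool → (Fin (a + b) → Bool) → Fin (a + b) → ℝ
  | none, σ => flat (a + b) σ
  | some false, σ => Fin.append (flat a fun i => σ (Fin.castAdd b i)) 0
  | some true, σ => Fin.append 0 (flat b fun j => σ (Fin.natAdd a j))

/-- Expected log partition function. -/
noncomputable def press (ν : Measure ℝ) (κ : ℝ → ℝ) (n m : ℕ) : ℝ :=
  mean ν κ (unif n) fun _ : Fin m => flat n

/-- Expected log partition function of a hybrid system. -/
noncomputable def hyb (ν : Measure ℝ) (κ : ℝ → ℝ) (a b : ℕ) {M : ℕ} (k : Fin M → Option Bool) : ℝ :=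
  mean ν κ (unif (a + b)) fun i => wv a b (k i)

theorem prior_unif (n : ℕ) : Prior (unif n) :=
  ⟨fun σ => by unfold unif; positivity, by simp [unif]⟩

theorem sg_sq (s : Bool) : P157.sg s ^ 2 = 1 := by cases s <;> simp [P157.sg]

theorem flat_unit {n : ℕ} (hn : 0 < n) (σ : Fin n → Bool) : ∑ i, flat n σ i ^ 2 = 1 := by
  have : (0 : ℝ) < n := by exact_mod_cast hn
  simp only [flat, div_pow, sg_sq, Real.sq_sqrt this.le]
  simp [this.ne']

theorem unitVecs_flat {n : ℕ} (hn : 0 < n) (m : ℕ) : UnitVecs (fun _ : Fin m => flat n) :=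
  fun _ σ => flat_unit hn σ

theorem wv_unit {a b : ℕ} (ha : 0 < a) (hb : 0 < b) (o : Option Bool) (σ : Fin (a + b) → Bool) :
    ∑ i, wv a b o σ i ^ 2 = 1 := by
  rcases o with _ | _ | _
  · exact flat_unit (Nat.add_pos_left ha b) σ
  · simp [wv, Fin.sum_univ_add, flat_unit ha]
  · simp [wv, Fin.sum_univ_add, flat_unit hb]

variable {κ : ℝ → ℝ} {ν : Measure ℝ} [IsProbabilityMeasure ν]

/-- Marginal of some patterns on some coordinates. -/
theorem mp_sub {n n' M m : ℕ} {c : Fin n' → Fin n} (hc : Function.Injective c) {e : Fin m → Fin M}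
    (he : Function.Injective e) :
    MeasurePreserving (fun (P : Fin M → (Fin n → ℝ) × ℝ) j => (fun i => (P (e j)).1 (c i), (P (e j)).2))
      (pats ν n M) (pats ν n' m) := by
  have h1 : MeasurePreserving (fun (P : Fin M → (Fin n → ℝ) × ℝ) j => P (e j))
      (pats ν n M) (pats ν n m) := P157.mp_comp (pl ν n) he
  have hg : MeasurePreserving (fun p : (Fin n → ℝ) × ℝ => (fun i => p.1 (c i), p.2))
      (pl ν n) (pl ν n') := (P157.mp_comp (gaussianReal 0 1) hc).prod (MeasurePreserving.id ν)
  have h2 : MeasurePreserving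
      (fun (P : Fin m → (Fin n → ℝ) × ℝ) j => ((fun i => (P j).1 (c i)), (P j).2))
      (pats ν n m) (pats ν n' m) :=
    measurePreserving_pi (fun _ : Fin m => pl ν n) (fun _ : Fin m => pl ν n')
      (f := fun _ (p : (Fin n → ℝ) × ℝ) => ((fun i => p.1 (c i)), p.2)) fun _ => hg
  exact h2.comp h1

variable (hκ : ∀ x, |κ x| ≤ 1 / 25) (hκm : Measurable κ)
include hκ hκm

theorem press_lip {n : ℕ} (hn : 0 < n) (m m' : ℕ) :
    |press ν κ n m - press ν κ n m'| ≤ 1 / 40 * |(m : ℝ) - m'| := by
  have h : ∀ d j, |press ν κ n (j + d) - press ν κ n j| ≤ 1 / 40 * d := by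
    intro d
    induction d with
    | zero => intro j; simp
    | succ d ih =>
      intro j
      have h1 := mean_succ_le (ν := ν) hκ hκm (prior_unif n) (unitVecs_flat hn (j + d + 1)) (Fin.last _)
      refine (abs_sub_le _ (press ν κ n (j + d)) _).trans ?_
      push_cast
      rw [show j + (d + 1) = j + d + 1 from rfl]
      change |press ν κ n (j + d + 1) - press ν κ n (j + d)| ≤ 1 / 40 at h1
      linarith [ih j]
  rcases le_total m m' with hm | hm
  · obtain ⟨d, rfl⟩ := Nat.exists_eq_add_of_le hm
    rw [abs_sub_comm]; push_cast; simpa using h d m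
  · obtain ⟨d, rfl⟩ := Nat.exists_eq_add_of_le hm
    push_cast; simpa using h d m'

omit hκ hκm in
omit [IsProbabilityMeasure ν] in
theorem press_zero (n : ℕ) : press ν κ n 0 = 0 := by
  simp [press, mean, val, ener, (prior_unif n).2]

theorem abs_press_le {n : ℕ} (hn : 0 < n) (m : ℕ) : |press ν κ n m| ≤ m / 40 := by
  have := press_lip (ν := ν) hκ hκm hn m 0
  rw [press_zero] at this
  simp only [sub_zero, Nat.cast_zero, Nat.abs_cast] at this
  linarith

/-- Decoupled hybrid. -/
theorem hyb_base {a b : ℕ} (ha : 0 < a) (hb : 0 < b) {M : ℕ}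
    (k : Fin M → Option Bool) (hk : ∀ i, k i ≠ none) :
    hyb ν κ a b k = press ν κ a (Finset.univ.filter fun i => k i = some false).card
      + press ν κ b (Finset.univ.filter fun i => k i = some true).card := by
  classical
  set F := Finset.univ.filter fun i => k i = some false
  set T := Finset.univ.filter fun i => k i = some true
  set eF := F.orderEmbOfFin rfl
  set eT := T.orderEmbOfFin rfl
  have hF := mp_sub (ν := ν) (n := a + b) (c := Fin.castAdd b) (Fin.castAdd_injective a b) (M := M) eF.injective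
  have hT := mp_sub (ν := ν) (n := a + b) (c := Fin.natAdd a) (Fin.natAdd_injective b a) (M := M) eT.injective
  set gF : (Fin M → (Fin (a + b) → ℝ) × ℝ) → (Fin F.card → (Fin a → ℝ) × ℝ) :=
    fun P j => (fun i => (P (eF j)).1 (Fin.castAdd b i), (P (eF j)).2)
  set gT : (Fin M → (Fin (a + b) → ℝ) × ℝ) → (Fin T.card → (Fin b → ℝ) × ℝ) :=
    fun P j => (fun i => (P (eT j)).1 (Fin.natAdd a i), (P (eT j)).2)
  have hval_eq : ∀ P, val κ (unif (a + b)) (fun i => wv a b (k i)) P
      = val κ (unif a) (fun _ : Fin F.card => flat a) (gF P)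
        + val κ (unif b) (fun _ : Fin T.card => flat b) (gT P) := fun P => by
    have hsplit : ∀ (σ1 : Fin a → Bool) (σ2 : Fin b → Bool),
        ener κ (fun i => wv a b (k i)) P (Fin.append σ1 σ2)
          = ener κ (fun _ : Fin F.card => flat a) (gF P) σ1
            + ener κ (fun _ : Fin T.card => flat b) (gT P) σ2 := fun σ1 σ2 => by
      have hu : (Finset.univ : Finset (Fin M)) = F ∪ T := by
        ext i; rcases h : k i with _ | _ | _ <;> simp_all [F, T]
      have hd : Disjoint F T := Finset.disjoint_filter.2 fun i _ h1 h2 => by simp [h1] at h2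
      simp only [ener]
      rw [hu, Finset.sum_union hd]
      congr 1
      all_goals first
        | (conv_lhs => rw [← Finset.map_orderEmbOfFin_univ F rfl, Finset.sum_map])
        | (conv_lhs => rw [← Finset.map_orderEmbOfFin_univ T rfl, Finset.sum_map])
      all_goals refine Finset.sum_congr rfl fun j _ => ?_
      · have : k (eF j) = some false := (Finset.mem_filter.1 (F.orderEmbOfFin_mem rfl j)).2
        simp only [RelEmbedding.coe_toEmbedding, eF] at this ⊢
        rw [this]
        simp [wv, Fin.sum_univ_add, gF, eF]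
      · have : k (eT j) = some true := (Finset.mem_filter.1 (T.orderEmbOfFin_mem rfl j)).2
        simp only [RelEmbedding.coe_toEmbedding, eT] at this ⊢
        rw [this]
        simp [wv, Fin.sum_univ_add, gT, eT]
    simp only [val]
    rw [← (Fin.appendEquiv a b).sum_comp, Fintype.sum_prod_type]
    simp only [Fin.appendEquiv, Equiv.coe_fn_mk, hsplit, Real.exp_add]
    rw [← Real.log_mul (sum_exp_pos (prior_unif a) _).ne' (sum_exp_pos (prior_unif b) _).ne',
      Finset.sum_mul_sum]
    congr 1
    refine Finset.sum_congr rfl fun x _ => Finset.sum_congr rfl fun y _ => ?_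
    simp only [unif, pow_add, mul_inv]
    ring
  have i1 := integrable_val (ν := ν) hκ hκm (prior_unif a) (unitVecs_flat ha F.card)
  have i2 := integrable_val (ν := ν) hκ hκm (prior_unif b) (unitVecs_flat hb T.card)
  have hi1 : Integrable (fun P => val κ (unif a) (fun _ : Fin F.card => flat a) (gF P))
      (pats ν (a + b) M) := hF.integrable_comp_of_integrable i1
  have hi2 : Integrable (fun P => val κ (unif b) (fun _ : Fin T.card => flat b) (gT P))
      (pats ν (a + b) M) := hT.integrable_comp_of_integrable i2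
  rw [hyb, mean]
  simp only [hval_eq]
  rw [integral_add hi1 hi2, press, press, mean, mean]
  congr 1
  · rw [← hF.map_eq, integral_map hF.measurable.aemeasurable]
    rw [hF.map_eq]; exact i1.aestronglyMeasurable
  · rw [← hT.map_eq, integral_map hT.measurable.aemeasurable]
    rw [hT.map_eq]; exact i2.aestronglyMeasurable

theorem hyb_step {a b : ℕ} (ha : 0 < a) (hb : 0 < b) {M : ℕ} (k : Fin (M + 1) → Option Bool)
    (r : Fin (M + 1)) (hr : k r = none) :
    (a : ℝ) / (a + b) * hyb ν κ a b (Function.update k r (some false))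
      + (b : ℝ) / (a + b) * hyb ν κ a b (Function.update k r (some true)) ≤ hyb ν κ a b k := by
  set v' : Fin M → (Fin (a + b) → Bool) → Fin (a + b) → ℝ := fun j => wv a b (k (r.succAbove j))
  set T : Option Bool → (Fin M → (Fin (a + b) → ℝ) × ℝ) → ℝ := fun o P =>
    ∫ p, inc κ (post (unif (a + b)) (ener κ v' P)) (wv a b o) p ∂pl ν (a + b)
  have hsplit : ∀ o, Integrable (T o) (pats ν (a + b) M) ∧
      hyb ν κ a b (Function.update k r o)
        = mean ν κ (unif (a + b)) v' + ∫ P, T o P ∂pats ν (a + b) M := fun o => by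
    have h := mean_split (ν := ν) hκ hκm (prior_unif (a + b))
      (v := fun i => wv a b (Function.update k r o i)) (fun i s => wv_unit ha hb _ s) r
    simp only [Function.update_self, Function.update_of_ne (Fin.succAbove_ne r _)] at h
    exact h
  have hkr : k = Function.update k r none := by rw [← hr]; simp
  rw [show hyb ν κ a b k = hyb ν κ a b (Function.update k r none) from congrArg _ hkr, (hsplit _).2,
    (hsplit _).2, (hsplit _).2]
  set c := (a : ℝ) / (a + b)
  have hc : (b : ℝ) / (a + b) = 1 - c := by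
    have : (0 : ℝ) < a + b := by positivity
    simp only [c]; field_simp; ring
  rw [hc]
  suffices h : c * ∫ P, T (some false) P ∂pats ν (a + b) M + (1 - c) * ∫ P, T (some true) P ∂pats ν (a + b) M
      ≤ ∫ P, T none P ∂pats ν (a + b) M by linarith
  rw [← integral_const_mul, ← integral_const_mul,
    ← integral_add ((hsplit _).1.const_mul _) ((hsplit _).1.const_mul _)]
  refine integral_mono (((hsplit _).1.const_mul _).fun_add ((hsplit _).1.const_mul _)) (hsplit _).1
    fun P => ?_
  set w := post (unif (a + b)) (ener κ v' P)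
  have hw : Prior w := post_prior (prior_unif _) _
  have ii : ∀ o, Integrable (inc κ w (wv a b o)) (pl ν (a + b)) := fun o =>
    (inc_moments hκ hκm hw (wv_unit ha hb o)).1
  have e : ∀ o, T o P = ∫ x, ∫ g, inc κ w (wv a b o) (g, x) ∂gs (a + b) ∂ν := fun o =>
    integral_prod_symm _ (ii o)
  simp only [e]
  rw [← integral_const_mul, ← integral_const_mul,
    ← integral_add ((ii _).integral_prod_right.const_mul _) ((ii _).integral_prod_right.const_mul _)]
  refine integral_mono (((ii _).integral_prod_right.const_mul _).fun_add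
    ((ii _).integral_prod_right.const_mul _)) (ii _).integral_prod_right fun x => ?_
  have hadm : Adm (wv a b (some false)) (wv a b (some true)) :=
    ⟨wv_unit ha hb _, wv_unit ha hb _, fun s s' => by simp [wv, Fin.sum_univ_add]⟩
  have ha' : (0 : ℝ) < a := by exact_mod_cast ha
  have hb' : (0 : ℝ) < b := by exact_mod_cast hb
  have hmix : ∀ (s : Fin (a + b) → Bool) (i : Fin (a + b)), √c * wv a b (some false) s i
      + √(1 - c) * wv a b (some true) s i = wv a b none s i := fun s i => by
    rw [← hc]
    simp only [c]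
    induction i using Fin.addCases with
    | left i =>
      simp [wv, flat, Real.sqrt_div ha'.le]
      field_simp
    | right i =>
      simp [wv, flat, Real.sqrt_div hb'.le]
      field_simp
  have h := one_pattern hw.1 hw.2 (hκ x) hadm (c := c)
    ⟨by positivity, div_le_one_of_le₀ (by linarith) (by positivity)⟩
  simp only [hmix] at h
  exact h

/-- Repeated exchange gives a lower bound by the binomial mixture. -/
theorem hyb_lower {a b : ℕ} (ha : 0 < a) (hb : 0 < b) {s : ℝ} (hs : 0 < s) (m m' : ℕ) :
    ∀ (j M : ℕ) (k : Fin M → Option Bool), (Finset.univ.filter fun i => k i = none).card = j →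
      press ν κ a m + press ν κ b m'
        - 1 / 40 * (((((Finset.univ.filter fun i => k i = some false).card : ℝ) + j * ((a : ℝ) / (a + b)) - m) ^ 2
            + j * ((a : ℝ) / (a + b)) * ((b : ℝ) / (a + b))) / s + s
            + |((Finset.univ.filter fun i => k i = some false).card : ℝ)
              + ((Finset.univ.filter fun i => k i = some true).card : ℝ) + j - m - m'|)
        ≤ hyb ν κ a b k := by
  classical
  intro j
  induction j with
  | zero =>
    intro M k hk
    have hk' : ∀ i, k i ≠ none := fun i h => by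
      have : i ∈ Finset.univ.filter fun i => k i = none := Finset.mem_filter.2 ⟨Finset.mem_univ _, h⟩
      rw [Finset.card_eq_zero.1 hk] at this; simp at this
    rw [hyb_base hκ hκm ha hb k hk']
    set x := (Finset.univ.filter fun i => k i = some false).card
    set y := (Finset.univ.filter fun i => k i = some true).card
    have h1 := abs_le.1 (press_lip (ν := ν) hκ hκm ha x m)
    have h2 := abs_le.1 (press_lip (ν := ν) hκ hκm hb y m')
    have h3 : |(y : ℝ) - m'| ≤ |(x : ℝ) - m| + |(x : ℝ) + y - m - m'| := by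
      calc |(y : ℝ) - m'| = |((x : ℝ) + y - m - m') - ((x : ℝ) - m)| := by ring_nf
        _ ≤ _ := (abs_sub _ _).trans_eq (add_comm _ _)
    have h4 : 2 * |(x : ℝ) - m| ≤ ((x : ℝ) - m) ^ 2 / s + s := by
      rw [div_add' _ _ _ hs.ne', le_div_iff₀ hs]
      nlinarith [sq_nonneg (|(x : ℝ) - m| - s), sq_abs ((x : ℝ) - m)]
    simp only [Nat.cast_zero, zero_mul, add_zero]
    linarith [h1.1, h2.1]
  | succ j ih =>
    intro M k hk
    obtain ⟨r, hr⟩ : ∃ r, k r = none := by
      have : (Finset.univ.filter fun i => k i = none).Nonempty := Finset.card_pos.1 (by omega)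
      obtain ⟨r, hr⟩ := this
      exact ⟨r, (Finset.mem_filter.1 hr).2⟩
    obtain ⟨M, rfl⟩ : ∃ M', M = M' + 1 := ⟨M - 1, by have := r.isLt; omega⟩
    refine le_trans ?_ (hyb_step hκ hκm ha hb k r hr)
    have hnone : ∀ c : Bool, (Finset.univ.filter fun i => Function.update k r (some c) i = none).card = j := by
      intro c
      have : (Finset.univ.filter fun i => Function.update k r (some c) i = none)
          = (Finset.univ.filter fun i => k i = none).erase r := by
        ext i; by_cases h : i = r <;> simp [h]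
      rw [this, Finset.card_erase_of_mem (by simp [hr]), hk]; omega
    have hsome : ∀ c c' : Bool, (Finset.univ.filter fun i => Function.update k r (some c) i = some c').card
        = (Finset.univ.filter fun i => k i = some c').card + if c = c' then 1 else 0 := by
      intro c c'
      by_cases hc : c = c'
      · subst hc
        have : (Finset.univ.filter fun i => Function.update k r (some c) i = some c)
            = insert r (Finset.univ.filter fun i => k i = some c) := by
          ext i; by_cases h : i = r <;> simp [h]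
        rw [this, Finset.card_insert_of_notMem (by simp [hr]), if_pos rfl]
      · have : (Finset.univ.filter fun i => Function.update k r (some c) i = some c')
            = (Finset.univ.filter fun i => k i = some c') := by
          ext i; by_cases h : i = r <;> simp [h, hr, hc]
        rw [this, if_neg hc, add_zero]
    have i1 := ih _ (Function.update k r (some false)) (hnone false)
    have i2 := ih _ (Function.update k r (some true)) (hnone true)
    simp only [hsome, Bool.false_eq_true, Bool.true_eq_false, if_true, if_false, add_zero,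
      Nat.cast_add, Nat.cast_one] at i1 i2
    set x := ((Finset.univ.filter fun i => k i = some false).card : ℝ)
    set y := ((Finset.univ.filter fun i => k i = some true).card : ℝ)
    push_cast
    set c₁ := (a : ℝ) / (a + b)
    set c₂ := (b : ℝ) / (a + b)
    have hc : c₂ = 1 - c₁ := by simp only [c₁, c₂]; field_simp; ring
    have hc1 : 0 ≤ c₁ := by positivity
    have hc2 : 0 ≤ c₂ := by positivity
    have e1 := mul_le_mul_of_nonneg_left i1 hc1
    have e2 := mul_le_mul_of_nonneg_left i2 hc2
    refine le_trans (le_of_eq ?_) (add_le_add e1 e2)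
    rw [show x + 1 + y + (j : ℝ) - m - m' = x + y + ((j : ℝ) + 1) - m - m' by ring,
      show x + (y + 1) + (j : ℝ) - m - m' = x + y + ((j : ℝ) + 1) - m - m' by ring, hc]
    field_simp
    ring

theorem superadd_le {α : ℝ} (hα : 0 ≤ α) {a b : ℕ} (ha : 0 < a) (hb : 0 < b) :
    press ν κ a ⌊α * a⌋₊ + press ν κ b ⌊α * b⌋₊ - 1 / 40 * ((α + 5) * √(min a b : ℝ))
      ≤ press ν κ (a + b) ⌊α * (a + b : ℕ)⌋₊ := by
  set M := ⌊α * (a + b : ℕ)⌋₊
  set k : Fin M → Option Bool := fun _ => none
  have hfull : hyb ν κ a b k = press ν κ (a + b) M := rfl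
  have hs : 1 ≤ √(min a b : ℝ) :=
    Real.one_le_sqrt.2 (le_min (by exact_mod_cast ha) (by exact_mod_cast hb))
  have h := hyb_lower (ν := ν) hκ hκm ha hb (s := √(min a b : ℝ)) (by linarith)
    ⌊α * a⌋₊ ⌊α * b⌋₊ M M k (by simp [k])
  rw [hfull] at h
  simp only [k, reduceCtorEq, Finset.filter_false, Finset.card_empty, Nat.cast_zero, zero_add] at h
  refine le_trans ?_ h
  have ha' : (0 : ℝ) < a := by exact_mod_cast ha
  have hb' : (0 : ℝ) < b := by exact_mod_cast hb
  have hαa := Nat.floor_le (show 0 ≤ α * (a : ℝ) by positivity)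
  have hαa' := Nat.lt_floor_add_one (α * (a : ℝ))
  have hαb := Nat.floor_le (show 0 ≤ α * (b : ℝ) by positivity)
  have hαb' := Nat.lt_floor_add_one (α * (b : ℝ))
  have hM := Nat.floor_le (show 0 ≤ α * ((a + b : ℕ) : ℝ) by positivity)
  have hM' := Nat.lt_floor_add_one (α * ((a + b : ℕ) : ℝ))
  have hMdef : (M : ℝ) = (⌊α * ((a + b : ℕ) : ℝ)⌋₊ : ℝ) := rfl
  rw [← hMdef] at hM hM'
  push_cast at hM hM'
  set c := (a : ℝ) / (a + b)
  have hc0 : 0 ≤ c := by positivity
  have hc1 : c ≤ 1 := div_le_one_of_le₀ (by linarith) (by positivity)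
  have hMc : (M : ℝ) * c ≤ α * a := by
    calc (M : ℝ) * c ≤ α * (a + b) * c := mul_le_mul_of_nonneg_right hM hc0
      _ = α * a := by simp only [c]; field_simp
  have hMc' : α * a - 1 ≤ (M : ℝ) * c := by
    have h1 : α * (a + b) * c = α * a := by simp only [c]; field_simp
    nlinarith [mul_le_mul_of_nonneg_right hM'.le hc0]
  have hMd : (M : ℝ) * ((b : ℝ) / (a + b)) ≤ α * b := by
    calc (M : ℝ) * ((b : ℝ) / (a + b)) ≤ α * (a + b) * ((b : ℝ) / (a + b)) :=
          mul_le_mul_of_nonneg_right hM (by positivity)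
      _ = α * b := by field_simp
  have hd0 : 0 ≤ (b : ℝ) / (a + b) := by positivity
  have hd1 : (b : ℝ) / (a + b) ≤ 1 := div_le_one_of_le₀ (by linarith) (by positivity)
  have hsq : ((M : ℝ) * c - ⌊α * a⌋₊) ^ 2 ≤ 1 := by
    nlinarith
  have hmix : (M : ℝ) * c * ((b : ℝ) / (a + b)) ≤ α * min (a : ℝ) b := by
    rcases min_choice (a : ℝ) b with h' | h' <;> rw [h']
    · exact (mul_le_of_le_one_right (by positivity) hd1).trans hMc
    · calc (M : ℝ) * c * ((b : ℝ) / (a + b)) = (M : ℝ) * ((b : ℝ) / (a + b)) * c := by ring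
        _ ≤ _ := (mul_le_of_le_one_right (by positivity) hc1).trans hMd
  have hD : |(M : ℝ) - ⌊α * a⌋₊ - ⌊α * b⌋₊| ≤ 2 := abs_le.2 ⟨by linarith, by linarith⟩
  set S := √(min a b : ℝ)
  have hS2 : S ^ 2 = min (a : ℝ) b := Real.sq_sqrt (by positivity)
  have hdiv : (((M : ℝ) * c - ⌊α * a⌋₊) ^ 2 + (M : ℝ) * c * ((b : ℝ) / (a + b))) / S ≤ 1 + α * S := by
    rw [div_le_iff₀ (by linarith)]
    nlinarith
  have hin : (((M : ℝ) * c - ⌊α * a⌋₊) ^ 2 + (M : ℝ) * c * ((b : ℝ) / (a + b))) / S + S
      + |(M : ℝ) - ⌊α * a⌋₊ - ⌊α * b⌋₊| ≤ (α + 5) * S := by nlinarith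
  linarith

/-- The normalised expected log partition function converges at every intensity. -/
theorem tendsto_press {α : ℝ} (hα : 0 ≤ α) :
    ∃ L, Tendsto (fun N : ℕ => press ν κ N ⌊α * N⌋₊ / N) atTop (𝓝 L) := by
  set K := 2 * (1 / 40 : ℝ) * (α + 5)
  have hK : 0 ≤ K := by positivity
  set u : ℕ → ℝ := fun n => if n = 0 then 0 else K * √(n : ℝ) - press ν κ n ⌊α * n⌋₊
  have hsub : Subadditive u := by
    intro a b
    rcases Nat.eq_zero_or_pos a with rfl | ha
    · simp [u]
    rcases Nat.eq_zero_or_pos b with rfl | hb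
    · simp [u]
    have h1 := superadd_le (ν := ν) hκ hκm hα ha hb
    have h2 := mul_le_mul_of_nonneg_left
      (P157.sqrt_gain (a : ℝ) b (Nat.cast_nonneg a) (Nat.cast_nonneg b)) hK
    simp only [u, Nat.cast_add, if_neg ha.ne', if_neg hb.ne', if_neg (show a + b ≠ 0 by omega)] at h1 h2 ⊢
    simp only [K] at h2 ⊢
    linarith
  have hbdd : BddBelow (Set.range fun n => u n / n) := by
    refine ⟨-(α / 40), ?_⟩
    rintro _ ⟨n, rfl⟩
    rcases Nat.eq_zero_or_pos n with rfl | hn
    · simp; positivity
    have hn' : (0 : ℝ) < n := by exact_mod_cast hn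
    simp only [u, if_neg hn.ne']
    rw [le_div_iff₀ hn']
    have h1 := (abs_le.1 (abs_press_le (ν := ν) hκ hκm hn ⌊α * n⌋₊)).2
    have h2 := Nat.floor_le (show 0 ≤ α * (n : ℝ) by positivity)
    have h3 : 0 ≤ K * √(n : ℝ) := by positivity
    linarith
  have hl := hsub.tendsto_lim hbdd
  have hK0 : Tendsto (fun n : ℕ => K * √(n : ℝ) / n) atTop (𝓝 0) := by
    have h1 : Tendsto (fun n : ℕ => (√(n : ℝ))⁻¹) atTop (𝓝 0) :=
      tendsto_inv_atTop_zero.comp (Real.tendsto_sqrt_atTop.comp tendsto_natCast_atTop_atTop)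
    simpa [mul_div_assoc, Real.sqrt_div_self] using h1.const_mul K
  refine ⟨0 - hsub.lim, (hK0.sub hl).congr' ?_⟩
  filter_upwards [eventually_gt_atTop 0] with n hn
  simp only [u, if_neg hn.ne']; ring

/-- Mean-square convergence to a deterministic limit. -/
theorem tendsto_sq {α : ℝ} (hα : 0 ≤ α) :
    ∃ L : ℝ, ∀ ε : ℝ, 0 < ε → ∀ᶠ N : ℕ in atTop,
      Integrable (fun P => (val κ (unif N) (fun _ : Fin ⌊α * N⌋₊ => flat N) P / N - L) ^ 2)
          (pats ν N ⌊α * N⌋₊) ∧
        ∫ P, (val κ (unif N) (fun _ : Fin ⌊α * N⌋₊ => flat N) P / N - L) ^ 2 ∂pats ν N ⌊α * N⌋₊ < ε := by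
  obtain ⟨L, hL⟩ := tendsto_press (ν := ν) hκ hκm hα
  refine ⟨L, fun ε hε => ?_⟩
  have h0 : Tendsto (fun N : ℕ => 2 * α / N + (press ν κ N ⌊α * N⌋₊ / N - L) ^ 2) atTop (𝓝 0) := by
    simpa using (tendsto_const_div_atTop_nhds_zero_nat (2 * α)).add ((hL.sub_const L).pow 2)
  filter_upwards [eventually_gt_atTop 0, h0.eventually (gt_mem_nhds hε)] with N hN hlt
  set M := ⌊α * (N : ℝ)⌋₊
  set F := val κ (unif N) (fun _ : Fin M => flat N)
  have hF := memLp_val (ν := ν) hκ hκm (prior_unif N) (unitVecs_flat hN M)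
  set m := press ν κ N M
  have hN' : (0 : ℝ) < N := by exact_mod_cast hN
  have e : ∀ P, (F P / N - L) ^ 2
      = (F P - m) ^ 2 / N ^ 2 + (2 * (m / N - L) / N * (F P - m) + (m / N - L) ^ 2) := fun P => by
    field_simp
    ring
  have i1 : Integrable (fun P => (F P - m) ^ 2 / N ^ 2) (pats ν N M) :=
    (hF.sub (memLp_const m)).integrable_sq.div_const _
  have iF : Integrable F (pats ν N M) := hF.integrable one_le_two
  have i2 := (iF.sub' (integrable_const m)).const_mul (2 * (m / N - L) / N)
  simp only [e]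
  refine ⟨i1.fun_add (i2.fun_add (integrable_const _)), lt_of_le_of_lt ?_ hlt⟩
  rw [integral_add i1 (i2.fun_add (integrable_const _)), integral_add i2 (integrable_const _),
    integral_const_mul, integral_const, probReal_univ, one_smul, integral_div]
  have hz : ∫ P, (F P - m) ∂pats ν N M = 0 := by
    rw [integral_sub iF (integrable_const _), integral_const, probReal_univ, one_smul]
    exact sub_self _
  rw [hz, mul_zero, zero_add]
  refine add_le_add ?_ le_rfl
  have hv := val_variance (ν := ν) hκ hκm M (unif N) (prior_unif N) _ (unitVecs_flat hN M)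
  have hM := Nat.floor_le (show 0 ≤ α * (N : ℝ) by positivity)
  rw [div_le_div_iff₀ (by positivity) hN']
  refine (mul_le_mul_of_nonneg_right (hv.trans (mul_le_mul_of_nonneg_left hM two_pos.le)) hN'.le).trans ?_
  exact le_of_eq (by ring)

end Vale.Agent.P166
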