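import Vale.Agent.P166.Concave

/-!
Finite systems with random marked Gaussian patterns: one-pattern increments and concentration.
-/

open MeasureTheory ProbabilityTheory Filter Topology

namespace Vale.Agent.P166

variable {n : ℕ} {S : Type*} [Fintype S]

/-- Law of one marked pattern. -/
noncomputable def pl (ν : Measure ℝ) (n : ℕ) : Measure ((Fin n → ℝ) × ℝ) := (gs n).prod ν

/-- Law of `M` marked patterns. -/
noncomputable def pats (ν : Measure ℝ) (n M : ℕ) : Measure (Fin M → (Fin n → ℝ) × ℝ) :=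
  Measure.pi fun _ => pl ν n

instance pl_prob (ν : Measure ℝ) [IsProbabilityMeasure ν] (n : ℕ) :
    IsProbabilityMeasure (pl ν n) := by unfold pl; infer_instance

instance pats_prob (ν : Measure ℝ) [IsProbabilityMeasure ν] (n M : ℕ) :
    IsProbabilityMeasure (pats ν n M) := by unfold pats; infer_instance

/-- Energy of a configuration. -/
noncomputable def ener (κ : ℝ → ℝ) {M : ℕ} (v : Fin M → S → Fin n → ℝ)
    (P : Fin M → (Fin n → ℝ) × ℝ) (s : S) : ℝ :=
  ∑ i, κ (P i).2 * (∑ l, (P i).1 l * v i s l) ^ 2 / 2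

/-- Log partition function with prior `w`. -/
noncomputable def val (κ : ℝ → ℝ) (w : S → ℝ) {M : ℕ} (v : Fin M → S → Fin n → ℝ)
    (P : Fin M → (Fin n → ℝ) × ℝ) : ℝ :=
  Real.log (∑ s, w s * Real.exp (ener κ v P s))

/-- Increment produced by one pattern. -/
noncomputable def inc (κ : ℝ → ℝ) (w : S → ℝ) (u : S → Fin n → ℝ) (p : (Fin n → ℝ) × ℝ) : ℝ :=
  lfun (κ p.2) w fun s => ∑ l, p.1 l * u s l

/-- Reweighting by exponential weights. -/
noncomputable def post (w : S → ℝ) (x : S → ℝ) (s : S) : ℝ :=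
  w s * Real.exp (x s) / ∑ t, w t * Real.exp (x t)

/-- Mean log partition function. -/
noncomputable def mean (ν : Measure ℝ) (κ : ℝ → ℝ) (w : S → ℝ) {M : ℕ}
    (v : Fin M → S → Fin n → ℝ) : ℝ :=
  ∫ P, val κ w v P ∂pats ν n M

/-- A prior. -/
def Prior (w : S → ℝ) : Prop := (∀ s, 0 ≤ w s) ∧ ∑ s, w s = 1

theorem sum_exp_pos {w : S → ℝ} (hw : Prior w) (x : S → ℝ) : 0 < ∑ s, w s * Real.exp (x s) := by
  obtain ⟨s, hs⟩ : ∃ s, 0 < w s := by
    by_contra hc
    push Not at hc
    linarith [hw.2, Finset.sum_eq_zero (s := (Finset.univ : Finset S))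
      fun s _ => le_antisymm (hc s) (hw.1 s)]
  exact Finset.sum_pos' (fun t _ => mul_nonneg (hw.1 t) (Real.exp_pos _).le)
    ⟨s, Finset.mem_univ s, mul_pos hs (Real.exp_pos _)⟩

theorem post_prior {w : S → ℝ} (hw : Prior w) (x : S → ℝ) : Prior (post w x) :=
  ⟨fun s => div_nonneg (mul_nonneg (hw.1 s) (Real.exp_pos _).le) (sum_exp_pos hw x).le,
    by simp only [post, ← Finset.sum_div]; exact div_self (sum_exp_pos hw x).ne'⟩

theorem log_split {w : S → ℝ} (hw : Prior w) (x y : S → ℝ) :
    Real.log (∑ s, w s * Real.exp (x s + y s))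
      = Real.log (∑ s, w s * Real.exp (x s)) + Real.log (∑ s, post w x s * Real.exp (y s)) := by
  rw [← Real.log_mul (sum_exp_pos hw x).ne' (sum_exp_pos (post_prior hw x) y).ne', Finset.mul_sum]
  congr 1
  refine Finset.sum_congr rfl fun s _ => ?_
  have := (sum_exp_pos hw x).ne'
  simp only [post, Real.exp_add]
  field_simp

theorem abs_log_le {w : S → ℝ} (hw : Prior w) (x : S → ℝ) {C : ℝ} (hx : ∀ s, |x s| ≤ C) :
    |Real.log (∑ s, w s * Real.exp (x s))| ≤ C := by
  refine abs_le.2 ⟨(Real.le_log_iff_exp_le (sum_exp_pos hw x)).2 ?_,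
    (Real.log_le_iff_le_exp (sum_exp_pos hw x)).2 ?_⟩
  · calc Real.exp (-C) = ∑ s, w s * Real.exp (-C) := by rw [← Finset.sum_mul, hw.2, one_mul]
      _ ≤ _ := Finset.sum_le_sum fun s _ =>
        mul_le_mul_of_nonneg_left (Real.exp_le_exp.2 (abs_le.1 (hx s)).1) (hw.1 s)
  · calc ∑ s, w s * Real.exp (x s) ≤ ∑ s, w s * Real.exp C := Finset.sum_le_sum fun s _ =>
          mul_le_mul_of_nonneg_left (Real.exp_le_exp.2 (abs_le.1 (hx s)).2) (hw.1 s)
      _ = _ := by rw [← Finset.sum_mul, hw.2, one_mul]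

variable {κ : ℝ → ℝ} {ν : Measure ℝ} [IsProbabilityMeasure ν] {w : S → ℝ}

/-- Unit weight vectors. -/
def UnitVecs {M : ℕ} (v : Fin M → S → Fin n → ℝ) : Prop := ∀ i s, ∑ l, v i s l ^ 2 = 1

section

variable (hκ : ∀ x, |κ x| ≤ 1 / 25) (hκm : Measurable κ) (hw : Prior w)
include hκ hw

theorem abs_val_le {M : ℕ} {v : Fin M → S → Fin n → ℝ} (hv : UnitVecs v)
    (P : Fin M → (Fin n → ℝ) × ℝ) : |val κ w v P| ≤ ∑ i, ∑ l, (P i).1 l ^ 2 := by
  refine abs_log_le hw _ fun s => (Finset.abs_sum_le_sum_abs _ _).trans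
    (Finset.sum_le_sum fun i _ => ?_)
  have hcs := Finset.sum_mul_sq_le_sq_mul_sq Finset.univ (P i).1 (v i s)
  rw [hv i s, mul_one] at hcs
  rw [abs_div, abs_mul, abs_of_nonneg (sq_nonneg (∑ l, (P i).1 l * v i s l)), abs_two]
  nlinarith [hκ (P i).2, abs_nonneg (κ (P i).2), sq_nonneg (∑ l, (P i).1 l * v i s l)]

/-- Bound on one increment. -/
theorem abs_inc_le (u : S → Fin n → ℝ) (p : (Fin n → ℝ) × ℝ) :
    |inc κ w u p| ≤ ∑ s, w s * (Real.exp (1 / 50 * (∑ l, p.1 l * u s l) ^ 2) - 1) := by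
  set h : S → ℝ := fun s => ∑ l, p.1 l * u s l
  set b := κ p.2
  have hb := abs_le.1 (hκ p.2)
  have hz := zfun_pos (b := b) hw.1 hw.2 h
  have hone : ∀ F : S → ℝ, ∑ s, w s * (F s - 1) = ∑ s, w s * F s - 1 := fun F => by
    simp only [mul_sub, Finset.sum_sub_distrib, mul_one, hw.2]
  have hupper : zfun b w h ≤ ∑ s, w s * Real.exp (1 / 50 * h s ^ 2) :=
    Finset.sum_le_sum fun s _ => mul_le_mul_of_nonneg_left
      (Real.exp_le_exp.2 (by nlinarith [sq_nonneg (h s)])) (hw.1 s)
  have hj := exp_avg_le hw.1 hw.2 1 (fun s => b * h s ^ 2 / 2)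
  simp only [one_mul] at hj
  have hlow : ∑ s, w s * (b * h s ^ 2 / 2) ≤ Real.log (zfun b w h) :=
    (Real.le_log_iff_exp_le hz).2 hj
  have hsum : -∑ s, w s * (Real.exp (1 / 50 * h s ^ 2) - 1) ≤ ∑ s, w s * (b * h s ^ 2 / 2) := by
    rw [← Finset.sum_neg_distrib]
    refine Finset.sum_le_sum fun s _ => ?_
    rw [← mul_neg]
    refine mul_le_mul_of_nonneg_left ?_ (hw.1 s)
    nlinarith [Real.add_one_le_exp (1 / 50 * h s ^ 2), sq_nonneg (h s)]
  show |lfun b w h| ≤ ∑ s, w s * (Real.exp (1 / 50 * h s ^ 2) - 1)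
  have hlog := Real.log_le_sub_one_of_pos hz
  exact abs_le.2 ⟨hsum.trans hlow, by simp only [lfun, hone]; linarith⟩

theorem inc_sq_le (u : S → Fin n → ℝ) (p : (Fin n → ℝ) × ℝ) :
    inc κ w u p ^ 2 ≤ ∑ s, w s * Real.exp (1 / 25 * (∑ l, p.1 l * u s l) ^ 2) := by
  set y : S → ℝ := fun s => Real.exp (1 / 50 * (∑ l, p.1 l * u s l) ^ 2) - 1
  have hy : ∀ s, 0 ≤ y s := fun s => by
    simp only [y, sub_nonneg]; exact Real.one_le_exp (by positivity)
  have h1 : |inc κ w u p| ≤ ∑ s, w s * y s := abs_inc_le hκ hw u p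
  have h2 : (∑ s, w s * y s) ^ 2 ≤ ∑ s, w s * y s ^ 2 := by
    have := Finset.sum_sq_le_sum_mul_sum_of_sq_le_mul Finset.univ (r := fun s => w s * y s)
      (f := w) (g := fun s => w s * y s ^ 2) (fun s _ => hw.1 s)
      (fun s _ => mul_nonneg (hw.1 s) (sq_nonneg _)) (fun s _ => le_of_eq (by ring))
    rwa [hw.2, one_mul] at this
  refine (sq_abs (inc κ w u p)).symm.trans_le ((pow_le_pow_left₀ (abs_nonneg _) h1 2).trans
    (h2.trans (Finset.sum_le_sum fun s _ => mul_le_mul_of_nonneg_left ?_ (hw.1 s))))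
  refine (pow_le_pow_left₀ (hy s) (sub_le_self _ zero_le_one) 2).trans_eq ?_
  rw [← Real.exp_nat_mul]; congr 1; push_cast; ring

end

theorem measurable_inc (hκm : Measurable κ) (w : S → ℝ) (u : S → Fin n → ℝ) :
    Measurable (inc κ w u) := by
  unfold inc lfun zfun; fun_prop

theorem measurable_val (hκm : Measurable κ) (w : S → ℝ) {M : ℕ} (v : Fin M → S → Fin n → ℝ) :
    Measurable (val κ w v) := by
  unfold val ener; fun_prop

theorem integrable_expsum {w : S → ℝ} {u : S → Fin n → ℝ} (hu : ∀ s, ∑ l, u s l ^ 2 = 1) {c : ℝ}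
    (hc : c < 1 / 2) :
    Integrable (fun p : (Fin n → ℝ) × ℝ => ∑ s, w s * Real.exp (c * (∑ l, p.1 l * u s l) ^ 2))
      (pl ν n) :=
  (integrable_finsetSum _ fun s _ => (exp_sq_lin (u s) (hu s) hc).1.const_mul _).comp_fst _

theorem integral_expsum {w : S → ℝ} (hw : Prior w) {u : S → Fin n → ℝ}
    (hu : ∀ s, ∑ l, u s l ^ 2 = 1) {c : ℝ} (hc : c < 1 / 2) :
    ∫ p : (Fin n → ℝ) × ℝ, ∑ s, w s * Real.exp (c * (∑ l, p.1 l * u s l) ^ 2) ∂pl ν n = chi c := by
  rw [pl, integral_fun_fst (fun g : Fin n → ℝ => ∑ s, w s * Real.exp (c * (∑ l, g l * u s l) ^ 2)),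
    probReal_univ, one_smul, integral_finsetSum _ fun s _ => (exp_sq_lin (u s) (hu s) hc).1.const_mul _]
  simp only [integral_const_mul, (exp_sq_lin _ (hu _) hc).2]
  rw [← Finset.sum_mul, hw.2, one_mul]

section

variable (hκ : ∀ x, |κ x| ≤ 1 / 25) (hκm : Measurable κ) (hw : Prior w)
include hκ hκm hw

theorem inc_moments {u : S → Fin n → ℝ} (hu : ∀ s, ∑ l, u s l ^ 2 = 1) :
    Integrable (inc κ w u) (pl ν n) ∧ ∫ p, |inc κ w u p| ∂pl ν n ≤ 1 / 40 ∧
      Integrable (fun p => inc κ w u p ^ 2) (pl ν n) ∧ ∫ p, inc κ w u p ^ 2 ∂pl ν n ≤ 2 := by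
  have hm := measurable_inc (n := n) hκm w u
  have i1 := integrable_expsum (ν := ν) (w := w) hu (c := 1 / 50) (by norm_num)
  have i2 := integrable_expsum (ν := ν) (w := w) hu (c := 1 / 25) (by norm_num)
  have hone : ∀ p : (Fin n → ℝ) × ℝ, |inc κ w u p|
      ≤ ∑ s, w s * Real.exp (1 / 50 * (∑ l, p.1 l * u s l) ^ 2) - 1 := fun p => by
    refine (abs_inc_le hκ hw u p).trans_eq ?_
    simp only [mul_sub, Finset.sum_sub_distrib, mul_one, hw.2]
  have j1 : Integrable (inc κ w u) (pl ν n) :=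
    (i1.sub' (integrable_const 1)).mono' hm.aestronglyMeasurable
      (ae_of_all _ fun p => by rw [Real.norm_eq_abs]; exact hone p)
  have j2 : Integrable (fun p => inc κ w u p ^ 2) (pl ν n) :=
    i2.mono' (hm.pow_const 2).aestronglyMeasurable
      (ae_of_all _ fun p => by rw [Real.norm_eq_abs, abs_sq]; exact inc_sq_le hκ hw u p)
  refine ⟨j1, ?_, j2, ?_⟩
  · refine (integral_mono j1.abs (i1.sub' (integrable_const 1)) hone).trans ?_
    rw [integral_sub i1 (integrable_const 1), integral_expsum hw hu (by norm_num), integral_const,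
      probReal_univ, one_smul]
    linarith [chi_small (c := 1 / 50) le_rfl]
  · refine (integral_mono j2 i2 (inc_sq_le hκ hw u)).trans ?_
    rw [integral_expsum hw hu (by norm_num), chi, inv_le_comm₀ (Real.sqrt_pos.2 (by norm_num)) (by norm_num)]
    exact Real.le_sqrt_of_sq_le (by norm_num)

theorem abs_mean_inc_le {u : S → Fin n → ℝ} (hu : ∀ s, ∑ l, u s l ^ 2 = 1) :
    |∫ p, inc κ w u p ∂pl ν n| ≤ 1 / 40 :=
  abs_integral_le_integral_abs.trans (inc_moments hκ hκm hw hu).2.1

theorem mean_inc_sq_le {u : S → Fin n → ℝ} (hu : ∀ s, ∑ l, u s l ^ 2 = 1) :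
    (∫ p, inc κ w u p ∂pl ν n) ^ 2 ≤ 1 := by
  have h := abs_le.1 (abs_mean_inc_le (ν := ν) hκ hκm hw hu)
  nlinarith

theorem memLp_val {M : ℕ} {v : Fin M → S → Fin n → ℝ} (hv : UnitVecs v) :
    MemLp (val κ w v) 2 (pats ν n M) := by
  have h0 : MemLp (fun x : ℝ => x ^ 2) 2 (gaussianReal 0 1) := by
    refine (memLp_two_iff_integrable_sq (by fun_prop)).2 ?_
    refine (integrable_sq_add_pow 2).mono' (by fun_prop) (ae_of_all _ fun x => ?_)
    rw [Real.norm_eq_abs, abs_sq]
    exact pow_le_pow_left₀ (sq_nonneg x) (by linarith) 2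
  have m1 : ∀ l, MeasurePreserving (fun p : (Fin n → ℝ) × ℝ => p.1 l) (pl ν n) (gaussianReal 0 1) :=
    fun l => (measurePreserving_eval (fun _ : Fin n => gaussianReal 0 1) l).comp
      (measurePreserving_fst (μ := gs n) (ν := ν))
  have m2 : ∀ i l, MeasurePreserving (fun P : Fin M → (Fin n → ℝ) × ℝ => (P i).1 l) (pats ν n M)
      (gaussianReal 0 1) :=
    fun i l => (m1 l).comp (measurePreserving_eval (fun _ : Fin M => pl ν n) i)
  have h1 : ∀ i l, MemLp (fun P : Fin M → (Fin n → ℝ) × ℝ => (P i).1 l ^ 2) 2 (pats ν n M) :=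
    fun i l => h0.comp_measurePreserving (m2 i l)
  have h2 : MemLp (fun P : Fin M → (Fin n → ℝ) × ℝ => ∑ i, ∑ l, (P i).1 l ^ 2) 2 (pats ν n M) :=
    memLp_finsetSum Finset.univ fun i _ => memLp_finsetSum Finset.univ fun l _ => h1 i l
  refine h2.mono (measurable_val hκm w v).aestronglyMeasurable (ae_of_all _ fun P => ?_)
  rw [Real.norm_eq_abs, Real.norm_eq_abs]
  exact (abs_val_le hκ hw hv P).trans (le_abs_self _)

theorem integrable_val {M : ℕ} {v : Fin M → S → Fin n → ℝ} (hv : UnitVecs v) :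
    Integrable (val κ w v) (pats ν n M) :=
  (memLp_val hκ hκm hw hv).integrable one_le_two

omit hκ hκm in
theorem val_insert {M : ℕ} (v : Fin (M + 1) → S → Fin n → ℝ) (r : Fin (M + 1))
    (p : (Fin n → ℝ) × ℝ) (P : Fin M → (Fin n → ℝ) × ℝ) :
    val κ w v (r.insertNth p P) = val κ w (fun j => v (r.succAbove j)) P
      + inc κ (post w (ener κ (fun j => v (r.succAbove j)) P)) (v r) p := by
  have he : ∀ s, ener κ v (r.insertNth p P) s
      = ener κ (fun j => v (r.succAbove j)) P s + κ p.2 * (∑ l, p.1 l * v r s l) ^ 2 / 2 := fun s => by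
    simp only [ener]
    rw [Fin.sum_univ_succAbove _ r, add_comm]
    simp
  simp only [val, he]
  exact log_split hw _ _

omit hκ hκm in
theorem val_insert' {M : ℕ} (v : Fin (M + 1) → S → Fin n → ℝ) (r : Fin (M + 1))
    (p : (Fin n → ℝ) × ℝ) (P : Fin M → (Fin n → ℝ) × ℝ) :
    val κ w v (r.insertNth p P) = inc κ w (v r) p
      + val κ (post w fun s => κ p.2 * (∑ l, p.1 l * v r s l) ^ 2 / 2) (fun j => v (r.succAbove j)) P := by
  have he : ∀ s, ener κ v (r.insertNth p P) s
      = κ p.2 * (∑ l, p.1 l * v r s l) ^ 2 / 2 + ener κ (fun j => v (r.succAbove j)) P s := fun s => by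
    simp only [ener]
    rw [Fin.sum_univ_succAbove _ r]
    simp
  simp only [val, he]
  exact log_split hw _ _

theorem integrable_insert {M : ℕ} {v : Fin (M + 1) → S → Fin n → ℝ} (hv : UnitVecs v)
    (r : Fin (M + 1)) :
    Integrable (fun q : ((Fin n → ℝ) × ℝ) × (Fin M → (Fin n → ℝ) × ℝ) =>
      val κ w v (r.insertNth q.1 q.2)) ((pl ν n).prod (pats ν n M)) := by
  have h := (measurePreserving_piFinSuccAbove (fun _ : Fin (M + 1) => pl ν n) r).symm
  have := integrable_val (ν := ν) hκ hκm hw hv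
  rw [pats, ← h.map_eq, integrable_map_equiv] at this
  exact this

theorem mean_split {M : ℕ} {v : Fin (M + 1) → S → Fin n → ℝ} (hv : UnitVecs v) (r : Fin (M + 1)) :
    Integrable (fun P => ∫ p, inc κ (post w (ener κ (fun j => v (r.succAbove j)) P)) (v r) p ∂pl ν n)
        (pats ν n M) ∧
    mean ν κ w v = mean ν κ w (fun j => v (r.succAbove j))
      + ∫ P, ∫ p, inc κ (post w (ener κ (fun j => v (r.succAbove j)) P)) (v r) p ∂pl ν n ∂pats ν n M := by
  set v' : Fin M → S → Fin n → ℝ := fun j => v (r.succAbove j)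
  have hv' : UnitVecs v' := fun i s => hv _ s
  have iA := integrable_val (ν := ν) hκ hκm hw hv'
  have hI : ∀ P, ∫ p, val κ w v (r.insertNth p P) ∂pl ν n
      = val κ w v' P + ∫ p, inc κ (post w (ener κ v' P)) (v r) p ∂pl ν n := fun P => by
    simp only [val_insert hw]
    rw [integral_add (integrable_const _) (inc_moments hκ hκm (post_prior hw _) (hv r)).1,
      integral_const, probReal_univ, one_smul]
  have iR := (integrable_insert (ν := ν) hκ hκm hw hv r).integral_prod_right
  simp only [hI] at iR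
  have iT : Integrable (fun P => ∫ p, inc κ (post w (ener κ v' P)) (v r) p ∂pl ν n) (pats ν n M) :=
    (iR.sub iA).congr (ae_of_all _ fun P => by simp)
  refine ⟨iT, ?_⟩
  have h := (measurePreserving_piFinSuccAbove (fun _ : Fin (M + 1) => pl ν n) r).symm
  have e : mean ν κ w v = ∫ P, ∫ p, val κ w v (r.insertNth p P) ∂pl ν n ∂pats ν n M := by
    rw [mean, pats, ← h.map_eq, integral_map_equiv]
    exact integral_prod_symm _ (integrable_insert hκ hκm hw hv r)
  rw [e]
  simp only [hI]
  exact integral_add iA iT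

theorem mean_succ_le {M : ℕ} {v : Fin (M + 1) → S → Fin n → ℝ} (hv : UnitVecs v) (r : Fin (M + 1)) :
    |mean ν κ w v - mean ν κ w (fun j => v (r.succAbove j))| ≤ 1 / 40 := by
  rw [(mean_split hκ hκm hw hv r).2, add_sub_cancel_left, ← Real.norm_eq_abs]
  refine (norm_integral_le_of_norm_le_const (C := 1 / 40) (ae_of_all _ fun P => ?_)).trans_eq (by simp)
  exact abs_mean_inc_le hκ hκm (post_prior hw _) (hv r)

end

/-- The variance of the log partition function is at most linear in the number of patterns. -/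
theorem val_variance (hκ : ∀ x, |κ x| ≤ 1 / 25) (hκm : Measurable κ) :
    ∀ (M : ℕ) (w : S → ℝ), Prior w → ∀ (v : Fin M → S → Fin n → ℝ), UnitVecs v →
      ∫ P, (val κ w v P - mean ν κ w v) ^ 2 ∂pats ν n M ≤ 2 * M := by
  intro M
  induction M with
  | zero =>
    intro w hw v hv
    have h0 : ∀ P, val κ w v P = 0 := fun P => by simp [val, ener, hw.2]
    simp [mean, h0]
  | succ M ih =>
    intro w hw v hv
    set v' : Fin M → S → Fin n → ℝ := fun j => v ((0 : Fin (M + 1)).succAbove j)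
    have hv' : UnitVecs v' := fun i s => hv _ s
    set m := mean ν κ w v
    set c := mean ν κ w v'
    have hF := memLp_val (ν := ν) hκ hκm hw hv
    have iF := hF.integrable one_le_two
    have key : ∀ c : ℝ, Integrable (fun P => (val κ w v P - c) ^ 2) (pats ν n (M + 1)) := fun c =>
      (hF.sub (memLp_const c)).integrable_sq
    have hcentre : ∫ P, (val κ w v P - m) ^ 2 ∂pats ν n (M + 1)
        ≤ ∫ P, (val κ w v P - c) ^ 2 ∂pats ν n (M + 1) := by
      have e : ∀ P, (val κ w v P - c) ^ 2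
          = (val κ w v P - m) ^ 2 + (2 * (m - c) * (val κ w v P - m) + (m - c) ^ 2) := fun P => by ring
      have hz : ∫ P, (val κ w v P - m) ∂pats ν n (M + 1) = 0 := by
        rw [integral_sub iF (integrable_const _), integral_const, probReal_univ, one_smul]
        exact sub_self _
      have i2 := (iF.sub' (integrable_const m)).const_mul (2 * (m - c))
      simp only [e]
      rw [integral_add (key m) (i2.fun_add (integrable_const _)), integral_add i2 (integrable_const _),
        integral_const_mul, integral_const, probReal_univ, one_smul]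
      simp only [hz, mul_zero, zero_add]
      nlinarith [sq_nonneg (m - c)]
    refine hcentre.trans ?_
    have h := (measurePreserving_piFinSuccAbove (fun _ : Fin (M + 1) => pl ν n) 0).symm
    have iQ := key c
    rw [pats, ← h.map_eq, integrable_map_equiv] at iQ
    rw [pats, ← h.map_eq, integral_map_equiv]
    change Integrable (fun q : ((Fin n → ℝ) × ℝ) × (Fin M → (Fin n → ℝ) × ℝ) =>
      (val κ w v ((0 : Fin (M + 1)).insertNth q.1 q.2) - c) ^ 2) ((pl ν n).prod (pats ν n M)) at iQ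
    change ∫ q : ((Fin n → ℝ) × ℝ) × (Fin M → (Fin n → ℝ) × ℝ),
      (val κ w v ((0 : Fin (M + 1)).insertNth q.1 q.2) - c) ^ 2 ∂(pl ν n).prod (pats ν n M)
        ≤ 2 * ((M + 1 : ℕ) : ℝ)
    set I : ((Fin n → ℝ) × ℝ) → (Fin M → (Fin n → ℝ) × ℝ) → ℝ := fun p P =>
      inc κ (post w (ener κ v' P)) (v 0) p
    have hIm : Measurable fun q : ((Fin n → ℝ) × ℝ) × (Fin M → (Fin n → ℝ) × ℝ) => I q.1 q.2 := by
      simp only [I, inc, lfun, zfun, post, ener]; fun_prop
    have iI2 : Integrable (fun q : ((Fin n → ℝ) × ℝ) × (Fin M → (Fin n → ℝ) × ℝ) => I q.1 q.2 ^ 2)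
        ((pl ν n).prod (pats ν n M)) := by
      have hdom := integrable_finsetSum (Finset.univ : Finset S) fun s _ =>
        ((exp_sq_lin (v 0 s) (hv 0 s) (show (1 / 25 : ℝ) < 1 / 2 by norm_num)).1.comp_fst ν).comp_fst
          (pats ν n M)
      refine hdom.mono' (hIm.pow_const 2).aestronglyMeasurable (ae_of_all _ fun q => ?_)
      rw [Real.norm_eq_abs, abs_sq]
      refine (inc_sq_le hκ (post_prior hw _) _ _).trans (Finset.sum_le_sum fun s _ => ?_)
      refine mul_le_of_le_one_left (Real.exp_pos _).le ?_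
      calc post w (ener κ v' q.2) s ≤ ∑ t, post w (ener κ v' q.2) t :=
            Finset.single_le_sum (fun t _ => (post_prior hw _).1 t) (Finset.mem_univ s)
        _ = 1 := (post_prior hw _).2
    have iI : Integrable (fun q : ((Fin n → ℝ) × ℝ) × (Fin M → (Fin n → ℝ) × ℝ) => I q.1 q.2)
        ((pl ν n).prod (pats ν n M)) :=
      ((memLp_two_iff_integrable_sq hIm.aestronglyMeasurable).2 iI2).integrable one_le_two
    rw [integral_prod _ iQ]
    have hin : ∀ᵐ p ∂pl ν n, ∫ P, (val κ w v ((0 : Fin (M + 1)).insertNth p P) - c) ^ 2 ∂pats ν n M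
        ≤ 2 * M + ∫ P, I p P ^ 2 ∂pats ν n M := by
      filter_upwards [iI.prod_right_ae, iI2.prod_right_ae] with p i1 i2
      set w' := post w fun s => κ p.2 * (∑ l, p.1 l * v 0 s l) ^ 2 / 2
      set K := inc κ w (v 0) p
      have hw' : Prior w' := post_prior hw _
      have jA := integrable_val (ν := ν) hκ hκm hw' hv'
      have hB := memLp_val (ν := ν) hκ hκm hw' hv'
      set d := K + mean ν κ w' v' - c
      have hd : d = ∫ P, I p P ∂pats ν n M := by
        have e : ∀ P, I p P = K + val κ w' v' P - val κ w v' P := fun P => by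
          have h1 := val_insert (κ := κ) hw v 0 p P
          have h2 := val_insert' (κ := κ) hw v 0 p P
          simp only [I, K, w', v'] at h1 h2 ⊢
          linarith
        simp only [e]
        rw [integral_sub ((integrable_const K).fun_add jA) (integrable_val hκ hκm hw hv'),
          integral_add (integrable_const K) jA, integral_const, probReal_univ, one_smul]
        rfl
      have e2 : ∀ P, (val κ w v ((0 : Fin (M + 1)).insertNth p P) - c) ^ 2
          = (val κ w' v' P - mean ν κ w' v') ^ 2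
            + (2 * d * (val κ w' v' P - mean ν κ w' v') + d ^ 2) := fun P => by
        rw [val_insert' hw v 0 p P]; simp only [d, K, w', v']; ring
      have j1 : Integrable (fun P => (val κ w' v' P - mean ν κ w' v') ^ 2) (pats ν n M) :=
        (hB.sub (memLp_const (mean ν κ w' v'))).integrable_sq
      have j2 := (jA.sub' (integrable_const (mean ν κ w' v'))).const_mul (2 * d)
      simp only [e2]
      rw [integral_add j1 (j2.fun_add (integrable_const _)), integral_add j2 (integrable_const _),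
        integral_const_mul, integral_const, probReal_univ, one_smul]
      have hz : ∫ P, (val κ w' v' P - mean ν κ w' v') ∂pats ν n M = 0 := by
        rw [integral_sub jA (integrable_const _), integral_const, probReal_univ, one_smul]
        exact sub_self _
      simp only [hz, mul_zero, zero_add]
      have hjens : d ^ 2 ≤ ∫ P, I p P ^ 2 ∂pats ν n M := by
        rw [hd]
        set D := ∫ P, I p P ∂pats ν n M
        have h0 : 0 ≤ ∫ P, (I p P - D) ^ 2 ∂pats ν n M := integral_nonneg fun P => sq_nonneg _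
        have e3 : ∀ P, (I p P - D) ^ 2 = I p P ^ 2 + (-2 * D * I p P + D ^ 2) := fun P => by ring
        simp only [e3] at h0
        rw [integral_add i2 ((i1.const_mul _).fun_add (integrable_const _)),
          integral_add (i1.const_mul _) (integrable_const _), integral_const_mul, integral_const,
          probReal_univ, one_smul] at h0
        nlinarith
      linarith [ih w' hw' v' hv']
    refine (integral_mono_ae iQ.integral_prod_left
      ((integrable_const _).fun_add iI2.integral_prod_left) hin).trans ?_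
    rw [integral_add (integrable_const _) iI2.integral_prod_left, integral_const, probReal_univ,
      one_smul, ← integral_prod _ iI2, integral_prod_symm _ iI2]
    have hle : ∫ P, ∫ p, I p P ^ 2 ∂pl ν n ∂pats ν n M ≤ ∫ _P, (2 : ℝ) ∂pats ν n M :=
      integral_mono iI2.integral_prod_right (integrable_const _) fun P =>
        (inc_moments hκ hκm (post_prior hw _) (hv 0)).2.2.2
    rw [integral_const, probReal_univ, one_smul] at hle
    push_cast
    linarith

end Vale.Agent.P166
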